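import Crest.Agent.N49.Tn.Defs

/-!
# Row 49 (helper81): tangent towers, algebraic leaves (FROZEN statements)
-/

set_option autoImplicit false

open Matrix MvPolynomial Finset

noncomputable section

namespace Crest.Agent.N49.Tw

open Po

/-- leaf: products of shapes -/
def TSz : Prop := ∀ (τ0 τ : Type) (S0 : Sh Unit τ0) (S : Sh Unit τ)
  (v : Matrix (Option S0.W) (Option S0.W) ℝ) (n n1 : ℕ) (a0 a1 a2 a : ℝ), S0.Sz n a0 → S.Sz n1 a1 →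
  S0.Tk v a2 → 0 < a1 → 0 < a2 → a ≤ a0 → a ≤ a2 * a1 → (S0.ten S v).Sz ((n + 1) * (n1 + 1)) a

/-- leaf: the tangent tower is staged -/
def TSt : Prop := ∀ (τ0 : Type) (T : TS Unit) (S0 : Sh Unit τ0) (st : T.C → ℕ) (M : ℕ)
  (Ψ0 : T.Twd S0) (v : Matrix (Option S0.W) (Option S0.W) ℝ) (a : ℝ) (b : T.Cw S0 → ℤ),
  T.Stg st M → T.Adm S0 st Ψ0 → S0.Ok → S0.Tk v a →
  (T.tan S0 Ψ0 v b).Stg (T.ts S0 st M) (tM M) ∧ (T.tan S0 Ψ0 v b).Ok ∧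
  (∀ x x', ((T.tan S0 Ψ0 v b).stg (T.ts S0 st M)).A x x' =
    (T.stg st).A x.1.1 x'.1.1 * if x.1.2 = x'.1.2 then 1 else 0) ∧
  ∀ x x', ((T.tan S0 Ψ0 v b).stg (T.ts S0 st M)).D x x' = (T.stg st).D x.1.1 x'.1.1 * v x.1.2 x'.1.2

/-- leaf: the law on the product given the background is the law of the tangent tower -/
def TId : Prop := ∀ (τ0 τ : Type) (T : TS Unit) (S0 : Sh Unit τ0) (S : Sh Unit τ) (st : T.C → ℕ)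
  (Ψ0 : T.Twd S0) (v : Matrix (Option S0.W) (Option S0.W) ℝ) (h : S.Ok), T.Adm S0 st Ψ0 → S0.Ok →
  T.Adm (S0.ten S v) st (T.tin S0 S v Ψ0) ∧ ∀ b : T.Cw S0 → ℤ,
    Function.Bijective (T.tE S0 S v Ψ0 b h) ∧
    (∀ s s', (T.tw (S0.ten S v) (T.tin S0 S v Ψ0)).K (T.tE S0 S v Ψ0 b h s) (T.tE S0 S v Ψ0 b h s') =
      fromBlocks (T.tw S0 Ψ0).K 0 0 ((T.tan S0 Ψ0 v b).sh S).K s s') ∧
    ∀ y : T.Cw (S0.ten S v) → ℝ, (∀ p, y (T.tE S0 S v Ψ0 b h (.inl p)) = b p) →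
      (∀ p, (T.tw (S0.ten S v) (T.tin S0 S v Ψ0)).u y (T.tE S0 S v Ψ0 b h (.inl p)) =
        (T.tw S0 Ψ0).u (zc b) p) ∧
      ∀ q, (T.tw (S0.ten S v) (T.tin S0 S v Ψ0)).u y (T.tE S0 S v Ψ0 b h (.inr q)) =
        ((T.tan S0 Ψ0 v b).sh S).u (fun q' => y (T.tE S0 S v Ψ0 b h (.inr q'))) q

/-- leaf: the same for any twist on the product -/
def TIdw : Prop := ∀ (τ0 τ : Type) (T : TS Unit) (S0 : Sh Unit τ0) (S : Sh Unit τ) (st : T.C → ℕ)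
  (M : ℕ) (v : Matrix (Option S0.W) (Option S0.W) ℝ) (Ψ : T.Twd (S0.ten S v)) (h : S.Ok),
  T.Stg st M → T.Adm (S0.ten S v) st Ψ → S0.Ok →
  T.Adm S0 st (T.tb S0 S v Ψ) ∧ ∀ b : T.Cw S0 → ℤ,
    (T.tan S0 (T.tb S0 S v Ψ) v b).Adm S (T.ts S0 st M) (T.tt S0 S v Ψ b) ∧
    ∀ y : T.Cw (S0.ten S v) → ℝ, (∀ p, y (T.tE S0 S v (T.tb S0 S v Ψ) b h (.inl p)) = b p) →
      (∀ p, (T.tw (S0.ten S v) Ψ).u y (T.tE S0 S v (T.tb S0 S v Ψ) b h (.inl p)) =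
        (T.tw S0 (T.tb S0 S v Ψ)).u (zc b) p) ∧
      ∀ q, (T.tw (S0.ten S v) Ψ).u y (T.tE S0 S v (T.tb S0 S v Ψ) b h (.inr q)) =
        ((T.tan S0 (T.tb S0 S v Ψ) v b).tw S (T.tt S0 S v Ψ b)).u
          (fun q' => y (T.tE S0 S v (T.tb S0 S v Ψ) b h (.inr q'))) q

/-- leaf: costs of the tangent tower -/
def TCo : Prop := ∀ (τ0 : Type) (T : TS Unit) (S0 : Sh Unit τ0) (st : T.C → ℕ) (M n : ℕ)
  (Ψ0 : T.Twd S0) (v : Matrix (Option S0.W) (Option S0.W) ℝ) (a L : ℝ) (b : T.Cw S0 → ℤ)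
  (x : T.Tc S0), T.Stg st M → T.Adm S0 st Ψ0 → S0.Ok → Fintype.card S0.W ≤ n → S0.Tk v a → 0 < a →
  a ≤ 1 → 0 ≤ L →
  ∑ j ∈ Icc (T.ts S0 st M x) (tM M), (Real.log (((T.tan S0 Ψ0 v b).stg (T.ts S0 st M)).ct j) +
      ((T.tan S0 Ψ0 v b).stg (T.ts S0 st M)).R j * L) ≤
    (M + 1) * (n + 1) * ∑ j ∈ Icc (st x.1.1) M,
      (Real.log ((T.stg st).ct j) + (T.stg st).R j * (L + Real.log a⁻¹))

end Crest.Agent.N49.Tw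

end
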