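import Crest.Agent.N49.Tn.St
import Crest.Agent.N49.Tw.Ctl
import Crest.Agent.N49.Tw.Mas0

/-!
# Row 49 (helper10): the costs of the tangent tower
-/

set_option autoImplicit false

open Matrix MvPolynomial Finset

noncomputable section

namespace Crest.Agent.N49.Tw

open Po

namespace Tco

theorem ct_emp {σ : Type} (T : TS σ) {l : ℕ} (h : ∀ c, T.lev c ≠ l) : T.ct l = 1 := by
  have : IsEmpty {c // T.lev c = l} := ⟨fun c => h c.1 c.2⟩
  rw [TS.ct, th, tsum_eq_single 0 fun n k => absurd (Subsingleton.elim _ _) k, zc_zero, sub_zero,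
    gs_zero]

theorem R_emp {σ : Type} (T : TS σ) {l : ℕ} (h : ∀ c, T.lev c ≠ l) : T.R l = 0 := by
  rw [TS.R, card_eq_zero, filter_eq_empty_iff]
  exact fun c _ => h c

theorem dv {M t t' r r' : ℕ} (h : r ≤ M) (e : t * (M + 1) + r' ≤ t' * (M + 1) + r) : t ≤ t' := by
  by_contra k
  have := Nat.mul_le_mul_right (M + 1) (show t' + 1 ≤ t by omega)
  rw [add_mul] at this
  omega

end Tco

open Tco TS in
theorem tco (h : TSt) : TCo := by
  intro τ0 T S0 st M n Ψ0 v a L b x hs hA ok hn hv a0 a1 hL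
  obtain ⟨s', -, -, hD⟩ := h τ0 T S0 st M Ψ0 v a b hs hA ok hv
  have M1 : 1 < M + 1 := by
    have := x.2
    have := (hs.le x.1.1).2
    omega
  set T' := (T.tan S0 Ψ0 v b).stg (T.ts S0 st M) with hT'
  have lv : ∀ y : T.Tc S0, T'.lev y = T.ts S0 st M y := fun y => Finsupp.degree_single _ _
  have cW : Fintype.card (Option S0.W) ≤ n + 1 := by rw [Fintype.card_option]; omega
  have la : 0 ≤ Real.log a⁻¹ := Real.log_nonneg ((one_le_inv₀ a0).2 a1)
  let f : ℕ → ℝ := fun j => Real.log (T'.ct j) + T'.R j * L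
  have f0 : ∀ j, 0 ≤ f j := fun j =>
    add_nonneg (Real.log_nonneg (one_le_ct s'.tri j)) (by positivity)
  let e : ℕ × ℕ → ℕ := fun p => (M + 1) ^ (p.1 * (M + 1) + p.2)
  have key : ∀ t r, r ≤ M → f (e (t, r)) ≤
      (n + 1) * (Real.log ((T.stg st).ct t) + (T.stg st).R t * (L + Real.log a⁻¹)) := by
    intro t r hr
    have q : ∀ y : T.Tc S0, T'.lev y = e (t, r) → (T.stg st).lev y.1.1 = t := fun y k => by
      rw [lv] at k
      have k' := Nat.pow_right_injective M1 k
      rw [stg_lev]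
      exact le_antisymm (dv hr k'.le) (dv (Nat.sub_le _ _) k'.ge)
    have pd := hs.tri.pd_D.submatrix (Subtype.val_injective (p := fun c => (T.stg st).lev c = t))
    have k := Ctl.th_kron pd a0 (K := v) hv.lo (J := {p // T'.lev p = e (t, r)})
      (f := fun p => ⟨p.1.1.1, q p.1 p.2⟩) (g := fun p => p.1.1.2)
      (fun p q e e' => Subtype.ext (Subtype.ext (Prod.ext (congrArg Subtype.val e') e)))
      (s'.tri.pd_D.submatrix Subtype.val_injective) fun p q => hD p.1 q.1
    have s := th_scale pd a0 a1 0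
    rw [Fintype.card_subtype] at s
    have c1 : T'.ct (e (t, r)) ≤ ((√a)⁻¹ ^ (T.stg st).R t * (T.stg st).ct t) ^ (n + 1) :=
      k.trans ((pow_le_pow_left₀ (th_nonneg _ _) s _).trans (pow_le_pow_right₀
        ((one_le_th (pd.smul a0)).trans s) cW))
    have p1 := one_le_ct hs.tri t
    have c2 : Real.log (T'.ct (e (t, r))) ≤
        (n + 1) * (Real.log ((T.stg st).ct t) + (T.stg st).R t * Real.log a⁻¹) := by
      refine (Real.log_le_log (zero_lt_one.trans_le (one_le_ct s'.tri _)) c1).trans ?_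
      rw [Real.log_pow, Real.log_mul (by positivity) (by positivity), Real.log_pow,
        add_comm (_ * Real.log _)]
      push_cast
      gcongr
      exact Real.le_sqrt_of_sq_le (by nlinarith)
    have c3 : T'.R (e (t, r)) ≤ (n + 1) * (T.stg st).R t := by
      refine le_trans ?_ (Nat.mul_le_mul_right _ cW)
      rw [TS.R, TS.R, ← card_univ, ← card_product]
      refine card_le_card_of_injOn (fun p : T.Tc S0 => (p.1.2, p.1.1)) (fun p hp => ?_)
        fun p _ q _ e => Subtype.ext (Prod.ext (congrArg Prod.snd e) (congrArg Prod.fst e))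
      simp only [coe_product, coe_univ, Set.mem_prod, Set.mem_univ, true_and]
      exact mem_filter.2 ⟨mem_univ _, q p (mem_filter.1 hp).2⟩
    have c4 : (T'.R (e (t, r)) : ℝ) * L ≤ (n + 1) * (T.stg st).R t * L :=
      mul_le_mul_of_nonneg_right (by exact_mod_cast c3) hL
    change Real.log _ + _ ≤ _
    linarith
  calc ∑ j ∈ Icc (T.ts S0 st M x) (tM M), f j
      ≤ ∑ j ∈ (Icc (st x.1.1) M ×ˢ range (M + 1)).image e, f j := by
        rw [← sum_filter_ne_zero]
        refine sum_le_sum_of_subset_of_nonneg (fun j hj => ?_) fun j _ _ => f0 j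
        obtain ⟨h1, h2⟩ := mem_filter.1 hj
        by_contra k
        refine h2 ?_
        have z : ∀ y, T'.lev y ≠ j := fun y hy => k (mem_image.2 ⟨(st y.1.1, _), mem_product.2
          ⟨mem_Icc.2 ⟨?_, (hs.le _).1⟩, mem_range.2 (Nat.lt_succ_of_le (Nat.sub_le M
            (T.lev y.1.1 - S0.od y.1.2)))⟩, (lv y).symm.trans hy⟩)
        · simp only [f, ct_emp T' z, R_emp T' z]
          simp
        · have := (mem_Icc.1 h1).1.trans_eq (hy.symm.trans (lv y))
          exact dv (Nat.sub_le _ _) ((Nat.pow_le_pow_iff_right M1).1 this)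
    _ ≤ ∑ p ∈ Icc (st x.1.1) M ×ˢ range (M + 1), f (e p) := sum_image_le_of_nonneg fun j _ => f0 j
    _ ≤ ∑ p ∈ Icc (st x.1.1) M ×ˢ range (M + 1), (n + 1) *
        (Real.log ((T.stg st).ct p.1) + (T.stg st).R p.1 * (L + Real.log a⁻¹)) :=
        sum_le_sum fun p hp => key p.1 p.2 (Nat.le_of_lt_succ (mem_range.1 (mem_product.1 hp).2))
    _ = _ := by
        rw [sum_product, mul_sum]
        refine sum_congr rfl fun t _ => ?_
        simp only [sum_const, card_range, nsmul_eq_mul]
        push_cast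
        ring

end Crest.Agent.N49.Tw

end
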