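import Crest.Agent.N49.Tn.Fub

/-!
# Row 49 (helper49): morphisms out of a product of shapes; the Taylor formula
-/

set_option autoImplicit false
set_option linter.unusedSectionVars false

open Matrix MvPolynomial Finset

noncomputable section

namespace Crest.Agent.N49.Tw

open Po

namespace Sh

section gen
variable {σ τ τ' R : Type} [CommRing R] {S : Sh σ τ} {S' : Sh σ τ'} {φ : Matrix S'.W S.W ℤ}

variable (S S' φ) in
/-- morphisms, the mass being forgotten -/
structure Hm0 : Prop where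
  cd : ∀ w' w, φ w' w ≠ 0 → S'.cd w' = S.cd w
  mul : ∀ w' m, m ≠ 0 → ∑ w, φ w' w * S.r w m =
    S'.cf ℤ w' (aeval (fun w => S'.el fun w'' => φ w'' w) (monomial m (1 : ℤ)))

theorem Hm.hm0 (h : S.Hm S' φ) : S.Hm0 S' φ := ⟨h.cd, h.mul⟩

theorem Hm0.hm (h : S.Hm0 S' φ) (e : φ *ᵥ S.ε = S'.ε) : S.Hm S' φ := ⟨h.cd, h.mul, e⟩

theorem Hm0.cf (h : S.Hm0 S' φ) (o : S.Ok) (o' : S'.Ok) (w' : S'.W) (P : MvPolynomial S.W R) :
    S'.cf R w' (hA R S' φ P) = ∑ w, φ w' w * S.cf R w P :=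
  Hm.cf (S := { S with ε := 0 }) (S' := { S' with ε := 0 }) ⟨h.cd, h.mul, mulVec_zero _⟩
    ⟨o.ne, o.one, o.gr, o.mul, fun _ z => absurd rfl z, o.pd, o.blk⟩
    ⟨o'.ne, o'.one, o'.gr, o'.mul, fun _ z => absurd rfl z, o'.pd, o'.blk⟩ w' P

theorem Hm0.dg (h : S.Hm0 S' φ) (v' : S'.W) (v : S.W) (z : φ v' v ≠ 0) : S'.dg v' = S.dg v := by
  rw [← cd_degree, ← cd_degree, h.cd v' v z]

theorem hm0_zero : S.Hm0 S' 0 := ⟨fun _ _ z => absurd rfl z, fun w' m k => by
  obtain ⟨x, hx⟩ := Finsupp.support_nonempty_iff.2 k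
  rw [aeval_monomial, Finsupp.prod, prod_eq_zero hx (by
    simp [el, Finsupp.mem_support_iff.1 hx]), mul_zero, map_zero]
  simp⟩

theorem cc_hA (P : MvPolynomial S.W R) : constantCoeff (hA R S' φ P) = constantCoeff P := by
  induction P using MvPolynomial.induction_on with
  | C a => simp [hA]
  | add p q a b => simp only [map_add, a, b]
  | mul_X p a h => simp [hA, el]

theorem hA_X (w : S.W) : hA R S' φ (X w) = S'.el fun w' => φ w' w := aeval_X _ _

end gen

variable {τ0 τ τ2 R : Type} [CommRing R] {S0 : Sh Unit τ0} {S : Sh Unit τ} {S2 : Sh Unit τ2}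
  {v : Matrix (Option S0.W) (Option S0.W) ℝ} {g : Matrix S2.W S0.W ℤ} {f : Matrix S2.W S.W ℤ}

theorem Ok.cu_mul (h : S.Ok) (o : Option S.W) (P Q : MvPolynomial S.W R) :
    S.cu R o (P * Q) = ∑ o', S.cu R o' P * S.cu R o (monomial (S.sg o') 1 * Q) := by
  induction P using MvPolynomial.induction_on' with
  | add p q a b => simp only [add_mul, map_add, a, b, sum_add_distrib]
  | monomial m a =>
    induction Q using MvPolynomial.induction_on' with
    | add p q a b => simp only [mul_add, map_add, a, b, sum_add_distrib]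
    | monomial m' b =>
      simp only [monomial_mul, cu_monomial]
      rw [Xt.ru_mul h]; push_cast
      rw [mul_sum]
      exact sum_congr rfl fun _ _ => by ring

variable (S) in
/-- equality in the ring of the shape -/
def Cg (P Q : MvPolynomial S.W R) : Prop := ∀ o, S.cu R o P = S.cu R o Q

theorem Cg.mul (h : S.Ok) {P P' Q Q' : MvPolynomial S.W R} (a : S.Cg P P') (b : S.Cg Q Q') :
    S.Cg (P * Q) (P' * Q') := fun o => by
  rw [h.cu_mul, sum_congr rfl fun o' _ => by rw [a o'], ← h.cu_mul, mul_comm, h.cu_mul,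
    sum_congr rfl fun o' _ => by rw [b o'], ← h.cu_mul, mul_comm]

theorem Cg.aeval (h : S.Ok) {α : Type} {y y' : α → MvPolynomial S.W R}
    (a : ∀ i, S.Cg (y i) (y' i)) (P : MvPolynomial α R) : S.Cg (aeval y P) (aeval y' P) := by
  induction P using MvPolynomial.induction_on with
  | C a => intro o; rw [aeval_C, aeval_C]
  | add p q a b => intro o; simp only [map_add, a o, b o]
  | mul_X p i k => rw [map_mul, map_mul, aeval_X, aeval_X]; exact k.mul h (a i)

theorem Ok.cu_sg (h : S.Ok) (o o' : Option S.W) :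
    S.cu R o (monomial (S.sg o') 1) = if o = o' then 1 else 0 := by
  rw [cu_monomial, Xt.ru_sg h]; simp

theorem Ok.cg_el (h : S.Ok) {P : MvPolynomial S.W ℤ} (k : constantCoeff P = 0) :
    S.Cg (S.el fun w => S.cf ℤ w P) P := by
  rintro (_ | w)
  · rw [cu_none, cu_none, k]; simp [el]
  · exact h.cf_el w _

theorem Hm0.cg (h : S.Hm0 S2 f) (o : S.Ok) (o2 : S2.Ok) (P : MvPolynomial S.W R) :
    S2.Cg (hA R S2 f P) (∑ x, S.cu R x P • hA R S2 f (monomial (S.sg x) 1)) := by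
  rintro (_ | w)
  · simp only [map_sum, map_smul, cu_none, cc_hA]
    simp only [← cu_none, o.cu_sg]; simp
  · simp only [map_sum, map_smul, cu_some, h.cf o o2]
    simp only [← cu_some, o.cu_sg, Fintype.sum_option]
    simp [mul_comm]

variable (g f) in
/-- **the product of two morphisms** -/
def mu : Matrix S2.W (TW S0 S) ℤ := Matrix.of fun w z => S2.cf ℤ w
  (hA ℤ S2 g (monomial (S0.sg z.1.1) 1) * hA ℤ S2 f (monomial (S.sg z.1.2) 1))

theorem mu_i0 (o2 : S2.Ok) (w : S2.W) (w0 : S0.W) : mu g f w (i0 S w0) = g w w0 := by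
  change S2.cf ℤ w (hA ℤ S2 g (X w0) * hA ℤ S2 f 1) = _
  rw [map_one, mul_one, hA_X, o2.cf_el, Int.cast_id]

theorem mu_i1 (o2 : S2.Ok) (w : S2.W) (w1 : S.W) : mu g f w (Tz.i1 (none, w1)) = f w w1 := by
  change S2.cf ℤ w (hA ℤ S2 g 1 * hA ℤ S2 f (X w1)) = _
  rw [map_one, one_mul, hA_X, o2.cf_el, Int.cast_id]

theorem mu_hom (hg : S0.Hm0 S2 g) (hf : S.Hm0 S2 f) (z : TW S0 S) :
    (hA R S2 g (monomial (S0.sg z.1.1) 1) * hA R S2 f (monomial (S.sg z.1.2) 1)
      ).IsWeightedHomogeneous S2.dg (td S0 S z) :=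
  (hA_hom hg.dg (isWeightedHomogeneous_monomial _ _ _ (dg_sg _))).mul
    (hA_hom hf.dg (isWeightedHomogeneous_monomial _ _ _ (dg_sg _)))

theorem mu_dg (hg : S0.Hm0 S2 g) (hf : S.Hm0 S2 f) (o2 : S2.Ok) {w : S2.W} {z : TW S0 S}
    (k : mu g f w z ≠ 0) : S2.dg w = td S0 S z := by
  obtain ⟨m, a, b⟩ := cf_ne k
  rw [← o2.gr_dg b, mu_hom hg hf z a]

theorem mu_hm0 (hg : S0.Hm0 S2 g) (hf : S.Hm0 S2 f) (o0 : S0.Ok) (o : S.Ok) (o2 : S2.Ok) :
    (S0.ten S v).Hm0 S2 (mu g f) where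
  cd w z k := unit_ext ((cd_degree _).trans ((mu_dg hg hf o2 k).trans
    ((cd_degree (S := S0.ten S v) z).trans (ten_dg z)).symm))
  mul w (m : TW S0 S →₀ ℕ) _ := by
    classical
    have a : S2.Cg (aeval (fun z : TW S0 S => S2.el fun w'' => mu g f w'' z) (monomial m (1 : ℤ)))
        (aeval (fun z : TW S0 S => hA ℤ S2 g (monomial (S0.sg z.1.1) 1) *
          hA ℤ S2 f (monomial (S.sg z.1.2) 1)) (monomial m (1 : ℤ))) :=
      Cg.aeval o2 (fun z => o2.cg_el (by
        rw [map_mul, cc_hA, cc_hA, ← cu_none, ← cu_none, o0.cu_sg, o.cu_sg]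
        rcases z with ⟨⟨_ | _, _ | _⟩, ne⟩
        · exact absurd rfl ne
        all_goals simp)) _
    have c : ∀ {α β : Type} (u : α → β →₀ ℕ) (m : α →₀ ℕ), (monomial (Finsupp.weight u m) 1 :
        MvPolynomial β ℤ) = m.prod fun z n => monomial (u z) 1 ^ n := fun u m => by
      have := aeval_mon2 (R := ℤ) u (fun _ => (1 : ℤ)) m 1
      rw [aeval_monomial, aeval_monomial] at this
      simpa using this.symm
    have b : aeval (fun z : TW S0 S => hA ℤ S2 g (monomial (S0.sg z.1.1) 1) *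
        hA ℤ S2 f (monomial (S.sg z.1.2) 1)) (monomial m (1 : ℤ)) =
        hA ℤ S2 g (monomial (w0 S0 S m) 1) * hA ℤ S2 f (monomial (w1 S0 S m) 1) := by
      rw [w0, w1, c, c, map_finsuppProd, map_finsuppProd, ← Finsupp.prod_mul, aeval_monomial,
        map_one, one_mul]
      simp only [map_pow, mul_pow]
    refine Eq.trans ?_ ((a (some w)).trans ((congrArg _ b).trans
      (((hg.cg o0 o2 _).mul o2 (hf.cg o o2 _)) (some w)))).symm
    simp only [sum_mul_sum, map_sum, smul_mul_smul_comm, map_smul, cu_monomial, one_mul,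
      Int.cast_id, smul_eq_mul]
    refine Eq.trans (sum_congr rfl fun z _ => mul_comm _ _) (Tz.tsum2 (fun y => S0.ru y.1 (w0 S0 S m)
      * S.ru y.2 (w1 S0 S m) * S2.cf ℤ w (hA ℤ S2 g (monomial (S0.sg y.1) 1) *
        hA ℤ S2 f (monomial (S.sg y.2) 1))) ?_)
    refine mul_eq_zero_of_right _ ?_
    rw [show (monomial (S0.sg none) 1 : MvPolynomial S0.W ℤ) = 1 from rfl, map_one,
      show (monomial (S.sg none) 1 : MvPolynomial S.W ℤ) = 1 from rfl, map_one, mul_one,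
      show (1 : MvPolynomial S2.W ℤ) = monomial 0 1 from rfl, cf_monomial, o2.r_zero, Int.cast_zero,
      mul_zero]

theorem tsplit' {M : Type} [AddCommMonoid M] (u : TW S0 S → M) :
    ∑ x, u x = ∑ w, u (i0 S w) + ∑ x, u (Tz.i1 x) := by
  refine Eq.trans ?_ (Fintype.sum_sum_type (Sum.elim (fun w => u (i0 S w)) fun x => u (Tz.i1 x)))
  refine (Fintype.sum_bijective (Sum.elim (i0 S) Tz.i1) ⟨?_, ?_⟩ _ _ ?_).symm
  · rintro (a | a) (b | b) e <;> simp_all [i0, Tz.i1, Prod.ext_iff]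
  · rintro ⟨⟨o, _ | w⟩, ne⟩
    · rcases o with _ | w
      · exact absurd rfl ne
      · exact ⟨.inl w, rfl⟩
    · exact ⟨.inr (o, w), rfl⟩
  · rintro (a | a) <;> rfl

theorem mu_mass (o2 : S2.Ok) : mu g f *ᵥ (S0.ten S v).ε = g *ᵥ S0.ε + f *ᵥ S.ε := by
  funext w
  refine (tsplit' _).trans (congrArg₂ _ (sum_congr rfl fun w0 _ => congrArg (· * _) (mu_i0 o2 w w0))
    ?_)
  rw [Fintype.sum_prod_type, Fintype.sum_option, sum_eq_zero (s := univ) fun w0 _ =>
    sum_eq_zero fun w1 _ => mul_zero _, add_zero]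
  exact sum_congr rfl fun w1 _ => congrArg (· * _) (mu_i1 o2 w w1)

theorem mu_hm (hg : S0.Hm0 S2 g) (hf : S.Hm0 S2 f) (o0 : S0.Ok) (o : S.Ok) (o2 : S2.Ok)
    (e : g *ᵥ S0.ε + f *ᵥ S.ε = S2.ε) : (S0.ten S v).Hm S2 (mu g f) :=
  (mu_hm0 hg hf o0 o o2).hm ((mu_mass o2).trans e)

theorem hA_mu_i0 (o2 : S2.Ok) (P : MvPolynomial S0.W R) :
    hA (S := S0.ten S v) R S2 (mu g f) (rename (i0 S) P) = hA R S2 g P := by
  change aeval (fun z : TW S0 S => S2.el (R := R) fun w' => mu g f w' z) (rename (i0 S) P) = _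
  rw [aeval_rename, hA]
  simp only [Function.comp_def, mu_i0 o2]

/-- characters pull back to products of characters -/
theorem vecMul_mu (hg : S0.Hm0 S2 g) (hf : S.Hm0 S2 f) (o0 : S0.Ok) (o : S.Ok) {χ : S2.W → ℤ}
    {s : ℕ} (hχ : ∀ m, m ≠ 0 → Finsupp.weight S2.dg m ≤ s →
      m.prod (fun w n => χ w ^ n) = ∑ w, S2.r w m * χ w) (z : TW S0 S) (hz : td S0 S z ≤ s) :
    (χ ᵥ* mu g f) z = tχ (χ ᵥ* g) (χ ᵥ* f) z := by
  have a := aeval_pt (R := ℤ) hχ (mu_hom hg hf z) (Tz.od_pos o0 o z) hz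
  have c : ∀ {τ : Type} {S : Sh Unit τ} (f : Matrix S2.W S.W ℤ) (x : Option S.W),
      eval (fun w => (χ w : ℤ)) (hA ℤ S2 f (monomial (S.sg x) 1)) = x.elim 1 (χ ᵥ* f) := by
    rintro τ S f (_ | w)
    · exact (congrArg _ (map_one _)).trans (map_one _)
    · refine (congrArg _ (hA_X w)).trans ?_
      simp [el, vecMul, dotProduct, mul_comm]
  simp only [Int.cast_id] at a c
  rw [map_mul, c, c] at a
  exact a.symm

/-- the monomial of the product with given parts -/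
def jn (a : S0.W →₀ ℕ) (c : S.W →₀ ℕ) : TW S0 S →₀ ℕ :=
  a.mapDomain (i0 S) + c.mapDomain fun w => Tz.i1 (none, w)

theorem w0_jn (a : S0.W →₀ ℕ) (c : S.W →₀ ℕ) : w0 S0 S (jn a c) = a := by
  rw [jn, map_add, w0, TS.weight_map, TS.weight_map]
  simp [i0, Tz.i1, sg, Finsupp.weight_apply]

theorem w1_jn (a : S0.W →₀ ℕ) (c : S.W →₀ ℕ) : w1 S0 S (jn a c) = c := by
  rw [jn, map_add, w1, TS.weight_map, TS.weight_map]
  simp [i0, Tz.i1, sg, Finsupp.weight_apply]

theorem jn_degree (a : S0.W →₀ ℕ) (c : S.W →₀ ℕ) : (jn a c).degree = a.degree + c.degree := by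
  rw [jn, map_add, Finsupp.degree_mapDomain, Finsupp.degree_mapDomain]

theorem jn_td {a : S0.W →₀ ℕ} {c : S.W →₀ ℕ} (ha : ∀ w ∈ a.support, S0.dg w = 1)
    (hc : ∀ w ∈ c.support, S.dg w = 1) : ∀ y ∈ (jn a c).support, td S0 S y = 1 := fun y hy => by
  classical
  rcases mem_union.1 (Finsupp.support_add hy) with k | k <;>
    obtain ⟨w, k1, rfl⟩ := mem_image.1 (Finsupp.mapDomain_support k)
  · exact ha w k1
  · exact (zero_add _).trans (hc w k1)

theorem jn_add (a a' : S0.W →₀ ℕ) (c c' : S.W →₀ ℕ) :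
    jn (a + a') (c + c') = jn a c + jn a' c' := by
  simp only [jn, Finsupp.mapDomain_add]; abel

theorem r_jn (y : TW S0 S) (a : S0.W →₀ ℕ) (c : S.W →₀ ℕ) :
    (S0.ten S v).r y (jn a c) = S0.ru y.1.1 a * S.ru y.1.2 c := by rw [ten_r, w0_jn, w1_jn]

theorem ten_gen2 (h0 : S0.Ok) (h : S.Ok) (g0 : S0.Gen' fun _ => False) (g1 : S.Gen' fun _ => False)
    (κ : TW S0 S → ℤ) {x : TW S0 S} (hx : κ x ≠ 0) : ∃ (a : S0.W →₀ ℕ) (c : S.W →₀ ℕ),
      a.degree = S0.od x.1.1 ∧ c.degree = S.od x.1.2 ∧ (∀ w ∈ a.support, S0.dg w = 1) ∧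
      (∀ w ∈ c.support, S.dg w = 1) ∧ ∑ y, κ y * (S0.ru y.1.1 a * S.ru y.1.2 c) ≠ 0 := by
  let κ' : Option S0.W × Option S.W → ℤ := fun y => if k : y ≠ (none, none) then κ ⟨y, k⟩ else 0
  have hκ : ∀ y : TW S0 S, κ' y.1 = κ y := fun y => dif_pos y.2
  obtain ⟨c, c1, c2, c3⟩ := Tz.gen_u h g1 (fun o => κ' (x.1.1, o)) (o := x.1.2) (hκ x ▸ hx)
  obtain ⟨a, a1, a2, a3⟩ := Tz.gen_u h0 g0 (fun o => ∑ o', κ' (o, o') * S.ru o' c) (o := x.1.1) c3
  refine ⟨a, c, a1, c1, a2, c2, fun z => a3 ?_⟩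
  simp only [← hκ] at z
  rw [Tz.tsum2 (fun y => κ' y * (S0.ru y.1 a * S.ru y.2 c)) (by simp [κ'])] at z
  rw [← z]
  exact sum_congr rfl fun _ _ => (sum_mul _ _ _).trans (sum_congr rfl fun _ _ => by ring)

theorem ten_idl0 : (S0.ten S v).Idl fun z : TW S0 S => z.1.2 = none := fun z m e k x hx => by
  have := right_ne_zero_of_mul k
  rw [e] at this
  exact Tz.sg_eq (Xt.wt_zero (of_not_not fun n => this (Xt.ru_none n)) x hx)

theorem ten_idl1 : (S0.ten S v).Idl fun z : TW S0 S => z.1.1 = none := fun z m e k x hx => by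
  have := left_ne_zero_of_mul k
  rw [e] at this
  exact Tz.sg_eq (Xt.wt_zero (of_not_not fun n => this (Xt.ru_none n)) x hx)

theorem ten_gen0 (h0 : S0.Ok) (h : S.Ok) (g0 : S0.Gen fun _ => False) (g1 : S.Gen fun _ => False) :
    (S0.ten S v).Gen fun z : TW S0 S => z.1.2 = none := by
  refine ((lgen _ _ _).1 _).2 fun (κ : TW S0 S → ℤ) hκ (x : TW S0 S) hx => ?_
  obtain ⟨a, c, a1, c1, a2, c2, k⟩ :=
    ten_gen2 h0 h (((lgen _ _ _).1 _).1 g0) (((lgen _ _ _).1 _).1 g1) κ hx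
  obtain ⟨w, hw⟩ := Finsupp.support_nonempty_iff.2 fun e : c = 0 =>
    hx (hκ x (Tz.od_eq h (by rw [← c1, e, map_zero])))
  refine ⟨jn a c, (jn_degree a c).trans ((congrArg₂ _ a1 c1).trans (ten_dg x).symm),
    fun y hy => (ten_dg y).trans (jn_td a2 c2 y hy), ⟨Tz.i1 (none, w), ?_, nofun⟩,
    fun z => k ((sum_congr rfl fun y _ => congrArg _ (r_jn y a c).symm).trans z)⟩
  have := Finsupp.mem_support_iff.1 (TS.mem_mapD (fun w => Tz.i1 (S0 := S0) (none, w)) hw)
  exact Finsupp.mem_support_iff.2 fun e => this (Nat.add_eq_zero_iff.1 e).2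

theorem ten_gen1 (h0 : S0.Ok) (h : S.Ok) (g0 : S0.Gen fun _ => False) (g1 : S.Gen fun _ => False) :
    (S0.ten S v).Gen fun z : TW S0 S => z.1.1 = none := by
  refine ((lgen _ _ _).1 _).2 fun (κ : TW S0 S → ℤ) hκ (x : TW S0 S) hx => ?_
  obtain ⟨a, c, a1, c1, a2, c2, k⟩ :=
    ten_gen2 h0 h (((lgen _ _ _).1 _).1 g0) (((lgen _ _ _).1 _).1 g1) κ hx
  obtain ⟨w, hw⟩ := Finsupp.support_nonempty_iff.2 fun e : a = 0 =>
    hx (hκ x (Tz.od_eq h0 (by rw [← a1, e, map_zero])))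
  refine ⟨jn a c, (jn_degree a c).trans ((congrArg₂ _ a1 c1).trans (ten_dg x).symm),
    fun y hy => (ten_dg y).trans (jn_td a2 c2 y hy), ⟨i0 S w, ?_, nofun⟩,
    fun z => k ((sum_congr rfl fun y _ => congrArg _ (r_jn y a c).symm).trans z)⟩
  have := Finsupp.mem_support_iff.1 (TS.mem_mapD (i0 S) hw)
  exact Finsupp.mem_support_iff.2 fun e => this (Nat.add_eq_zero_iff.1 e).1

variable (S v) in
/-- the covariance of the product -/
def tK : Matrix (TW S0 S) (TW S0 S) ℝ := (S0.ten S v).K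

/-- **multiplication `w ⊗ w1 ↦ g w * f w1` is split, with a kernel generated in degree one**
(`g` = a renaming `e` of the words) -/
theorem mu_sec {n : ℕ} (e : S2.W ≃ S0.W) (hg : ∀ w w0, g w w0 = if e w = w0 then 1 else 0)
    (hm : (S0.ten S v).Hm S2 (mu g f)) (hf : S.Hm0 S2 f) (he : ∀ w, S0.dg (e w) = S2.dg w)
    (o0 : S0.Ok) (o : S.Ok) (o2 : S2.Ok)
    (g0 : S0.Gen fun _ => False) (g1 : S.Gen fun _ => False)
    (hK : S2.K = rl (mu g f) * tK S v * (rl (mu g f))ᵀ) (ht : ∀ w z, |mu g f w z| ≤ n) :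
    (S0.ten S v).Sec S2 n (mu g f) fun w => i0 S (e w) where
  ok := o2
  hm := hm
  K := hK
  sec w w' := (mu_i0 o2 w _).trans ((hg _ _).trans (if_congr e.injective.eq_iff rfl rfl))
  ht := ht
  gen (κ : TW S0 S → ℤ) hκ (x : TW S0 S) hx := by
    obtain ⟨a, c, a1, c1, a2, c2, k⟩ :=
      ten_gen2 o0 o (((lgen _ _ _).1 _).1 g0) (((lgen _ _ _).1 _).1 g1) κ hx
    have d : a.degree + c.degree = (S0.ten S v).dg x := (congrArg₂ _ a1 c1).trans (ten_dg x).symm
    clear a1 c1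
    by_contra n
    push Not at n
    induction hc : c.degree generalizing a c with
    | zero =>
      obtain rfl := (Finsupp.degree_eq_zero_iff _).1 hc
      refine k (sum_eq_zero fun y _ => ?_)
      rcases y with ⟨⟨_ | w, _ | w1⟩, ne⟩
      · exact absurd rfl ne
      · simp [Xt.ru_zero o]
      · obtain ⟨w, rfl⟩ := e.surjective w
        exact mul_eq_zero_of_left (hκ w) _
      · simp [Xt.ru_zero o]
    | succ l ih =>
      obtain ⟨w1, hw⟩ := Finsupp.support_nonempty_iff.2 fun z : c = 0 => by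
        rw [z, map_zero] at hc; omega
      obtain ⟨c', rfl⟩ : ∃ c', c = Finsupp.single w1 1 + c' := exists_add_of_le
        (Finsupp.single_le_iff.2 (Nat.one_le_iff_ne_zero.2 (Finsupp.mem_support_iff.1 hw)))
      have c3 : ∀ w ∈ c'.support, S.dg w = 1 := fun w k => c2 w (Finsupp.mem_support_iff.2 fun z =>
        Finsupp.mem_support_iff.1 k (Nat.add_eq_zero_iff.1 z).2)
      rw [map_add, Finsupp.degree_single] at hc d
      have := n (Tz.i1 (none, w1)) (jn a c') (by rintro ⟨w, z⟩; cases z)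
        ((ten_dg _).trans ((zero_add _).trans (c2 w1 hw)))
        ((congrArg (· + 1) (jn_degree a c')).trans (by omega))
        fun y hy => (ten_dg y).trans (jn_td a2 c3 y hy)
      have e1 : Finsupp.single (Tz.i1 (none, w1)) 1 + jn a c' = jn a (Finsupp.single w1 1 + c') := by
        rw [← zero_add a, jn_add, zero_add]; simp [jn]
      have e2 : ∀ w, Finsupp.single (i0 S w) 1 + jn a c' = jn (Finsupp.single w 1 + a) c' :=
        fun w => by rw [← zero_add c', jn_add, zero_add]; simp [jn]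
      have e3 : ∀ y a c, Tz.rt y (jn a c) = S0.ru y.1.1 a * S.ru y.1.2 c := r_jn (v := v)
      replace this : ∑ y : TW S0 S, κ y * (Tz.rt y (Finsupp.single (Tz.i1 (none, w1)) 1 +
        jn a c') - ∑ w, mu g f w (Tz.i1 (none, w1)) * Tz.rt y
          (Finsupp.single (i0 S (e w)) 1 + jn a c')) = 0 := this
      simp only [e1, e2, e3, mu_i1 o2, mul_sub, sum_sub_distrib, mul_sum] at this
      rw [sub_eq_zero, sum_comm] at this
      refine k (this.trans (sum_eq_zero fun w _ => ?_))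
      by_cases z : f w w1 = 0
      · simp [z]
      · simp only [mul_left_comm _ (f w w1)]
        rw [← mul_sum]
        refine mul_eq_zero_of_right _ (of_not_not fun k' => ih (Finsupp.single (e w) 1 + a) c'
          (fun w' k => ?_) c3 k' (by rw [map_add, Finsupp.degree_single]; omega) (by omega))
        classical
        rcases mem_union.1 (Finsupp.support_add k) with k | k
        · rw [mem_singleton.1 (Finsupp.support_single_subset k), he, hf.dg _ _ z, c2 w1 hw]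
        · exact a2 w' k

end Sh

end Crest.Agent.N49.Tw

end
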