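import Crest.Agent.N49.Tn.Alg

/-!
# Row 49 (helper49): tangent towers are staged; weights, Fubini, points, containers
-/

set_option autoImplicit false
set_option linter.unusedSectionVars false

open Matrix MvPolynomial Finset

noncomputable section

namespace Crest.Agent.N49.Tw

open Po

namespace TS

variable {τ0 τ : Type} {T : TS Unit} {S0 : Sh Unit τ0} {S : Sh Unit τ}
  {v : Matrix (Option S0.W) (Option S0.W) ℝ} {st : T.C → ℕ} {M : ℕ} {Ψ0 : T.Twd S0}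
  {b : T.Cw S0 → ℤ} {a : ℝ}

variable (T S0) in
/-- products of kernels on the tangent families -/
def kn (B : Matrix T.C T.C ℝ) (v : Matrix (Option S0.W) (Option S0.W) ℝ) :
    Matrix (T.Tc S0) (T.Tc S0) ℝ := Matrix.of fun x x' => B x.1.1 x'.1.1 * v x.1.2 x'.1.2

theorem tan_K : (T.tan S0 Ψ0 v b).K = T.kn S0 T.K v := rfl

theorem kn_mul {B : Matrix T.C T.C ℝ} (h : Rw.Blk T.lev B) (B' : Matrix T.C T.C ℝ) :
    T.kn S0 B 1 * T.kn S0 B' v = T.kn S0 (B * B') v := by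
  ext p p'
  simp only [kn, mul_apply, of_apply, sum_mul]
  rw [← sum_filter_of_ne (p := fun q : T.Tc S0 => q.1.2 = p.1.2 ∧ T.lev q.1.1 = T.lev p.1.1),
    ← sum_filter_of_ne (s := univ) (p := fun G => T.lev G = T.lev p.1.1)]
  · refine sum_bij (fun q _ => q.1.1) (fun q hq => ?_) (fun q hq q' hq' e => ?_) (fun G hG => ?_)
      fun q hq => ?_
    · exact mem_filter.2 ⟨mem_univ _, (mem_filter.1 hq).2.2⟩
    · exact Subtype.ext (Prod.ext e ((mem_filter.1 hq).2.1.trans (mem_filter.1 hq').2.1.symm))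
    · exact ⟨⟨(G, p.1.2), p.2.trans_eq (mem_filter.1 hG).2.symm⟩,
        mem_filter.2 ⟨mem_univ _, rfl, (mem_filter.1 hG).2⟩, rfl⟩
    · rw [(mem_filter.1 hq).2.1, one_apply_eq]; ring
  · exact fun G _ z => by_contra fun n =>
      left_ne_zero_of_mul (left_ne_zero_of_mul z) (h _ _ (Ne.symm n))
  · intro q _ z
    refine ⟨by_contra fun ne => ?_, by_contra fun n =>
      left_ne_zero_of_mul (left_ne_zero_of_mul z) (h _ _ (Ne.symm n))⟩
    rw [one_apply_ne (Ne.symm ne)] at z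
    simp at z

theorem kn_one : T.kn S0 1 1 = 1 := by
  ext p p'
  simp only [kn, of_apply, one_apply, Subtype.ext_iff, Prod.ext_iff]
  by_cases a : p.1.1 = p'.1.1 <;> simp [a]

theorem kn_transpose (B : Matrix T.C T.C ℝ) : (T.kn S0 B v)ᵀ = T.kn S0 Bᵀ vᵀ := rfl

theorem kn_inv {B : Matrix T.C T.C ℝ} (h : Rw.Blk T.lev B) (hd : B.det ≠ 0) :
    (T.kn S0 B 1)⁻¹ = T.kn S0 B⁻¹ 1 ∧ (T.kn S0 B 1).det ≠ 0 := by
  have e : T.kn S0 B 1 * T.kn S0 B⁻¹ 1 = 1 := by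
    rw [kn_mul h, mul_nonsing_inv _ hd.isUnit, kn_one]
  exact ⟨inv_eq_right_inv e, (isUnit_det_of_right_inverse e).ne_zero⟩

theorem kn_D {B : Matrix T.C T.C ℝ} (h : Rw.Blk T.lev B) (hd : B.det ≠ 0) (K : Matrix T.C T.C ℝ) :
    (T.kn S0 B 1)⁻¹ * T.kn S0 K v * (T.kn S0 B 1)⁻¹ᵀ = T.kn S0 (B⁻¹ * K * B⁻¹ᵀ) v := by
  rw [(kn_inv h hd).1, kn_mul (blk_inv h)]
  apply transpose_injective
  rw [transpose_mul, transpose_transpose, kn_transpose, kn_mul (blk_inv h), kn_transpose,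
    transpose_mul (_ * _), transpose_transpose]

theorem kn_pd {B : Matrix T.C T.C ℝ} (h : B.PosDef) (hv : v.PosDef) : (T.kn S0 B v).PosDef :=
  (h.kronecker hv).submatrix Subtype.val_injective

theorem tan_lin (h : S0.Ok) (hT : T.Tri) (hΨ : T.Adm S0 st Ψ0) (x x' : T.Tc S0)
    (e : T.lev x.1.1 ≤ T.lev x'.1.1) :
    coeff (Finsupp.single x' 1) ((T.tan S0 Ψ0 v b).Φ x) = T.kn S0 T.A 1 x x' :=
  C_injective S0.W ℝ ((coeff_map _ _ _).symm.trans ((congrArg (coeff (Finsupp.single x' 1))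
    (tq_tin (S := S0) (v := v) Ψ0 b x).symm).trans (tq_lin h hT hΨ.tin x x' e)))

theorem tan_A (h : S0.Ok) (hT : T.Tri) (hΨ : T.Adm S0 st Ψ0) (x x' : T.Tc S0)
    (e : T.lev x.1.1 ≤ T.lev x'.1.1) : (T.tan S0 Ψ0 v b).A x x' = T.kn S0 T.A 1 x x' := by
  change (if (T.tan S0 Ψ0 v b).lev x = (T.tan S0 Ψ0 v b).lev x' then
    coeff (Finsupp.single x' 1) ((T.tan S0 Ψ0 v b).Φ x) else 0) = _
  split_ifs with k
  · exact tan_lin h hT hΨ x x' e
  · by_contra n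
    have a : T.lev x.1.1 = T.lev x'.1.1 := by_contra fun k =>
      left_ne_zero_of_mul (Ne.symm n) (T.blk_A _ _ k)
    have c : x.1.2 = x'.1.2 := by_contra fun k =>
      right_ne_zero_of_mul (Ne.symm n) (one_apply_ne k)
    exact k (by rw [tan_lev, nl, nl, a, c])

theorem tan_blk (hT : T.Tri) (hv : S0.Tk v a) {x x' : T.Tc S0} (z : T.kn S0 T.K v x x' ≠ 0) :
    T.nl S0 x = T.nl S0 x' := by
  rw [nl, nl, hT.blk _ _ (left_ne_zero_of_mul z), hv.blk _ _ (right_ne_zero_of_mul z)]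

theorem tan_ok (h : S0.Ok) (hT : T.Tri) (hΨ : T.Adm S0 st Ψ0) (hv : S0.Tk v a) :
    (T.tan S0 Ψ0 v b).Ok where
  tri x m hm := by rw [tan_lev]; exact (tan_hom h hΨ x (mem_support_iff.1 hm)).le
  ne x e := (nl_pos x).ne' (Finsupp.single_eq_zero.1 e)
  det := (det_of_tri (ι := T.Tc S0) (l := fun x => T.lev x.1.1) (tan_A h hT hΨ) fun _ _ e =>
    mul_eq_zero_of_left (T.blk_A _ _ e) _).trans_ne (kn_inv T.blk_A hT.det).2
  pd := kn_pd hT.pd hv.pd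
  blk x x' z := by rw [tan_lev]; exact tan_blk hT hv z
  hom x m z := unit_ext (((T.tan S0 Ψ0 v b).weight_lev m).symm.trans (by
    change _ = (T.tan S0 Ψ0 v b).lev x
    rw [tan_lev]; exact tan_hom h hΨ x z))

theorem Stg.blk_A (hs : T.Stg st M) : Rw.Blk T.lev (T.stg st).A := fun c c' e => by
  rw [hs.A, T.blk_A _ _ e, ite_self]

theorem tan_As (hs : T.Stg st M) (h : S0.Ok) (hΨ : T.Adm S0 st Ψ0) :
    ((T.tan S0 Ψ0 v b).stg (T.ts S0 st M)).A = T.kn S0 (T.stg st).A 1 := by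
  refine Matrix.ext fun (x x' : T.Tc S0) => (stg_A (T := T.tan S0 Ψ0 v b) x x').trans ?_
  change _ = (T.stg st).A x.1.1 x'.1.1 * _
  rw [hs.A]
  by_cases e : st x.1.1 = st x'.1.1
  · have l := hs.lev _ _ e
    rw [if_pos e]
    split_ifs with k
    · exact tan_lin h hs.cl.1 hΨ x x' l.le
    · rw [one_apply_ne fun o => k (hs.ts_inj.2 ⟨e, by rw [nl, nl, l, o]⟩), mul_zero]
  · rw [if_neg e, zero_mul]
    exact if_neg fun k => e (hs.ts_inj.1 k).1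

theorem tan_Ds (hs : T.Stg st M) (h : S0.Ok) (hΨ : T.Adm S0 st Ψ0) :
    ((T.tan S0 Ψ0 v b).stg (T.ts S0 st M)).D = T.kn S0 (T.stg st).D v :=
  (congrArg (fun A : Matrix (T.Tc S0) (T.Tc S0) ℝ => A⁻¹ * T.kn S0 T.K v * A⁻¹ᵀ)
    (tan_As hs h hΨ)).trans (kn_D hs.blk_A hs.tri.det T.K)

theorem Stg.ts_le (hs : T.Stg st M) (x : T.Tc S0) : T.ts S0 st M x ≤ tM M := by
  have := Nat.mul_le_mul_right (M + 1) (hs.le x.1.1).1
  refine Nat.pow_le_pow_right (by omega) ?_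
  rw [Nat.succ_mul M]; omega

theorem le_tM (M : ℕ) : M ≤ tM M :=
  (Nat.le_succ M).trans (Nat.le_self_pow (by positivity) _)

theorem tan_stg (hs : T.Stg st M) (h : S0.Ok) (hΨ : T.Adm S0 st Ψ0) (hv : S0.Tk v a) :
    (T.tan S0 Ψ0 v b).Stg (T.ts S0 st M) (tM M) where
  cl := (tan_ok h hs.cl.1 hΨ hv).cl
  tri := stg_tri (T := T.tan S0 Ψ0 v b) (fun (x : T.Tc S0) (m : T.Tc S0 →₀ ℕ) hm =>
      (hΨ.tin.tq_le (S := S0) (v := v) (b := b) hs h x (mem_support_iff.2 fun z =>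
        mem_support_iff.1 hm (C_injective S0.W ℝ ((coeff_map _ _ _).symm.trans
          ((congrArg (coeff m) (tq_tin (v := v) Ψ0 b x).symm).trans (z.trans C_0.symm)))))).2)
    (fun x : T.Tc S0 => pow_ne_zero _ (Nat.succ_ne_zero M))
    ((congrArg det (tan_As hs h hΨ)).trans_ne (kn_inv hs.blk_A hs.tri.det).2)
    (kn_pd hs.cl.1.pd hv.pd)
    fun x x' z => hs.ts_inj.2 ⟨hs.blk (left_ne_zero_of_mul z), tan_blk hs.cl.1 hv z⟩
  lev x x' e := by rw [tan_lev]; exact (hs.ts_inj.1 e).2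
  le x := ⟨hs.ts_le x, by rw [tan_lev]; exact (hs.nl_le x).trans (le_tM M)⟩

end TS

theorem tst : TSt := fun _ _ _ _ _ _ _ _ _ hs hΨ h hv => ⟨TS.tan_stg hs h hΨ hv,
  TS.tan_ok h hs.cl.1 hΨ hv, fun x x' => congrFun (congrFun (TS.tan_As hs h hΨ) x) x',
  fun x x' => congrFun (congrFun (TS.tan_Ds hs h hΨ) x) x'⟩

end Crest.Agent.N49.Tw

end
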