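import Crest.Agent.N49.Tn.St
import Crest.Agent.N49.Tw.Cext
import Crest.Agent.N49.Tw.Cgen

/-!
# Row 49 (helper65): products of shapes are shapes
-/

set_option autoImplicit false

open Matrix MvPolynomial Finset
open scoped Kronecker

noncomputable section

namespace Crest.Agent.N49.Tw

open Po Xt Sh

namespace Tz

/-- lower bounds of tensor products -/
theorem kron_lo {A B : Type} [Fintype A] [DecidableEq A] [Fintype B] [DecidableEq B]
    {v : Matrix A A ℝ} {K : Matrix B B ℝ} (hv : v.PosDef) (hK : K.PosDef) {a b : ℝ} (ha : 0 ≤ a)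
    (h1 : ∀ x, a * ∑ i, x i ^ 2 ≤ qf v x) (h2 : ∀ x, b * ∑ i, x i ^ 2 ≤ qf K x) (z : A × B → ℝ) :
    a * b * ∑ i, z i ^ 2 ≤ qf (v ⊗ₖ K) z := by
  have ps : ∀ {C : Type} [Fintype C] [DecidableEq C] {M : Matrix C C ℝ} {c : ℝ}, M.PosDef →
      (∀ x, c * ∑ i, x i ^ 2 ≤ qf M x) → (M - c • (1 : Matrix C C ℝ)).PosSemidef :=
    fun {C} _ _ {M c} hM h => PosSemidef.of_dotProduct_mulVec_nonneg
      (hM.1.sub (by simp [IsHermitian])) fun x => by
        have := h x
        simp only [qf, dotProduct, sq] at this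
        simp only [sub_mulVec, smul_mulVec, one_mulVec, star_trivial, dotProduct_sub,
          dotProduct_smul, smul_eq_mul]
        exact sub_nonneg.2 this
  have p1 := ((ps hv h1).kronecker hK.posSemidef).dotProduct_mulVec_nonneg z
  have p2 := ((PosSemidef.one (n := A) (R := ℝ)).kronecker (ps hK h2)).dotProduct_mulVec_nonneg z
  have e : v ⊗ₖ K = (v - a • (1 : Matrix A A ℝ)) ⊗ₖ K +
      a • ((1 : Matrix A A ℝ) ⊗ₖ (K - b • (1 : Matrix B B ℝ))) + (a * b) • 1 := by
    rw [← one_kronecker_one]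
    ext i j
    simp only [kroneckerMap_apply, Matrix.add_apply, Matrix.sub_apply, Matrix.smul_apply,
      smul_eq_mul]
    ring
  rw [e, qf]
  simp only [add_mulVec, smul_mulVec, one_mulVec, dotProduct_add, dotProduct_smul, smul_eq_mul]
  have e2 : ∑ i, z i ^ 2 = z ⬝ᵥ z := by simp [dotProduct, sq]
  rw [star_trivial] at p1 p2
  rw [e2]
  linarith [mul_nonneg ha p2]

variable {τ0 τ : Type} {S0 : Sh Unit τ0} {S : Sh Unit τ}
  {v : Matrix (Option S0.W) (Option S0.W) ℝ}

theorem od_eq (h : S.Ok) {o : Option S.W} (k : S.od o = 0) : o = none := by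
  cases o with
  | none => rfl
  | some w => exact absurd k (h.dg_pos w).ne'

theorem sg_eq {o : Option S.W} (k : S.sg o = 0) : o = none := by
  cases o with
  | none => rfl
  | some w => simp [Sh.sg] at k

theorem od_sg (o : Option S.W) : Finsupp.weight S.dg (S.sg o) = S.od o := by
  cases o <;> simp [Sh.sg, Sh.od, Finsupp.weight_single]

theorem ru_od (h : S.Ok) {o : Option S.W} {m : S.W →₀ ℕ} (k : S.ru o m ≠ 0) :
    Finsupp.weight S.dg m = S.od o := by
  rw [weight_dg, ru_gr h k, ← cd_sg, ← weight_dg, od_sg]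

theorem ru_ht {n : ℕ} {a : ℝ} (h : S.Sz n a) (o : Option S.W) (m : S.W →₀ ℕ) :
    |S.ru o m| ≤ (n : ℤ) + 1 := by
  cases o with
  | none =>
    show |(if _ then (1 : ℤ) else 0)| ≤ _
    split_ifs <;> (simp; try positivity)
  | some w => exact (h.ht w _).trans (by simp)

/-- unital generation -/
theorem gen_u (h : S.Ok) (g : S.Gen' fun _ => False) (κ : Option S.W → ℤ) {o : Option S.W}
    (k : κ o ≠ 0) : ∃ m : S.W →₀ ℕ, m.degree = S.od o ∧ (∀ w ∈ m.support, S.dg w = 1) ∧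
      ∑ o', κ o' * S.ru o' m ≠ 0 := by
  cases o with
  | none => exact ⟨0, rfl, by simp, by simpa [ru_zero h] using k⟩
  | some w =>
    obtain ⟨m, b1, b2, ⟨y, hy, -⟩, b4⟩ := g (fun w => κ (some w)) (fun _ k => k.elim) w k
    refine ⟨m, b1, b2, ?_⟩
    rw [Fintype.sum_option, ru_none (Finsupp.support_nonempty_iff.1 ⟨y, hy⟩), mul_zero, zero_add]
    exact b4

theorem tsum2 {M : Type} [AddCommMonoid M] (g : Option S0.W × Option S.W → M)
    (h : g (none, none) = 0) : ∑ x : TW S0 S, g x.1 = ∑ o, ∑ o', g (o, o') := by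
  rw [← Fintype.sum_prod_type, ← sum_erase univ h]
  exact (sum_subtype _ (by simp) g).symm

variable (S0 S) in
/-- the background part of a monomial -/
def wa : (TW S0 S →₀ ℕ) →+ S0.W →₀ ℕ := Finsupp.weight fun y : TW S0 S => S0.sg y.1.1
variable (S0 S) in
/-- the other part of a monomial -/
def wc : (TW S0 S →₀ ℕ) →+ S.W →₀ ℕ := Finsupp.weight fun y : TW S0 S => S.sg y.1.2
/-- the structure constants of a product -/
def rt (x : TW S0 S) (m : TW S0 S →₀ ℕ) : ℤ := S0.ru x.1.1 (wa S0 S m) * S.ru x.1.2 (wc S0 S m)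
/-- the background words -/
def i0 (w : S0.W) : TW S0 S := ⟨(some w, none), by simp⟩
/-- the other words -/
def i1 (x : Option S0.W × S.W) : TW S0 S := ⟨(x.1, some x.2), by simp⟩

theorem wa_single (x : TW S0 S) : wa S0 S (Finsupp.single x 1) = S0.sg x.1.1 := by
  simp [wa, Finsupp.weight_single]

theorem wc_single (x : TW S0 S) : wc S0 S (Finsupp.single x 1) = S.sg x.1.2 := by
  simp [wc, Finsupp.weight_single]

theorem ten_dg (x : TW S0 S) : (S0.ten S v).dg x = S0.od x.1.1 + S.od x.1.2 :=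
  Finsupp.degree_single _ _

theorem cd_ext {x x' : TW S0 S} (e : S0.od x.1.1 + S.od x.1.2 = S0.od x'.1.1 + S.od x'.1.2) :
    (S0.ten S v).cd x = (S0.ten S v).cd x' :=
  congrArg (fun k => (Finsupp.single () k).mapDomain id) e

theorem od_pos (h0 : S0.Ok) (h : S.Ok) (x : TW S0 S) : 0 < S0.od x.1.1 + S.od x.1.2 :=
  Nat.pos_of_ne_zero fun e => x.2 (Prod.ext (od_eq h0 (by omega)) (od_eq h (by omega)))

theorem tsplit (f : TW S0 S → ℝ) : ∑ x, f x = ∑ w, f (i0 w) + ∑ x, f (i1 x) := by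
  refine Eq.trans ?_ (Fintype.sum_sum_type (Sum.elim (fun w => f (i0 w)) fun x => f (i1 x)))
  refine (Fintype.sum_bijective (Sum.elim i0 i1) ⟨?_, ?_⟩ _ _ ?_).symm
  · rintro (a | a) (b | b) e <;> simp_all [i0, i1, Prod.ext_iff]
  · rintro ⟨⟨_ | o, _ | w⟩, k⟩
    exacts [absurd rfl k, ⟨.inr (none, w), rfl⟩, ⟨.inl o, rfl⟩, ⟨.inr (some o, w), rfl⟩]
  · rintro (a | a) <;> rfl

theorem ten_qf (z : TW S0 S → ℝ) : qf (S0.ten S v).K z =
    qf S0.K (fun w => z (i0 w)) + qf (v ⊗ₖ S.K) fun x => z (i1 x) := by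
  show ∑ x : TW S0 S, z x * ∑ x' : TW S0 S, (S0.ten S v).K x x' * z x' = _
  simp only [tsplit]
  refine congrArg₂ (· + ·) (sum_congr rfl fun w _ => congrArg _ ?_)
    (sum_congr rfl fun w _ => congrArg _ ?_)
  · exact (congrArg _ (sum_eq_zero fun _ _ => zero_mul _)).trans (add_zero _)
  · exact (congrArg (· + _) (sum_eq_zero fun _ _ => zero_mul _)).trans (zero_add _)

theorem rt_one (h0 : S0.Ok) (h : S.Ok) (x x' : TW S0 S) :
    rt x (Finsupp.single x' 1) = if x = x' then 1 else 0 := by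
  rw [rt, wa_single, wc_single, ru_sg h0, ru_sg h]
  simp only [Subtype.ext_iff, Prod.ext_iff, ite_and]
  split_ifs <;> simp

theorem rt_gr (h0 : S0.Ok) (h : S.Ok) {x : TW S0 S} {m : TW S0 S →₀ ℕ} (k : rt x m ≠ 0) :
    Finsupp.weight (fun y : TW S0 S => S0.od y.1.1 + S.od y.1.2) m =
      S0.od x.1.1 + S.od x.1.2 := by
  rw [← ru_od h0 (left_ne_zero_of_mul k), ← ru_od h (right_ne_zero_of_mul k), wa, wc, wt_comp,
    wt_comp, ← wt_add]
  simp only [od_sg]

theorem rt_mul (h0 : S0.Ok) (h : S.Ok) (x : TW S0 S) (m m' : TW S0 S →₀ ℕ) (k : m ≠ 0) :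
    rt x (m + m') = ∑ x' : TW S0 S, rt x' m * rt x (Finsupp.single x' 1 + m') := by
  simp only [rt, map_add, wa_single, wc_single]
  rw [ru_mul h0, ru_mul h, sum_mul_sum, tsum2 fun y => S0.ru y.1 (wa S0 S m) *
    S.ru y.2 (wc S0 S m) * (S0.ru x.1.1 (S0.sg y.1 + wa S0 S m') *
      S.ru x.1.2 (S.sg y.2 + wc S0 S m'))]
  · exact sum_congr rfl fun _ _ => sum_congr rfl fun _ _ => by ring
  · obtain ⟨y, hy⟩ := Finsupp.support_nonempty_iff.2 k
    by_cases a : wa S0 S m = 0
    · rw [ru_none (S := S) (m := wc S0 S m) fun b =>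
        y.2 (Prod.ext (sg_eq (wt_zero a y hy)) (sg_eq (wt_zero b y hy))), mul_zero, zero_mul]
    · rw [ru_none a, zero_mul, zero_mul]

theorem ten_ok (h0 : S0.Ok) (h : S.Ok) {a : ℝ} (hv : S0.Tk v a) : (S0.ten S v).Ok where
  ne (x : TW S0 S) e := (od_pos h0 h x).ne' (Finsupp.single_eq_zero.1 e)
  one := rt_one h0 h
  gr x m k := unit_ext ((weight_dg (S := S0.ten S v) m).symm.trans
    (((congrArg (Finsupp.weight · m) (funext ten_dg)).trans (rt_gr h0 h k)).trans
      ((ten_dg x).symm.trans (cd_degree _).symm)))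
  mul := rt_mul h0 h
  eps := by
    rintro ⟨⟨_ | o, _ | w⟩, k⟩ e
    exacts [absurd rfl e, (ten_dg _).trans ((zero_add _).trans (h.eps w e)),
      (ten_dg _).trans (h0.eps o e), absurd rfl e]
  pd := by
    refine PosDef.of_dotProduct_mulVec_pos (Matrix.ext ?_) fun z hz => ?_
    · rintro ⟨⟨_ | o, _ | w⟩, k⟩ ⟨⟨_ | o', _ | w'⟩, k'⟩ <;> first
        | rfl
        | exact h0.pd.1.apply _ _
        | exact congrArg₂ (· * ·) (hv.pd.1.apply _ _) (h.pd.1.apply _ _)
    · refine lt_of_lt_of_eq ?_ (ten_qf z).symm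
      have p := hv.pd.kronecker h.pd
      obtain ⟨⟨⟨o, _ | w⟩, k⟩, hx⟩ := Function.ne_iff.1 hz
      · obtain _ | o := o
        · exact absurd rfl k
        · exact add_pos_of_pos_of_nonneg (h0.pd.dotProduct_mulVec_pos
            (Function.ne_iff.2 ⟨o, hx⟩)) (p.posSemidef.dotProduct_mulVec_nonneg _)
      · exact add_pos_of_nonneg_of_pos (h0.pd.posSemidef.dotProduct_mulVec_nonneg _)
          (p.dotProduct_mulVec_pos (Function.ne_iff.2 ⟨(o, w), hx⟩))
  blk := by
    rintro ⟨⟨o, _ | w⟩, k⟩ ⟨⟨o', _ | w'⟩, k'⟩ e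
    · obtain _ | o := o
      · exact absurd rfl k
      obtain _ | o' := o'
      · exact absurd rfl k'
      have := congrArg Finsupp.degree (h0.blk o o' e)
      rw [cd_degree, cd_degree] at this
      exact cd_ext (congrArg (· + 0) this)
    · exact absurd rfl e
    · exact absurd rfl e
    · have := congrArg Finsupp.degree (h.blk w w' (right_ne_zero_of_mul e))
      rw [cd_degree, cd_degree] at this
      exact cd_ext (congrArg₂ (· + ·) (hv.blk _ _ (left_ne_zero_of_mul e)) this)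

theorem ten_gen (h0 : S0.Ok) (h : S.Ok) (g0 : S0.Gen' fun _ => False) (g : S.Gen' fun _ => False) :
    (S0.ten S v).Gen' fun _ => False := by
  intro (κ : TW S0 S → ℤ) _ (x : TW S0 S) hx
  let κ' : Option S0.W × Option S.W → ℤ := fun y => if k : y ≠ (none, none) then κ ⟨y, k⟩ else 0
  have hκ : ∀ y : TW S0 S, κ' y.1 = κ y := fun y => dif_pos y.2
  obtain ⟨mc, c1, c2, c3⟩ := gen_u h g (fun o => κ' (x.1.1, o)) (o := x.1.2) (hκ x ▸ hx)
  obtain ⟨ma, a1, a2, a3⟩ := gen_u h0 g0 (fun o => ∑ o', κ' (o, o') * S.ru o' mc) (o := x.1.1) c3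
  have d : (ma.mapDomain (i0 (S := S)) + mc.mapDomain fun w => i1 (none, w)).degree =
      S0.od x.1.1 + S.od x.1.2 := by
    rw [map_add, Finsupp.degree_mapDomain, Finsupp.degree_mapDomain, a1, c1]
  refine ⟨ma.mapDomain i0 + mc.mapDomain fun w => i1 (none, w), d.trans (ten_dg x).symm,
    fun y hy => ?_, ?_, fun z => a3 ?_⟩
  · rcases mem_union.1 (Finsupp.support_add hy) with k | k <;>
      obtain ⟨w, k1, rfl⟩ := mem_image.1 (Finsupp.mapDomain_support k)
    · exact (ten_dg _).trans (a2 w k1)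
    · exact (ten_dg _).trans ((zero_add _).trans (c2 w k1))
  · obtain ⟨y, hy⟩ := Finsupp.support_nonempty_iff.2 fun e => (od_pos h0 h x).ne
      ((map_zero _).symm.trans ((congrArg _ e).symm.trans d))
    exact ⟨y, hy, not_false⟩
  · have e1 : wa S0 S (ma.mapDomain i0 + mc.mapDomain fun w => i1 (none, w)) = ma := by
      rw [map_add, wa, TS.weight_map, TS.weight_map]
      simp [i0, i1, Sh.sg, Finsupp.weight_apply]
    have e2 : wc S0 S (ma.mapDomain i0 + mc.mapDomain fun w => i1 (none, w)) = mc := by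
      rw [map_add, wc, TS.weight_map, TS.weight_map]
      simp [i0, i1, Sh.sg, Finsupp.weight_apply]
    replace z : ∑ y : TW S0 S, κ y *
      rt y (ma.mapDomain i0 + mc.mapDomain fun w => i1 (none, w)) = 0 := z
    simp only [rt, e1, e2, ← hκ] at z
    rw [tsum2 (fun y => κ' y * (S0.ru y.1 ma * S.ru y.2 mc)) (by simp [κ'])] at z
    rw [← z]
    exact sum_congr rfl fun _ _ => (sum_mul _ _ _).trans (sum_congr rfl fun _ _ => by ring)

end Tz

open Tz in
theorem tsz : TSz := by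
  intro τ0 τ S0 S v n n1 a0 a1 a2 a h0 h hv p1 p2 l0 l1
  refine ⟨ten_ok h0.toOk h.toOk hv, ?_, fun (x : TW S0 S) m => ?_, fun z : TW S0 S → ℝ => ?_,
    ((lgen _ _ _).1 _).2 (ten_gen h0.toOk h.toOk (((lgen _ _ S0).1 _).1 h0.gen)
      (((lgen _ _ S).1 _).1 h.gen))⟩
  · refine (Fintype.card_subtype_le _).trans ?_
    rw [Fintype.card_prod, Fintype.card_option, Fintype.card_option]
    exact Nat.mul_le_mul (Nat.succ_le_succ h0.card) (Nat.succ_le_succ h.card)
  · change |S0.ru _ _ * S.ru _ _| ≤ _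
    rw [abs_mul]
    push_cast
    exact mul_le_mul (ru_ht h0 _ _) (ru_ht h _ _) (abs_nonneg _) (by positivity)
  · change a * ∑ x : TW S0 S, z x ^ 2 ≤ _
    rw [ten_qf, tsplit, mul_add]
    exact add_le_add ((mul_le_mul_of_nonneg_right l0 (by positivity)).trans (h0.lo _))
      ((mul_le_mul_of_nonneg_right l1 (by positivity)).trans
        (kron_lo hv.pd h.pd p2.le hv.lo h.lo _))

end Crest.Agent.N49.Tw

end
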