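import Crest.Agent.N49.Tn.Fub

/-!
# Row 49 (helper49): Taylor's formula for tangent towers
-/

set_option autoImplicit false
set_option linter.unusedSectionVars false

open Matrix MvPolynomial Finset

noncomputable section

namespace Crest.Agent.N49.Tw.TS

open Po

variable {τ0 : Type} {T : TS Unit} {S0 : Sh Unit τ0} {v : Matrix (Option S0.W) (Option S0.W) ℝ}
  {st : T.C → ℕ} {Ψ0 : T.Twd S0} {b : T.Cw S0 → ℤ}

theorem tay_gr (hΨ : T.Adm S0 st Ψ0) (F : T.C) :
    Gr (fun m μ => Finsupp.weight S0.dg μ + Finsupp.weight (T.nl S0) m = T.lev F)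
      (eval₂ (MvPolynomial.map (algebraMap ℝ (MvPolynomial (T.Tc S0) ℝ)))
        (T.Yt S0 X fun p => MvPolynomial.C (b p : ℝ)) (Ψ0 F)) := by
  let ρ : ℕ → (T.Tc S0 →₀ ℕ) → (S0.W →₀ ℕ) → Prop := fun n m μ =>
    Finsupp.weight S0.dg μ + Finsupp.weight (T.nl S0) m = n
  have h0 : ρ 0 0 0 := by simp [ρ]
  have k : ∀ a b m μ m' μ', ρ a m μ → ρ b m' μ' → ρ (a + b) (m + m') (μ + μ') := by
    rintro a b m μ m' μ' rfl rfl
    simp only [ρ, map_add]; omega
  rw [eval₂_eq]
  refine Gr.sum _ fun a ha => ?_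
  have e : Gr (ρ (T.lev F - Finsupp.weight T.lev a)) (MvPolynomial.map (algebraMap ℝ
      (MvPolynomial (T.Tc S0) ℝ)) (coeff a (Ψ0 F))) := fun μ m z => by
    classical
    rw [coeff_map, algebraMap_eq, coeff_C] at z
    split_ifs at z with e
    · exact e ▸ (congrArg _ (map_zero _)).trans ((add_zero _).trans (hΨ.gr F a z))
    · exact absurd rfl z
  have f : Gr (ρ (∑ G ∈ a.support, a G • T.lev G)) (∏ G ∈ a.support,
      T.Yt S0 X (fun p => MvPolynomial.C (b p : ℝ)) G ^ a G) :=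
    Gr.prod h0 k _ fun G _ => Gr.pow h0 k (Gr.add (Gr.sum _ fun q hq =>
      Gr.mon _ (Finsupp.single q 1) 1 (by
        simp only [ρ, Sh.dg_sg, Finsupp.weight_single, one_smul, nl_add, (mem_filter.1 hq).2]))
      (Gr.sum _ fun q hq => by
        rw [X, C_mul_monomial, mul_one]
        refine Gr.mon _ 0 _ ?_
        simp only [ρ, map_zero, Finsupp.weight_single, one_smul, ← lev_cw, (mem_filter.1 hq).2,
          add_zero])) _
  exact (e.mul f (k _ _)).mono fun _ _ c => c.trans (Nat.sub_add_cancel (hΨ.le F a ha).1)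

theorem sum_od {N : Type} [AddCommMonoid N] {F : T.C} (hF : 0 < T.lev F) (G : Option S0.W → N)
    (h : ∀ o, T.lev F < S0.od o → G o = 0) : ∑ o, G o =
      ∑ p : T.Cw S0 with p.1.1 = F, G (some p.1.2) + ∑ x : T.Tc S0 with x.1.1 = F, G x.1.2 := by
  rw [← sum_filter_add_sum_filter_not univ fun o => S0.od o < T.lev F, add_comm]
  congr 1
  · rw [sum_cw F fun w => G (some w), sum_filter, sum_filter, Fintype.sum_option,
      if_neg (not_not.2 (show S0.od none < T.lev F from hF)), zero_add]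
    refine sum_congr rfl fun w _ => ?_
    by_cases e : S0.dg w = T.lev F
    · rw [if_pos (show ¬S0.od (some w) < T.lev F from not_lt.2 e.ge), if_pos (unit_ext ((Sh.cd_degree w).trans e))]
    · rw [if_neg fun k : S0.cd w = _ => e ((Sh.cd_degree w).symm.trans (congrArg _ k))]
      split_ifs with k
      · rfl
      · exact h _ (lt_of_le_of_ne (not_lt.1 k) (Ne.symm e))
  · refine (sum_bij (fun x _ => x.1.2) (fun x hx => ?_) (fun x hx x' hx' e => ?_) (fun o ho => ?_)
      fun _ _ => rfl).symm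
    · exact mem_filter.2 ⟨mem_univ _, (mem_filter.1 hx).2 ▸ x.2⟩
    · exact Subtype.ext (Prod.ext ((mem_filter.1 hx).2.trans (mem_filter.1 hx').2.symm) e)
    · exact ⟨⟨(F, o), (mem_filter.1 ho).2⟩, mem_filter.2 ⟨mem_univ _, rfl⟩, rfl⟩

/-- **Taylor's formula** at a character `ρ` of the background ring with values in any algebra -/
theorem taylor (h : S0.Ok) (hΨ : T.Adm S0 st Ψ0) {R : Type} [CommRing R] [Algebra ℝ R]
    (ρ : S0.W → R) {F : T.C} (hF : 0 < T.lev F) (hρ : ∀ m, Finsupp.weight S0.dg m ≤ T.lev F →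
      m.prod (fun w n => ρ w ^ n) = ∑ o, S0.ru o m * o.elim 1 ρ) (y : T.Tc S0 → R) :
    eval₂ (aeval (R := ℝ) ρ).toRingHom (fun G => ∑ p : T.Cw S0 with p.1.1 = G, b p * ρ p.1.2 +
      ∑ x : T.Tc S0 with x.1.1 = G, x.1.2.elim 1 ρ * y x) (Ψ0 F) =
    ∑ p : T.Cw S0 with p.1.1 = F, algebraMap ℝ R ((T.tw S0 Ψ0).u (zc b) p) * ρ p.1.2 +
      ∑ x : T.Tc S0 with x.1.1 = F, x.1.2.elim 1 ρ * aeval y ((T.tan S0 Ψ0 v b).Φ x) := by
  have g := tay_gr (b := b) hΨ F
  have z : ∀ o m, coeff m (T.tm S0 (MvPolynomial.map (algebraMap ℝ (MvPolynomial (T.Tc S0) ℝ)))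
      (Ψ0 F) X (fun p => MvPolynomial.C (b p : ℝ)) o) ≠ 0 →
      S0.od o + Finsupp.weight (T.nl S0) m = T.lev F := fun o m k => by
    rw [tm, Sh.cu_eq, coeff_sum] at k
    obtain ⟨μ, -, k⟩ := exists_ne_zero_of_sum_ne_zero k
    rw [mul_comm, ← zsmul_eq_mul, coeff_smul] at k
    rw [← h.ru_dg (left_ne_zero_of_smul k)]
    exact g μ m (right_ne_zero_of_smul k)
  have s : ∀ o : Option S0.W, (S0.sg o).prod (fun w n => ρ w ^ n) = o.elim 1 ρ := by
    rintro (_ | w) <;> simp [Sh.sg]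
  have e1 := eval₂_comp_left (eval₂Hom (aeval (R := ℝ) y).toRingHom ρ) (MvPolynomial.map
    (algebraMap ℝ (MvPolynomial (T.Tc S0) ℝ))) (T.Yt S0 X fun p => MvPolynomial.C (b p : ℝ)) (Ψ0 F)
  refine Eq.trans (congrArg₂ (fun f Y => eval₂ f Y (Ψ0 F)) ?_ (funext fun G => ?_)) (e1.symm.trans ?_)
  · exact MvPolynomial.ringHom_ext (fun a => by simp) fun w => by simp
  · rw [Function.comp, Yt, Yw, map_add, map_sum, map_sum, add_comm]
    refine congrArg₂ _ (sum_congr rfl fun x _ => ?_) (sum_congr rfl fun p _ => ?_)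
    · rw [eval₂Hom_monomial, s, mul_comm]; simp
    · rw [map_mul, eval₂Hom_C, eval₂Hom_X', map_intCast, map_intCast]
  rw [coe_eval₂Hom, eval₂_eq]
  refine (sum_congr rfl fun μ hμ => congrArg (HMul.hMul _) (hρ μ (by
    obtain ⟨m, k⟩ := ne_zero_iff.1 (mem_support_iff.1 hμ)
    exact (Nat.le_add_right _ _).trans (g μ m k).le))).trans ?_
  simp only [mul_sum]
  rw [sum_comm, sum_congr rfl (g := fun o => aeval y (T.tm S0 (MvPolynomial.map (algebraMap ℝ
    (MvPolynomial (T.Tc S0) ℝ))) (Ψ0 F) X (fun p => MvPolynomial.C (b p : ℝ)) o) * o.elim 1 ρ)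
    fun o _ => by
      rw [tm, Sh.cu_eq, map_sum, sum_mul]
      exact sum_congr rfl fun μ _ => by rw [map_mul, map_intCast, mul_assoc]; rfl,
    sum_od hF _ fun o k => by
      rw [MvPolynomial.ext (T.tm S0 _ (Ψ0 F) X _ o) 0 fun m => of_not_not fun n => by
        have := z o m n; omega, map_zero, zero_mul]]
  refine congrArg₂ _ (sum_congr rfl fun p hp => congrArg (· * _) ?_)
    (sum_congr rfl fun x hx => by rw [← (mem_filter.1 hx).2, mul_comm]; rfl)
  obtain rfl := (mem_filter.1 hp).2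
  refine Eq.trans (congrArg _ (MvPolynomial.ext _ _ fun m => ?_)) (aeval_C y _)
  classical
  rw [coeff_C]
  split_ifs with k
  · subst k
    refine Eq.trans ?_ (tw_u (fun q => (b q : ℝ)) p).symm
    rw [← constantCoeff_eq, tm_map, tm, Sh.cu_some, eval, coe_eval₂Hom]
    refine congrArg _ (congrArg₂ (fun f Y => eval₂ f Y (Ψ0 p.1.1)) ?_ (funext fun G => ?_))
    · exact MvPolynomial.ringHom_ext (fun a => by simp) fun w => by simp
    · simp [Yt, Yw]
  · by_contra n
    have a := z _ m n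
    have c := lev_cw p
    change S0.dg p.1.2 + _ = _ at a
    refine k (Finsupp.ext fun x => ?_)
    have := Finsupp.le_weight (T.nl S0) (s := x) (nl_pos x).ne' m
    rw [Finsupp.coe_zero, Pi.zero_apply]
    omega

end Crest.Agent.N49.Tw.TS

end
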