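import Crest.Agent.N49.Tn.St
import Crest.Agent.N49.Tw.Cext
import Crest.Agent.N49.Tw.Jet

/-!
# Row 49 (helper49): tangent towers, the algebraic identities
-/

set_option autoImplicit false
set_option linter.unusedSectionVars false

open Matrix MvPolynomial Finset

noncomputable section

namespace Crest.Agent.N49.Tw

open Po

/-- gradings of triple polynomials -/
def G3 {τ ι κ : Type} (r : (τ →₀ ℕ) → (ι →₀ ℕ) → (κ →₀ ℕ) → Prop)
    (P : MvPolynomial τ (MvPolynomial ι (MvPolynomial κ ℝ))) : Prop :=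
  ∀ μ m ν, coeff ν (coeff m (coeff μ P)) ≠ 0 → r μ m ν

namespace G3
variable {τ ι κ : Type} {r r' r'' : (τ →₀ ℕ) → (ι →₀ ℕ) → (κ →₀ ℕ) → Prop}
  {P Q : MvPolynomial τ (MvPolynomial ι (MvPolynomial κ ℝ))}

theorem sum {α : Type*} (s : Finset α) {f : α → MvPolynomial τ (MvPolynomial ι (MvPolynomial κ ℝ))}
    (h : ∀ i ∈ s, G3 r (f i)) : G3 r (∑ i ∈ s, f i) := fun μ m ν a => by
  rw [coeff_sum, coeff_sum, coeff_sum] at a
  obtain ⟨i, hi, b⟩ := exists_ne_zero_of_sum_ne_zero a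
  exact h i hi μ m ν b

theorem add (h : G3 r P) (k : G3 r Q) : G3 r (P + Q) := fun μ m ν a => by
  rw [coeff_add, coeff_add, coeff_add] at a
  by_cases z : coeff ν (coeff m (coeff μ P)) = 0
  · rw [z, zero_add] at a; exact k _ _ _ a
  · exact h _ _ _ z

theorem mul (h : G3 r P) (h' : G3 r' Q) (k : ∀ μ m ν μ' m' ν', r μ m ν → r' μ' m' ν' →
    r'' (μ + μ') (m + m') (ν + ν')) : G3 r'' (P * Q) := fun μ m ν a => by
  classical
  rw [coeff_mul, coeff_sum, coeff_sum] at a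
  obtain ⟨x, hx, b⟩ := exists_ne_zero_of_sum_ne_zero a
  rw [coeff_mul, coeff_sum] at b
  obtain ⟨z, hz, c⟩ := exists_ne_zero_of_sum_ne_zero b
  rw [coeff_mul] at c
  obtain ⟨w, hw, d⟩ := exists_ne_zero_of_sum_ne_zero c
  rw [← mem_antidiagonal.1 hx, ← mem_antidiagonal.1 hz, ← mem_antidiagonal.1 hw]
  exact k _ _ _ _ _ _ (h _ _ _ (left_ne_zero_of_mul d)) (h' _ _ _ (right_ne_zero_of_mul d))

theorem mon (μ : τ →₀ ℕ) (m : ι →₀ ℕ) (ν : κ →₀ ℕ) (a : ℝ) (h : a ≠ 0 → r μ m ν) :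
    G3 r (monomial μ (monomial m (monomial ν a))) := fun μ' m' ν' b => by
  classical
  rw [coeff_monomial] at b
  split_ifs at b with e
  · rw [coeff_monomial] at b
    split_ifs at b with e'
    · rw [coeff_monomial] at b
      split_ifs at b with e''
      · rw [← e, ← e', ← e'']; exact h b
      · exact absurd rfl b
    · exact absurd rfl b
  · exact absurd rfl b

variable {M : Type*} [AddCommMonoid M] {ρ : M → (τ →₀ ℕ) → (ι →₀ ℕ) → (κ →₀ ℕ) → Prop}

theorem prod {α : Type*} (h0 : ρ 0 0 0 0) (k : ∀ a b μ m ν μ' m' ν', ρ a μ m ν → ρ b μ' m' ν' →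
      ρ (a + b) (μ + μ') (m + m') (ν + ν')) (s : Finset α)
    {f : α → MvPolynomial τ (MvPolynomial ι (MvPolynomial κ ℝ))} {w : α → M}
    (h : ∀ i ∈ s, G3 (ρ (w i)) (f i)) : G3 (ρ (∑ i ∈ s, w i)) (∏ i ∈ s, f i) := by
  classical
  induction s using Finset.induction_on with
  | empty => exact mon 0 0 0 1 fun _ => h0
  | insert i s hi ih =>
    rw [sum_insert hi, prod_insert hi]
    exact (h i (mem_insert_self _ _)).mul (ih fun j hj => h j (mem_insert_of_mem hj)) (k _ _)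

theorem pow (h0 : ρ 0 0 0 0) (k : ∀ a b μ m ν μ' m' ν', ρ a μ m ν → ρ b μ' m' ν' →
      ρ (a + b) (μ + μ') (m + m') (ν + ν')) {w : M} (h : G3 (ρ w) P) (n : ℕ) :
    G3 (ρ (n • w)) (P ^ n) := by
  simpa using prod h0 k (range n) (f := fun _ => P) (w := fun _ => w) fun _ _ => h

end G3

theorem mem_flt {α : Type} {p : α → Prop} {i : DecidablePred p} {s : Finset α} {a : α} :
    a ∈ @filter α p i s ↔ a ∈ s ∧ p a := mem_filter

theorem single_of_wt {α : Type} {w : α → ℕ} {m : α →₀ ℕ} {c : α} (hw : ∀ a, 0 < w a)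
    (hc : m c ≠ 0) (h : Finsupp.weight w m ≤ w c) : m = Finsupp.single c 1 := by
  obtain ⟨m', rfl⟩ : ∃ m', m = Finsupp.single c 1 + m' :=
    exists_add_of_le (Finsupp.single_le_iff.2 (Nat.one_le_iff_ne_zero.2 hc))
  rw [map_add, Finsupp.weight_single, one_smul] at h
  have : m' = 0 := by
    ext a
    by_contra z
    have := Finsupp.le_weight w (s := a) (hw a).ne' m'
    have := Nat.pos_of_ne_zero z
    simp only [Finsupp.coe_zero, Pi.zero_apply] at *
    omega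
  rw [this, add_zero]

theorem wt_mono {α : Type} (w : α → ℕ) {m m' : α →₀ ℕ} (h : m ≤ m') :
    Finsupp.weight w m ≤ Finsupp.weight w m' := by
  obtain ⟨k, rfl⟩ := exists_add_of_le h
  rw [map_add]; exact le_self_add

theorem aeval_whom {α β R : Type} [CommRing R] {w : α → ℕ} {w' : β → ℕ}
    {f : α → MvPolynomial β R} (h : ∀ a, (f a).IsWeightedHomogeneous w' (w a))
    {P : MvPolynomial α R} {n : ℕ} (hP : P.IsWeightedHomogeneous w n) :
    (aeval f P).IsWeightedHomogeneous w' n := by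
  rw [P.as_sum, map_sum]
  refine IsWeightedHomogeneous.sum _ _ _ fun m hm => ?_
  rw [aeval_monomial, ← hP (mem_support_iff.1 hm), Finsupp.weight_apply, Finsupp.sum,
    Finsupp.prod, ← zero_add (∑ _ ∈ _, _)]
  exact (isWeightedHomogeneous_C _ _).mul (IsWeightedHomogeneous.prod _ _ _ fun v _ => (h v).pow _)

theorem aeval_mon2 {α β R A : Type} [CommRing R] [CommRing A] [Algebra R A] (f : α → β →₀ ℕ)
    (g : α → A) (m : α →₀ ℕ) (a : R) : aeval (fun z => monomial (f z) (g z)) (monomial m a) =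
      monomial (Finsupp.weight f m) (aeval g (monomial m a)) := by
  induction m using Finsupp.induction_linear generalizing a with
  | zero => simp [MvPolynomial.algebraMap_apply]
  | add m m' h k =>
    rw [← one_mul a, ← monomial_mul, map_mul, map_mul, h, k, monomial_mul, map_add]
  | single z n =>
    rw [aeval_monomial, aeval_monomial, Finsupp.prod_single_index (by simp),
      Finsupp.prod_single_index (by simp), monomial_pow, Finsupp.weight_single,
      MvPolynomial.algebraMap_apply, C_mul_monomial]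

namespace Sh

variable {τ0 τ R R' : Type} [CommRing R] [CommRing R'] {S0 : Sh Unit τ0} {S : Sh Unit τ}
  {v : Matrix (Option S0.W) (Option S0.W) ℝ}

theorem cu_monomial (o : Option S0.W) (m : S0.W →₀ ℕ) (a : R) :
    S0.cu R o (monomial m a) = a * S0.ru o m := by
  rw [show monomial m a = a • basisMonomials S0.W R m by simp [smul_monomial], map_smul, cu,
    Module.Basis.constr_basis, smul_eq_mul]

theorem cu_some (w : S0.W) : S0.cu R (some w) = S0.cf R w := rfl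

theorem cu_none (P : MvPolynomial S0.W R) : S0.cu R none P = constantCoeff P := by
  classical
  induction P using MvPolynomial.induction_on' with
  | monomial m a => rw [cu_monomial, constantCoeff_monomial]; simp [ru]
  | add p q a b => rw [map_add, map_add, a, b]

theorem cu_eq (o : Option S0.W) (P : MvPolynomial S0.W R) :
    S0.cu R o P = ∑ m ∈ P.support, coeff m P * S0.ru o m := by
  conv_lhs => rw [P.as_sum]
  simp only [map_sum, cu_monomial]

theorem cu_map (f : R →+* R') (o : Option S0.W) (P : MvPolynomial S0.W R) :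
    S0.cu R' o (MvPolynomial.map f P) = f (S0.cu R o P) := by
  induction P using MvPolynomial.induction_on' with
  | monomial m a => rw [map_monomial, cu_monomial, cu_monomial, map_mul, map_intCast]
  | add p q a b => simp only [map_add, a, b]

theorem cu_C_mul (o : Option S0.W) (a : R) (P : MvPolynomial S0.W R) :
    S0.cu R o (MvPolynomial.C a * P) = a * S0.cu R o P := by
  rw [← smul_eq_C_mul, map_smul, smul_eq_mul]

theorem dg_sg (o : Option S0.W) : Finsupp.weight S0.dg (S0.sg o) = S0.od o := by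
  cases o <;> simp [sg, od, Finsupp.weight_single]

theorem Ok.ru_dg (h : S0.Ok) {o : Option S0.W} {m : S0.W →₀ ℕ} (k : S0.ru o m ≠ 0) :
    Finsupp.weight S0.dg m = S0.od o := by
  rw [weight_dg, Xt.ru_gr h k]
  cases o
  · exact map_zero _
  · exact cd_degree _

theorem ten_dg (z : TW S0 S) : (S0.ten S v).dg z = S0.od z.1.1 + S.od z.1.2 :=
  Finsupp.degree_single _ _

variable (S0 S) in
/-- the old part of a monomial -/
def w0 : (TW S0 S →₀ ℕ) →+ S0.W →₀ ℕ := Finsupp.weight fun y : TW S0 S => S0.sg y.1.1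
variable (S0 S) in
/-- the new part of a monomial -/
def w1 : (TW S0 S →₀ ℕ) →+ S.W →₀ ℕ := Finsupp.weight fun y : TW S0 S => S.sg y.1.2

theorem ten_r (z : TW S0 S) (m : TW S0 S →₀ ℕ) :
    (S0.ten S v).r z m = S0.ru z.1.1 (w0 S0 S m) * S.ru z.1.2 (w1 S0 S m) := rfl

variable (S0 S) in
/-- the length of a word of the product -/
def td (z : TW S0 S) : ℕ := S0.od z.1.1 + S.od z.1.2

theorem ten_dg' : (S0.ten S v).dg = td S0 S := funext ten_dg

theorem ten_wt (m : TW S0 S →₀ ℕ) : Finsupp.weight (td S0 S) m =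
    Finsupp.weight S0.dg (w0 S0 S m) + Finsupp.weight S.dg (w1 S0 S m) := by
  rw [w0, w1, Xt.wt_comp, Xt.wt_comp, ← Xt.wt_add]
  exact Xt.wt_congr fun z _ => by rw [td, dg_sg, dg_sg]

variable (S0 S R) in
/-- polynomials in the words of the product as iterated polynomials -/
def J : MvPolynomial (TW S0 S) R →ₐ[R] MvPolynomial S0.W (MvPolynomial S.W R) :=
  aeval fun z => monomial (S0.sg z.1.1) (monomial (S.sg z.1.2) 1)

theorem J_monomial (m : TW S0 S →₀ ℕ) (a : R) :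
    J R S0 S (monomial m a) = monomial (w0 S0 S m) (monomial (w1 S0 S m) a) := by
  rw [J, aeval_mon2, aeval_mon2]; simp [aeval_monomial, w0, w1]

theorem ten_cf (z : TW S0 S) (P : MvPolynomial (TW S0 S) R) :
    (S0.ten S v).cf R z P = S.cu R z.1.2 (S0.cu _ z.1.1 (J R S0 S P)) := by
  induction P using MvPolynomial.induction_on' with
  | monomial m a =>
    refine (cf_monomial (S := S0.ten S v) z m a).trans ?_
    rw [J_monomial, cu_monomial, mul_comm (monomial _ _), ← zsmul_eq_mul, map_zsmul, cu_monomial,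
      ten_r]
    push_cast; ring
  | add p q a b => exact (map_add _ p q).trans ((congrArg₂ (· + ·) a b).trans (by simp only [map_add]))

variable (S0 S) in
/-- kill the new words -/
def B0 : MvPolynomial (TW S0 S) ℝ →ₐ[ℝ] MvPolynomial S0.W ℝ :=
  aeval fun x : TW S0 S => x.1.2.elim (monomial (S0.sg x.1.1) (1 : ℝ)) fun _ => 0

variable (S) in
/-- the old words -/
def i0 (w : S0.W) : TW S0 S := ⟨(some w, none), by simp⟩

theorem cc_J (P : MvPolynomial (TW S0 S) ℝ) :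
    MvPolynomial.map constantCoeff (J ℝ S0 S P) = B0 S0 S P := by
  classical
  induction P using MvPolynomial.induction_on with
  | C a => simp [J, B0, MvPolynomial.algebraMap_apply]
  | add p q a b => simp only [map_add, a, b]
  | mul_X p z a =>
    rw [map_mul, map_mul, map_mul, a, J, B0, aeval_X, aeval_X, map_monomial, constantCoeff_monomial]
    rcases z with ⟨⟨o, _ | w⟩, -⟩ <;> simp [sg]

theorem J_i0 (P : MvPolynomial S0.W R) :
    J R S0 S (rename (i0 S) P) = MvPolynomial.map MvPolynomial.C P := by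
  induction P using MvPolynomial.induction_on with
  | C a => simp [J, MvPolynomial.algebraMap_apply]
  | add p q a b => simp only [map_add, a, b]
  | mul_X p z a => rw [map_mul, map_mul, map_mul, a, rename_X, J, aeval_X, map_X]; rfl

theorem B0_i0 (P : MvPolynomial S0.W ℝ) : B0 S0 S (rename (i0 S) P) = P := by
  rw [← cc_J, J_i0, MvPolynomial.map_map, constantCoeff_comp_C, MvPolynomial.map_id]

end Sh

namespace TS

variable {τ0 τ A R R' : Type} [CommRing A] [CommRing R] [CommRing R'] {T : TS Unit}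
  {S0 : Sh Unit τ0} {S : Sh Unit τ} {v : Matrix (Option S0.W) (Option S0.W) ℝ} {st : T.C → ℕ}
  {M : ℕ}

variable (T S0) in
/-- the new level -/
def nl (x : T.Tc S0) : ℕ := T.lev x.1.1 - S0.od x.1.2

theorem nl_add (x : T.Tc S0) : S0.od x.1.2 + T.nl S0 x = T.lev x.1.1 := Nat.add_sub_cancel' x.2.le

theorem nl_pos (x : T.Tc S0) : 0 < T.nl S0 x := Nat.sub_pos_of_lt x.2

theorem tan_lev (Ψ0 : T.Twd S0) (b : T.Cw S0 → ℤ) : (T.tan S0 Ψ0 v b).lev = T.nl S0 :=
  funext fun _ => Finsupp.degree_single _ _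

variable (T S0) in
/-- a Taylor coefficient -/
def tm (f : A →+* MvPolynomial S0.W R) (P : MvPolynomial T.C A) (y : T.Tc S0 → R)
    (b : T.Cw S0 → R) (o : Option S0.W) : R := S0.cu R o (eval₂ f (T.Yt S0 y b) P)

theorem map_Yt (g : R →+* R') (y : T.Tc S0 → R) (b : T.Cw S0 → R) (F : T.C) :
    MvPolynomial.map g (T.Yt S0 y b F) = T.Yt S0 (fun x => g (y x)) (fun p => g (b p)) F := by
  simp only [Yt, map_add, map_sum, map_monomial, map_Yw]

theorem tm_map (g : R →+* R') (f : A →+* MvPolynomial S0.W R) (P : MvPolynomial T.C A)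
    (y : T.Tc S0 → R) (b : T.Cw S0 → R) (o : Option S0.W) : g (T.tm S0 f P y b o) =
      T.tm S0 ((MvPolynomial.map g).comp f) P (fun x => g (y x)) (fun p => g (b p)) o := by
  rw [tm, ← Sh.cu_map, eval₂_comp_left, tm]
  exact congrArg (fun Y => S0.cu R' o (eval₂ _ Y P)) (funext (map_Yt g y b))

theorem tm_sum (f : A →+* MvPolynomial S0.W R) (P : MvPolynomial T.C A) (y : T.Tc S0 → R)
    (b : T.Cw S0 → R) (o : Option S0.W) : T.tm S0 f P y b o =
      ∑ a ∈ P.support, T.tm S0 f (monomial a (coeff a P)) y b o := by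
  simp only [tm]
  rw [← map_sum, ← eval₂_sum, ← as_sum]

theorem cu_Yt (h : S0.Ok) (y : T.Tc S0 → R) (b : T.Cw S0 → R) (x : T.Tc S0) :
    S0.cu R x.1.2 (T.Yt S0 y b x.1.1) = y x := by
  rw [Yt, map_add, map_sum, sum_eq_single x, Yw, map_sum, sum_eq_zero, add_zero, Sh.cu_monomial,
    Xt.ru_sg h, if_pos rfl, Int.cast_one, mul_one]
  · intro p hp
    have a := lev_cw p
    have c := x.2
    rw [(mem_filter.1 hp).2] at a
    rw [X, C_mul_monomial, Sh.cu_monomial, show Finsupp.single p.1.2 1 = S0.sg (some p.1.2) from rfl,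
      Xt.ru_sg h, if_neg, Int.cast_zero, mul_zero]
    intro e
    rw [e, a] at c
    exact lt_irrefl _ c
  · intro q hq ne
    rw [Sh.cu_monomial, Xt.ru_sg h, if_neg fun e => ne (Subtype.ext
      (Prod.ext (mem_filter.1 hq).2 e.symm)), Int.cast_zero, mul_zero]
  · exact fun k => absurd (mem_filter.2 ⟨mem_univ x, rfl⟩ : x ∈ univ.filter
      fun q : T.Tc S0 => q.1.1 = x.1.1) k

variable (T S0 S) in
/-- the coefficient map of `tt` -/
def fJ : MvPolynomial (Sh.TW S0 S) ℝ →+*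
    MvPolynomial S0.W (MvPolynomial (T.Tc S0) (MvPolynomial S.W ℝ)) :=
  (aeval fun z : Sh.TW S0 S => monomial (S0.sg z.1.1) (MvPolynomial.C (monomial (S.sg z.1.2)
    (1 : ℝ)) : MvPolynomial (T.Tc S0) (MvPolynomial S.W ℝ))).toRingHom

theorem fJ_eq (P : MvPolynomial (Sh.TW S0 S) ℝ) :
    T.fJ S0 S P = MvPolynomial.map MvPolynomial.C (Sh.J ℝ S0 S P) := by
  induction P using MvPolynomial.induction_on with
  | C a => simp [fJ, Sh.J, MvPolynomial.algebraMap_apply]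
  | add p q a b => simp only [map_add, a, b]
  | mul_X p z a => rw [map_mul, map_mul, map_mul, a]; simp [fJ, Sh.J]

variable (T S0 S) in
/-- the polynomial form of `tt` -/
def tq (P : MvPolynomial T.C (MvPolynomial (Sh.TW S0 S) ℝ)) (b : T.Cw S0 → ℤ) (o : Option S0.W) :
    MvPolynomial (T.Tc S0) (MvPolynomial S.W ℝ) :=
  T.tm S0 (T.fJ S0 S) P X (fun p => MvPolynomial.C (MvPolynomial.C (b p : ℝ))) o

theorem tt_eq (Ψ : T.Twd (S0.ten S v)) (b : T.Cw S0 → ℤ) (x : T.Tc S0) :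
    T.tt S0 S v Ψ b x = T.tq S0 S (Ψ x.1.1) b x.1.2 := rfl

theorem tan_Φ (Ψ0 : T.Twd S0) (b : T.Cw S0 → ℤ) (x : T.Tc S0) : (T.tan S0 Ψ0 v b).Φ x =
    T.tm S0 (MvPolynomial.map (algebraMap ℝ (MvPolynomial (T.Tc S0) ℝ))) (Ψ0 x.1.1) X
      (fun p => MvPolynomial.C (b p : ℝ)) x.1.2 := rfl

theorem tb_eq (Ψ : T.Twd (S0.ten S v)) (F : T.C) :
    T.tb S0 S v Ψ F = MvPolynomial.map (Sh.B0 S0 S).toRingHom (Ψ F) := rfl

theorem tin_eq (Ψ0 : T.Twd S0) (F : T.C) :
    T.tin S0 S v Ψ0 F = MvPolynomial.map (rename (Sh.i0 S)).toRingHom (Ψ0 F) := rfl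

theorem tb_tin (Ψ0 : T.Twd S0) : T.tb S0 S v (T.tin S0 S v Ψ0) = Ψ0 := funext fun F => by
  exact (MvPolynomial.map_map _ _ _).trans ((congrArg (MvPolynomial.map · (Ψ0 F))
    (RingHom.ext Sh.B0_i0)).trans (MvPolynomial.map_id _))

theorem cc_tq (P : MvPolynomial T.C (MvPolynomial (Sh.TW S0 S) ℝ)) (b : T.Cw S0 → ℤ)
    (o : Option S0.W) : MvPolynomial.map constantCoeff (T.tq S0 S P b o) =
      T.tm S0 (MvPolynomial.map (algebraMap ℝ (MvPolynomial (T.Tc S0) ℝ)))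
        (MvPolynomial.map (Sh.B0 S0 S).toRingHom P) X (fun p => MvPolynomial.C (b p : ℝ)) o := by
  rw [tq, tm_map, tm, tm, eval₂_map]
  simp only [map_X, map_C, constantCoeff_C]
  congr 2
  refine RingHom.ext fun Q => ?_
  rw [RingHom.comp_apply, RingHom.comp_apply, fJ_eq, AlgHom.toRingHom_eq_coe, RingHom.coe_coe,
    ← Sh.cc_J, MvPolynomial.map_map, MvPolynomial.map_map]
  congr 2
  exact RingHom.ext fun c => by simp

theorem tan_cc (Ψ : T.Twd (S0.ten S v)) (b : T.Cw S0 → ℤ) (x : T.Tc S0) :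
    (T.tan S0 (T.tb S0 S v Ψ) v b).Φ x =
      MvPolynomial.map constantCoeff (T.tq S0 S (Ψ x.1.1) b x.1.2) := (cc_tq _ _ _).symm

theorem tq_i0 (P : MvPolynomial T.C (MvPolynomial S0.W ℝ)) (b : T.Cw S0 → ℤ) (o : Option S0.W) :
    T.tq S0 S (MvPolynomial.map (rename (Sh.i0 S)).toRingHom P) b o =
      MvPolynomial.map MvPolynomial.C (T.tm S0 (MvPolynomial.map (algebraMap ℝ
        (MvPolynomial (T.Tc S0) ℝ))) P X (fun p => MvPolynomial.C (b p : ℝ)) o) := by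
  rw [tm_map, tq, tm, tm, eval₂_map]
  simp only [map_X, map_C]
  refine congrArg (fun f => S0.cu _ o (eval₂ f _ P)) (RingHom.ext fun Q => ?_)
  rw [RingHom.comp_apply, RingHom.comp_apply, fJ_eq, AlgHom.toRingHom_eq_coe, RingHom.coe_coe,
    Sh.J_i0, MvPolynomial.map_map, MvPolynomial.map_map]
  congr 2
  exact RingHom.ext fun c => by simp

theorem tq_tin (Ψ0 : T.Twd S0) (b : T.Cw S0 → ℤ) (x : T.Tc S0) :
    T.tq S0 S (T.tin S0 S v Ψ0 x.1.1) b x.1.2 =
      MvPolynomial.map MvPolynomial.C ((T.tan S0 Ψ0 v b).Φ x) := tq_i0 _ _ _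

theorem tq_sum (P : MvPolynomial T.C (MvPolynomial (Sh.TW S0 S) ℝ)) (b : T.Cw S0 → ℤ)
    (o : Option S0.W) :
    T.tq S0 S P b o = ∑ a ∈ P.support, T.tq S0 S (monomial a (coeff a P)) b o := tm_sum ..

/-- the monomials of one term -/
theorem tq_term (h : S0.Ok) (a : T.C →₀ ℕ) (c : MvPolynomial (Sh.TW S0 S) ℝ) (b : T.Cw S0 → ℤ)
    (o : Option S0.W) {m : T.Tc S0 →₀ ℕ} {ν : S.W →₀ ℕ}
    (z : coeff ν (coeff m (T.tq S0 S (monomial a c) b o)) ≠ 0) : m.mapDomain (·.1.1) ≤ a ∧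
      ∃ l, coeff l c ≠ 0 ∧ Finsupp.weight S.dg ν ≤ Finsupp.weight (Sh.td S0 S) l ∧
        S0.od o + Finsupp.weight (T.nl S0) m + Finsupp.weight S.dg ν =
          Finsupp.weight (Sh.td S0 S) l + Finsupp.weight T.lev a := by
  rw [tq, tm, Sh.cu_eq, coeff_sum, coeff_sum] at z
  obtain ⟨μ, -, z⟩ := exists_ne_zero_of_sum_ne_zero z
  rw [mul_comm, ← zsmul_eq_mul, coeff_smul, coeff_smul] at z
  rw [← h.ru_dg (left_ne_zero_of_smul z)]
  let ρ : (T.C →₀ ℕ) → (S0.W →₀ ℕ) → (T.Tc S0 →₀ ℕ) → (S.W →₀ ℕ) → Prop := fun a μ m ν =>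
    m.mapDomain (·.1.1) ≤ a ∧ ν = 0 ∧
      Finsupp.weight S0.dg μ + Finsupp.weight (T.nl S0) m = Finsupp.weight T.lev a
  have h0 : ρ 0 0 0 0 := ⟨by simp, rfl, by simp⟩
  have k : ∀ a b μ m ν μ' m' ν', ρ a μ m ν → ρ b μ' m' ν' →
      ρ (a + b) (μ + μ') (m + m') (ν + ν') := by
    rintro a b μ m ν μ' m' ν' ⟨a1, rfl, a2⟩ ⟨b1, rfl, b2⟩
    refine ⟨by rw [Finsupp.mapDomain_add]; exact add_le_add a1 b1, rfl, ?_⟩
    simp only [map_add]; omega
  have e : G3 (fun μ m ν => m = 0 ∧ ∃ l, coeff l c ≠ 0 ∧ μ = Sh.w0 S0 S l ∧ ν = Sh.w1 S0 S l)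
      (T.fJ S0 S c) := by
    rw [fJ_eq, c.as_sum, map_sum, map_sum, ← c.as_sum]
    refine G3.sum _ fun l _ => ?_
    rw [Sh.J_monomial, map_monomial, C_apply]
    exact G3.mon _ _ _ _ fun z => ⟨rfl, l, z, rfl, rfl⟩
  have f : G3 (ρ (∑ F ∈ a.support, a F • Finsupp.single F 1)) (∏ F ∈ a.support,
      T.Yt S0 X (fun p => MvPolynomial.C (MvPolynomial.C (b p : ℝ))) F ^ a F) :=
    G3.prod h0 k _ fun F _ => G3.pow h0 k (G3.add (G3.sum _ fun q hq => by
      refine G3.mon _ (Finsupp.single q 1) 0 1 fun _ => ⟨by simp [(mem_filter.1 hq).2], rfl, ?_⟩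
      rw [Sh.dg_sg, Finsupp.weight_single, Finsupp.weight_single, one_smul, one_smul, nl_add,
        (mem_filter.1 hq).2]) (G3.sum _ fun q hq => by
      rw [X, C_mul_monomial, mul_one]
      refine G3.mon _ 0 0 _ fun _ => ⟨by simp, rfl, ?_⟩
      rw [map_zero, Finsupp.weight_single, Finsupp.weight_single, one_smul, one_smul, ← lev_cw,
        (mem_filter.1 hq).2, add_zero])) _
  rw [eval₂_monomial] at z
  have g : ∑ F ∈ a.support, a F • Finsupp.single F 1 = a := by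
    simp only [Finsupp.smul_single, smul_eq_mul, mul_one]
    exact Finsupp.sum_single a
  rw [g] at f
  refine e.mul f (r'' := fun μ m ν => m.mapDomain (·.1.1) ≤ a ∧
      ∃ l, coeff l c ≠ 0 ∧ Finsupp.weight S.dg ν ≤ Finsupp.weight (Sh.td S0 S) l ∧
        Finsupp.weight S0.dg μ + Finsupp.weight (T.nl S0) m + Finsupp.weight S.dg ν =
          Finsupp.weight (Sh.td S0 S) l + Finsupp.weight T.lev a) ?_ μ m ν
    (right_ne_zero_of_smul z)
  rintro μ m ν μ' m' ν' ⟨rfl, l, z, rfl, rfl⟩ ⟨a1, rfl, a2⟩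
  have := Sh.ten_wt l
  refine ⟨by rwa [zero_add], l, z, ?_, ?_⟩
  · rw [add_zero]; omega
  · rw [add_zero, zero_add, map_add]; omega

variable {Ψ : T.C → MvPolynomial T.C (MvPolynomial (Sh.TW S0 S) ℝ)} {b : T.Cw S0 → ℤ}

theorem Adm.gr_td (hΨ : T.Adm (S0.ten S v) st Ψ) (F : T.C) (a : T.C →₀ ℕ) :
    (coeff a (Ψ F)).IsWeightedHomogeneous (Sh.td S0 S) (T.lev F - Finsupp.weight T.lev a) :=
  Sh.ten_dg' (v := v) ▸ hΨ.gr F a

/-- **the monomials of the induced twist** -/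
theorem tq_mon (h : S0.Ok) (hΨ : T.Adm (S0.ten S v) st Ψ) (x : T.Tc S0) {m : T.Tc S0 →₀ ℕ}
    {ν : S.W →₀ ℕ} (z : coeff ν (coeff m (T.tq S0 S (Ψ x.1.1) b x.1.2)) ≠ 0) :
    Finsupp.weight (T.nl S0) m + Finsupp.weight S.dg ν = T.nl S0 x ∧ ∃ a ∈ (Ψ x.1.1).support,
      m.mapDomain (·.1.1) ≤ a ∧ Finsupp.weight S.dg ν + Finsupp.weight T.lev a ≤ T.lev x.1.1 := by
  rw [tq_sum, coeff_sum, coeff_sum] at z
  obtain ⟨a, ha, z⟩ := exists_ne_zero_of_sum_ne_zero z
  obtain ⟨a1, l, a2, a3, a4⟩ := tq_term h a _ b _ z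
  have e := hΨ.gr_td _ _ a2
  have := (hΨ.le _ _ ha).1
  have := nl_add x
  exact ⟨by omega, a, ha, a1, by omega⟩

theorem tq_lin (h : S0.Ok) (hT : T.Tri) (hΨ : T.Adm (S0.ten S v) st Ψ) (x x' : T.Tc S0)
    (e : T.lev x.1.1 ≤ T.lev x'.1.1) :
    coeff (Finsupp.single x' 1) (T.tq S0 S (Ψ x.1.1) b x.1.2) =
      MvPolynomial.C (T.A x.1.1 x'.1.1 * if x.1.2 = x'.1.2 then 1 else 0) := by
  have key : ∀ a ∈ (Ψ x.1.1).support, a ≠ Finsupp.single x'.1.1 1 ∨ T.lev x.1.1 ≠ T.lev x'.1.1 →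
      coeff (Finsupp.single x' 1) (T.tq S0 S (monomial a (coeff a (Ψ x.1.1))) b x.1.2) = 0 := by
    intro a ha ne
    ext ν
    by_contra z
    have a1 := (tq_term h a _ b _ z).1
    rw [Finsupp.mapDomain_single] at a1
    have a2 := (hΨ.le _ _ ha).1
    have a3 := wt_mono T.lev a1
    rw [Finsupp.weight_single, one_smul] at a3
    rcases ne with ne | ne
    · exact ne (single_of_wt hT.lev_pos
        (Nat.one_le_iff_ne_zero.1 (Finsupp.single_le_iff.1 a1)) (a2.trans e))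
    · omega
  rw [tq_sum, coeff_sum]
  by_cases l : T.lev x.1.1 = T.lev x'.1.1
  swap
  · rw [blk_A T _ _ l, zero_mul, map_zero]
    exact sum_eq_zero fun a ha => key a ha (.inr l)
  have t : coeff (Finsupp.single x'.1.1 1) (Ψ x.1.1) = (MvPolynomial.C (coeff (Finsupp.single
      x'.1.1 1) (T.Φ x.1.1)) : MvPolynomial (Sh.TW S0 S) ℝ) :=
    hΨ.top x.1.1 (Finsupp.single x'.1.1 1) (by rw [Finsupp.weight_single, one_smul, l])
  rw [sum_eq_single (Finsupp.single x'.1.1 1) (fun a ha ne => key a ha (.inl ne)) fun k => by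
    rw [notMem_support_iff.1 k]; simp [tq, tm]]
  have c := cu_Yt (R := MvPolynomial (T.Tc S0) (MvPolynomial S.W ℝ)) h X
    (fun p => MvPolynomial.C (MvPolynomial.C (b p : ℝ))) ⟨(x'.1.1, x.1.2), x.2.trans_le e⟩
  have d : ∀ c : ℝ, T.fJ S0 S (MvPolynomial.C c) =
      MvPolynomial.C (MvPolynomial.C (MvPolynomial.C c)) := fun c => by
    simp [fJ, MvPolynomial.algebraMap_apply]
  refine (congrArg (fun c => coeff (Finsupp.single x' 1) (T.tm S0 (T.fJ S0 S)
    (monomial (Finsupp.single x'.1.1 1) c) _ _ _)) t).trans ?_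
  rw [tm, eval₂_monomial, Finsupp.prod_single_index (by simp), pow_one, d, Sh.cu_C_mul, c,
    coeff_C_mul, coeff_X, A, of_apply, if_pos l, map_mul]
  congr 1
  by_cases o : x.1.2 = x'.1.2
  · rw [if_pos o, map_one]
    refine if_pos (congrArg (Finsupp.single · 1) (Subtype.ext ?_))
    exact Prod.ext rfl o
  · rw [if_neg o, if_neg fun z => o (congrArg (·.1.2)
      (Finsupp.single_left_injective one_ne_zero z)), map_zero]

/-! ### admissible twists -/

theorem Adm.tb (hΨ : T.Adm (S0.ten S v) st Ψ) : T.Adm S0 st (T.tb S0 S v Ψ) where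
  gr F m := by
    have e : coeff m (T.tb S0 S v Ψ F) = Sh.B0 S0 S (coeff m (Ψ F)) := coeff_map _ _ _
    rw [e]
    refine aeval_whom (fun z => ?_) (hΨ.gr_td F m)
    rcases z with ⟨⟨o, _ | w⟩, -⟩
    · exact isWeightedHomogeneous_monomial _ _ _ (Sh.dg_sg o)
    · exact isWeightedHomogeneous_zero _ _ _
  le F m hm := hΨ.le F m (support_map_subset _ _ hm)
  top F m e := (coeff_map _ _ _).trans ((congrArg (Sh.B0 S0 S) (hΨ.top F m e)).trans
    (algHom_C _ _))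

theorem Adm.tin {Ψ0 : T.Twd S0} (h : T.Adm S0 st Ψ0) :
    T.Adm (S0.ten S v) st (T.tin S0 S v Ψ0) where
  gr F m := by
    have e : coeff m (T.tin S0 S v Ψ0 F) = rename (Sh.i0 S) (coeff m (Ψ0 F)) := coeff_map _ _ _
    have := aeval_whom (w' := Sh.td S0 S) (f := X ∘ Sh.i0 S)
      (fun w => isWeightedHomogeneous_X _ _ _) (h.gr F m)
    rw [← rename_eq_aeval] at this
    rw [e, Sh.ten_dg']
    exact this
  le F m hm := h.le F m (support_map_subset _ _ hm)
  top F m e := (coeff_map _ _ _).trans ((congrArg (rename (Sh.i0 S)) (h.top F m e)).trans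
    (algHom_C _ _))

theorem Stg.nl_le (h : T.Stg st M) (x : T.Tc S0) : T.nl S0 x ≤ M :=
  (Nat.sub_le _ _).trans (h.le _).2

theorem ts_eq (x : T.Tc S0) : T.ts S0 st M x = (M + 1) ^ (st x.1.1 * (M + 1) + (M - T.nl S0 x)) :=
  rfl

theorem Stg.ts_lt (h : T.Stg st M) {x x' : T.Tc S0} : T.ts S0 st M x < T.ts S0 st M x' ↔
    st x.1.1 < st x'.1.1 ∨ st x.1.1 = st x'.1.1 ∧ T.nl S0 x' < T.nl S0 x := by
  have a := h.nl_le x
  have c := h.nl_le x'
  have := nl_pos x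
  rw [ts_eq, ts_eq, Nat.pow_lt_pow_iff_right (by omega)]
  rcases lt_trichotomy (st x.1.1) (st x'.1.1) with k | k | k
  · have := Nat.mul_le_mul_right (M + 1) (Nat.succ_le_of_lt k)
    rw [Nat.succ_mul] at this
    exact iff_of_true (by omega) (.inl k)
  · rw [k]; omega
  · have := Nat.mul_le_mul_right (M + 1) (Nat.succ_le_of_lt k)
    rw [Nat.succ_mul] at this
    exact iff_of_false (by omega) (by omega)

theorem Stg.ts_inj (h : T.Stg st M) {x x' : T.Tc S0} : T.ts S0 st M x = T.ts S0 st M x' ↔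
    st x.1.1 = st x'.1.1 ∧ T.nl S0 x = T.nl S0 x' := by
  have a := h.ts_lt (x := x) (x' := x')
  have c := h.ts_lt (x := x') (x' := x)
  omega

theorem Stg.ts_wt (h : T.Stg st M) {x : T.Tc S0} {m : T.Tc S0 →₀ ℕ} {a : T.C →₀ ℕ} {k : ℕ}
    (h1 : Finsupp.weight (T.nl S0) m + k = T.nl S0 x) (h2 : m.mapDomain (·.1.1) ≤ a)
    (h3 : k + Finsupp.weight T.lev a ≤ T.lev x.1.1) (h4 : Finsupp.weight st a ≤ st x.1.1) :
    Finsupp.weight (T.ts S0 st M) m ≤ T.ts S0 st M x := by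
  have s := wt_mono st h2
  rw [weight_map] at s
  by_cases c : ∃ x' ∈ m.support, st x.1.1 ≤ st x'.1.1
  · obtain ⟨x', c1, c2⟩ := c
    obtain rfl := single_of_wt (w := fun q : T.Tc S0 => st q.1.1) (fun q => h.pos _)
      (Finsupp.mem_support_iff.1 c1) (s.trans (h4.trans c2))
    have l := wt_mono T.lev h2
    rw [Finsupp.mapDomain_single] at l
    simp only [Finsupp.weight_single, one_smul] at h1 s l ⊢
    have e : st x'.1.1 = st x.1.1 := by omega
    have := h.lev _ _ e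
    exact (h.ts_inj.2 ⟨e, by omega⟩).le
  · push Not at c
    have p := h.pos x.1.1
    have b : Finsupp.weight (T.ts S0 st M) m ≤
        Finsupp.weight (T.nl S0) m * (M + 1) ^ (st x.1.1 * (M + 1) - 1) := by
      rw [Finsupp.weight_apply, Finsupp.weight_apply, Finsupp.sum, Finsupp.sum, sum_mul]
      refine sum_le_sum fun q hq => ?_
      rw [smul_eq_mul, smul_eq_mul, mul_assoc]
      refine Nat.mul_le_mul_left _ (le_trans (Nat.pow_le_pow_right (by omega) ?_)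
        (Nat.le_mul_of_pos_left _ (nl_pos q)))
      have := Nat.mul_le_mul_right (M + 1) (Nat.succ_le_of_lt (c q hq))
      rw [Nat.succ_mul] at this
      change _ + (M - T.nl S0 q) ≤ _
      omega
    have := h.nl_le x
    have e : 1 ≤ st x.1.1 * (M + 1) := Nat.mul_pos p (by omega)
    refine b.trans ((Nat.mul_le_mul_right _ (by omega : _ ≤ M + 1)).trans ?_)
    rw [← pow_succ', ts_eq]
    exact Nat.pow_le_pow_right (by omega) (by omega)

theorem Adm.tq_le (hΨ : T.Adm (S0.ten S v) st Ψ) (hs : T.Stg st M) (h : S0.Ok) (x : T.Tc S0)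
    {m : T.Tc S0 →₀ ℕ} (hm : m ∈ (T.tq S0 S (Ψ x.1.1) b x.1.2).support) :
    Finsupp.weight (T.nl S0) m ≤ T.nl S0 x ∧
      Finsupp.weight (T.ts S0 st M) m ≤ T.ts S0 st M x := by
  obtain ⟨ν, z⟩ := ne_zero_iff.1 (mem_support_iff.1 hm)
  obtain ⟨a1, a, ha, a2, a3⟩ := tq_mon h hΨ x z
  exact ⟨by omega, hs.ts_wt a1 a2 a3 (hΨ.le _ _ ha).2⟩

theorem Adm.tt (hΨ : T.Adm (S0.ten S v) st Ψ) (hs : T.Stg st M) (h : S0.Ok) (h1 : S.Ok) :
    (T.tan S0 (T.tb S0 S v Ψ) v b).Adm S (T.ts S0 st M) (T.tt S0 S v Ψ b) where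
  gr (x : T.Tc S0) (m : T.Tc S0 →₀ ℕ) ν z := by
    have := (tq_mon h hΨ x z).1
    rw [tan_lev]
    change _ = T.nl S0 x - Finsupp.weight (T.nl S0) m
    omega
  le (x : T.Tc S0) (m : T.Tc S0 →₀ ℕ) hm := by
    rw [tan_lev]; exact hΨ.tq_le hs h x hm
  top (x : T.Tc S0) (m : T.Tc S0 →₀ ℕ) e := by
    classical
    rw [tan_lev] at e
    refine Eq.trans ?_ (congrArg MvPolynomial.C ((congrArg (coeff m) (tan_cc Ψ b x)).trans
      (coeff_map _ _ _))).symm
    change coeff m (T.tq S0 S (Ψ x.1.1) b x.1.2) = _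
    ext ν
    rw [coeff_C]
    split_ifs with k
    · rw [← k]; rfl
    · by_contra z
      have a := (tq_mon h hΨ x z).1
      change Finsupp.weight (T.nl S0) m = T.nl S0 x at e
      refine k (Finsupp.ext fun w => ?_)
      have := Finsupp.le_weight S.dg (s := w) (h1.dg_pos w).ne' ν
      rw [Finsupp.coe_zero, Pi.zero_apply]
      omega

/-! ### the coordinates of the product -/

variable {Ψ0 : T.Twd S0}

theorem tE_bij (h : S.Ok) : Function.Bijective (T.tE S0 S v Ψ0 b h) := by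
  constructor
  · rintro (p | p) (q | q) e <;> have a := congrArg (fun z => z.1.1) e <;>
      have c := congrArg (fun z : T.Cw (S0.ten S v) => (z.1.2 : Sh.TW S0 S).1.1) e <;>
      have d := congrArg (fun z : T.Cw (S0.ten S v) => (z.1.2 : Sh.TW S0 S).1.2) e
    · exact congrArg _ (Subtype.ext (Prod.ext a (Option.some.inj c)))
    · cases d
    · cases d
    · exact congrArg _ (Subtype.ext (Prod.ext (Subtype.ext (Prod.ext a c)) (Option.some.inj d)))
  · rintro ⟨⟨F, ⟨o, o'⟩, ne⟩, e⟩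
    have k : T.lev F = S0.od o + S.od o' :=
      (lev_cw (S := S0.ten S v) ⟨(F, ⟨(o, o'), ne⟩), e⟩).trans (Sh.ten_dg _)
    rcases o' with _ | w
    · rcases o with _ | w
      · exact absurd rfl ne
      · exact ⟨.inl ⟨(F, w), unit_ext ((Sh.cd_degree w).trans k.symm)⟩, rfl⟩
    · have := h.dg_pos w
      change _ = _ + S.dg w at k
      refine ⟨.inr ⟨(⟨(F, o), by change S0.od o < T.lev F; omega⟩, w), unit_ext
        ((Sh.cd_degree w).trans (Eq.trans ?_ (Finsupp.degree_single _ _).symm))⟩, rfl⟩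
      change _ = T.lev F - S0.od o
      omega

variable (Ψ0 b) in
theorem sum_tE {N : Type} [AddCommMonoid N] (h : S.Ok) (F : T.C) (g : T.Cw (S0.ten S v) → N) :
    ∑ z with z.1.1 = F, g z = ∑ x : T.Tc S0 with x.1.1 = F,
      (∑ q : (T.tan S0 Ψ0 v b).Cw S with q.1.1 = x, g (T.tE S0 S v Ψ0 b h (.inr q))) +
        ∑ p : T.Cw S0 with p.1.1 = F, g (T.tE S0 S v Ψ0 b h (.inl p)) := by
  rw [sum_filter, ← (tE_bij (Ψ0 := Ψ0) (b := b) h).sum_comp, Fintype.sum_sum_type, add_comm]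
  refine congrArg₂ _ ?_ (sum_filter _ _).symm
  refine (sum_filter _ _).symm.trans ((sum_fiberwise_of_maps_to (t := univ.filter
    fun x : T.Tc S0 => x.1.1 = F) (g := fun q : (T.tan S0 Ψ0 v b).Cw S => q.1.1) (fun q hq =>
      mem_filter.2 ⟨mem_univ _, (mem_filter.1 hq).2⟩) _).symm.trans (sum_congr rfl fun x hx =>
    sum_congr (Finset.ext fun q => ?_) fun _ _ => rfl))
  exact ⟨fun k => mem_flt.2 ⟨mem_univ _, (mem_flt.1 k).2⟩, fun k => mem_flt.2
    ⟨mem_flt.2 ⟨mem_univ _, (congrArg (fun x : T.Tc S0 => x.1.1) (mem_flt.1 k).2).trans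
      (mem_flt.1 hx).2⟩, (mem_flt.1 k).2⟩⟩

variable (Ψ0 b) in
theorem J_Yw (h : S.Ok) (y : T.Cw (S0.ten S v) → R) (F : T.C) :
    Sh.J R S0 S (T.Yw (S0.ten S v) y F) = T.Yt S0
      ((T.tan S0 Ψ0 v b).Yw S fun q => y (T.tE S0 S v Ψ0 b h (.inr q)))
      (fun p => MvPolynomial.C (y (T.tE S0 S v Ψ0 b h (.inl p)))) F := by
  have e : ∀ (z : Sh.TW S0 S) (a : R), Sh.J R S0 S (MvPolynomial.C a * X z) =
      monomial (S0.sg z.1.1) (monomial (S.sg z.1.2) a) := fun z a => by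
    rw [X, C_mul_monomial, mul_one, Sh.J_monomial]
    simp [Sh.w0, Sh.w1, Finsupp.weight_single]
  refine (map_sum (Sh.J R S0 S) _ _).trans ((sum_congr rfl fun z _ => e z.1.2 (y z)).trans
    ((sum_tE b Ψ0 h F _).trans (congrArg₂ _ (sum_congr rfl fun x _ => ?_)
      (sum_congr rfl fun p _ => ?_))))
  · refine Eq.trans (sum_congr rfl fun q hq => ?_) (map_sum (monomial (S0.sg x.1.2)) _ _).symm
    rw [← (mem_flt.1 hq).2, X, C_mul_monomial, mul_one]; rfl
  · rw [X, C_mul_monomial, mul_one]; rfl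

variable (Ψ Ψ0) in
theorem u_tE (h : S.Ok) {y : T.Cw (S0.ten S v) → ℝ}
    (hy : ∀ p, y (T.tE S0 S v Ψ0 b h (.inl p)) = b p) (z : T.Cw (S0.ten S v)) :
    (T.tw (S0.ten S v) Ψ).u y z = S.cu ℝ (z.1.2 : Sh.TW S0 S).1.2 (T.tm S0 (Sh.J ℝ S0 S).toRingHom
      (Ψ z.1.1) ((T.tan S0 Ψ0 v b).Yw S fun q => y (T.tE S0 S v Ψ0 b h (.inr q)))
      (fun p => MvPolynomial.C (b p : ℝ)) (z.1.2 : Sh.TW S0 S).1.1) := by
  refine (tw_u (S := S0.ten S v) y z).trans ((Sh.ten_cf _ _).trans (congrArg (fun P =>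
    S.cu ℝ _ (S0.cu _ _ P)) ((eval₂_comp_left (Sh.J ℝ S0 S).toRingHom _ _ _).trans ?_)))
  refine congrArg₂ (fun f Y => eval₂ f Y (Ψ z.1.1)) (RingHom.comp_id _) (funext fun F => ?_)
  refine (J_Yw b Ψ0 h y F).trans ?_
  simp only [hy]

variable (Ψ Ψ0) in
theorem u_inl (h : S.Ok) {y : T.Cw (S0.ten S v) → ℝ}
    (hy : ∀ p, y (T.tE S0 S v Ψ0 b h (.inl p)) = b p) (p : T.Cw S0) :
    (T.tw (S0.ten S v) Ψ).u y (T.tE S0 S v Ψ0 b h (.inl p)) =
      (T.tw S0 (T.tb S0 S v Ψ)).u (zc b) p := by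
  refine (u_tE Ψ Ψ0 h hy _).trans ((Sh.cu_none _).trans ((tm_map _ _ _ _ _ _).trans
    (Eq.trans ?_ (tw_u (zc b) p).symm)))
  refine congrArg (S0.cf ℝ p.1.2) (Eq.trans ?_ (eval_map _ _ _).symm)
  refine congrArg₂ (fun f Y => eval₂ f Y (Ψ p.1.1)) (RingHom.ext Sh.cc_J) (funext fun F => ?_)
  simp [Yt, Yw, zc]

variable (Ψ Ψ0) in
theorem u_inr (h : S.Ok) {y : T.Cw (S0.ten S v) → ℝ}
    (hy : ∀ p, y (T.tE S0 S v Ψ0 b h (.inl p)) = b p) (q : (T.tan S0 Ψ0 v b).Cw S) :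
    (T.tw (S0.ten S v) Ψ).u y (T.tE S0 S v Ψ0 b h (.inr q)) =
      ((T.tan S0 Ψ0 v b).tw S fun x : T.Tc S0 => T.tq S0 S (Ψ x.1.1) b x.1.2).u
        (fun q' => y (T.tE S0 S v Ψ0 b h (.inr q'))) q := by
  refine (u_tE Ψ Ψ0 h hy _).trans (Eq.trans ?_ (tw_u (T := T.tan S0 Ψ0 v b) _ q).symm)
  refine congrArg (S.cf ℝ q.1.2) (Eq.trans ?_ (tm_map (eval ((T.tan S0 Ψ0 v b).Yw S
    fun q => y (T.tE S0 S v Ψ0 b h (.inr q))) : MvPolynomial (T.Tc S0) _ →+* _) _ _ _ _ _).symm)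
  refine congrArg₂ (fun f b => T.tm S0 f _ _ b _) (RingHom.ext fun Q => ?_)
    (funext fun p => (eval_C _).symm) |>.trans (congrArg (fun y => T.tm S0 _ _ y _ _)
      (funext fun x => (eval_X _).symm))
  rw [RingHom.comp_apply, fJ_eq, MvPolynomial.map_map]
  refine Eq.trans (MvPolynomial.map_id _).symm (congrArg (MvPolynomial.map · _) ?_)
  exact RingHom.ext fun c => (eval_C _).symm

variable (Ψ0 b) in
theorem K_tE (h : S.Ok) (B : Matrix T.C T.C ℝ) (s s') :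
    T.kw (S0.ten S v) B (S0.ten S v).K (T.tE S0 S v Ψ0 b h s) (T.tE S0 S v Ψ0 b h s') =
      fromBlocks (T.kw S0 B S0.K) 0 0 ((T.tan S0 Ψ0 v b).kw S
        (Matrix.of fun x x' : T.Tc S0 => B x.1.1 x'.1.1 * v x.1.2 x'.1.2) S.K) s s' := by
  rcases s with p | p <;> rcases s' with q | q
  · rfl
  · exact mul_zero _
  · exact mul_zero _
  · exact (mul_assoc _ _ _).symm

/-- homogeneous towers: the twist of `sh` is constant -/
theorem tw0_hom {σ : Type} [DecidableEq σ] {T : TS σ} {S : Sh σ τ} {F : T.C}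
    (h : ∀ m ∈ (T.Φ F).support, Finsupp.weight T.lev m = T.lev F) :
    T.tw0 S F = MvPolynomial.map MvPolynomial.C (T.Φ F) := by
  ext1 m
  rw [coeff_tw0, coeff_map]
  by_cases z : m ∈ (T.Φ F).support
  · rw [h m z, Nat.sub_self, pow_zero, smul_eq_C_mul, mul_one]
  · rw [notMem_support_iff.1 z, zero_smul, map_zero]

theorem tan_hom (h : S0.Ok) (hΨ : T.Adm S0 st Ψ0) (x : T.Tc S0) {m : T.Tc S0 →₀ ℕ}
    (z : coeff m ((T.tan S0 Ψ0 v b).Φ x) ≠ 0) : Finsupp.weight (T.nl S0) m = T.nl S0 x := by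
  have := (tq_mon (S := S0) (v := v) (b := b) (ν := 0) (m := m) h hΨ.tin x fun e => z
    ((coeff_zero_C _).symm.trans ((congrArg (coeff 0) ((coeff_map _ _ _).symm.trans
      (congrArg (coeff m) (tq_tin (v := v) Ψ0 b x).symm))).trans e))).1
  rwa [map_zero, add_zero] at this

theorem tan_tw0 (h : S0.Ok) (hΨ : T.Adm S0 st Ψ0) : (T.tan S0 Ψ0 v b).tw0 S =
    fun x : T.Tc S0 => T.tq S0 S (T.tin S0 S v Ψ0 x.1.1) b x.1.2 := funext fun x =>
  (tw0_hom fun m hm => by rw [tan_lev]; exact tan_hom h hΨ x (mem_support_iff.1 hm)).trans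
    (tq_tin Ψ0 b x).symm

theorem u_inr0 (h : S.Ok) (h0 : S0.Ok) (hΨ : T.Adm S0 st Ψ0) {y : T.Cw (S0.ten S v) → ℝ}
    (hy : ∀ p, y (T.tE S0 S v Ψ0 b h (.inl p)) = b p) (q : (T.tan S0 Ψ0 v b).Cw S) :
    (T.tw (S0.ten S v) (T.tin S0 S v Ψ0)).u y (T.tE S0 S v Ψ0 b h (.inr q)) =
      ((T.tan S0 Ψ0 v b).sh S).u (fun q' => y (T.tE S0 S v Ψ0 b h (.inr q'))) q := by
  refine (u_inr (T.tin S0 S v Ψ0) Ψ0 h hy q).trans ?_
  rw [← tan_tw0 h0 hΨ]
  exact (tw_u _ q).trans ((congrArg _ ((congrArg (eval₂ · _ _) (RingHom.ext fun P =>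
    (MvPolynomial.map_id P).symm)).trans (eval₂_tw0 _ _))).trans (sh_u _ q).symm)

end TS

theorem tidw : TIdw := fun _ _ _ _ _ _ _ _ Ψ h hs hΨ h0 => ⟨hΨ.tb, fun _ =>
  ⟨hΨ.tt hs h0 h, fun _ hy => ⟨TS.u_inl Ψ _ h hy, TS.u_inr Ψ _ h hy⟩⟩⟩

theorem tid : TId := fun _ _ T S0 S _ Ψ0 v h hΨ h0 => ⟨hΨ.tin, fun b =>
  ⟨TS.tE_bij h, TS.K_tE b Ψ0 h T.K, fun _ hy => ⟨fun p => (TS.u_inl (T.tin S0 S v Ψ0) Ψ0 h hy p).trans
    (congrArg (fun Ψ => (T.tw S0 Ψ).u (zc b) p) (TS.tb_tin Ψ0)), TS.u_inr0 h h0 hΨ hy⟩⟩⟩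

end Crest.Agent.N49.Tw

end
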