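import Crest.Agent.N49.Tn.Stg
import Crest.Agent.N49.Tn.Sz
import Crest.Agent.N49.Tw.Ap2

/-!
# Row 49 (helper49): tangent towers: weights, Fubini, centres, locality, points, containers
-/

set_option autoImplicit false
set_option linter.unusedSectionVars false

open Matrix MvPolynomial Finset

noncomputable section

namespace Crest.Agent.N49.Tw

open Po

section smg
variable {C0 C2 C1 R : Type} (e : C0 ⊕ C2 ≃ C1)

/-- merge two configurations along a splitting of the coordinates -/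
def smg (b : C0 → R) (y : C2 → R) : C1 → R := fun c => Sum.elim b y (e.symm c)

theorem smg_apply (b : C0 → R) (y : C2 → R) (s : C0 ⊕ C2) : smg e b y (e s) = Sum.elim b y s := by
  rw [smg, e.symm_apply_apply]

theorem smg_inl (b : C0 → R) (y : C2 → R) (p : C0) : smg e b y (e (.inl p)) = b p := smg_apply ..
theorem smg_inr (b : C0 → R) (y : C2 → R) (q : C2) : smg e b y (e (.inr q)) = y q := smg_apply ..

theorem smg_self (z : C1 → R) : smg e (fun p => z (e (.inl p))) (fun q => z (e (.inr q))) = z :=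
  funext fun c => by
    obtain ⟨s, rfl⟩ := e.surjective c
    rw [smg_apply]; cases s <;> rfl

/-- configurations are pairs -/
def smgE : (C0 → R) × (C2 → R) ≃ (C1 → R) :=
  (Equiv.sumArrowEquivProdArrow _ _ R).symm.trans (Equiv.arrowCongr e (Equiv.refl R))

theorem tsum_smg {E : Type} [NormedAddCommGroup E] [CompleteSpace E] {f : (C1 → R) → E}
    (h : Summable f) : ∑' z, f z = ∑' b, ∑' y, f (smg e b y) :=
  ((smgE e).tsum_eq f).symm.trans ((smgE e).summable_iff.2 h).tsum_prod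

theorem summable_smg {E : Type} [NormedAddCommGroup E] [CompleteSpace E] {f : (C1 → R) → E}
    (h : Summable f) : Summable fun b => ∑' y, f (smg e b y) := ((smgE e).summable_iff.2 h).prod

variable [Fintype C0] [DecidableEq C0] [Fintype C1] [DecidableEq C1] [Fintype C2] [DecidableEq C2]
  {e} {M : Matrix C1 C1 ℝ} {M0 : Matrix C0 C0 ℝ} {M2 : Matrix C2 C2 ℝ}

theorem inv_blocks (h : ∀ s s', M (e s) (e s') = fromBlocks M0 0 0 M2 s s') (h0 : M0.det ≠ 0)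
    (h2 : M2.det ≠ 0) (s s') : M⁻¹ (e s) (e s') = fromBlocks M0⁻¹ 0 0 M2⁻¹ s s' := by
  have a : M.submatrix e e = fromBlocks M0 0 0 M2 := Matrix.ext h
  have := inv_submatrix_equiv M e e
  rw [a, inv_fromBlocks_zero₂₁_of_isUnit_iff _ _ _ (iff_of_true ((isUnit_iff_isUnit_det _).2
    h0.isUnit) ((isUnit_iff_isUnit_det _).2 h2.isUnit)), Matrix.mul_zero, Matrix.zero_mul,
    neg_zero] at this
  exact (congrFun (congrFun this s) s').symm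

theorem mulVec_blocks (h : ∀ s s', M (e s) (e s') = fromBlocks M0 0 0 M2 s s') (u : C1 → ℝ) (s) :
    (M *ᵥ u) (e s) = Sum.elim (M0 *ᵥ fun p => u (e (.inl p))) (M2 *ᵥ fun q => u (e (.inr q))) s := by
  rw [mulVec, dotProduct, ← e.sum_comp, Fintype.sum_sum_type]
  cases s <;> simp [h, mulVec, dotProduct]

theorem qf_blocks (h : ∀ s s', M (e s) (e s') = fromBlocks M0 0 0 M2 s s') (u : C1 → ℝ) :
    qf M u = qf M0 (fun p => u (e (.inl p))) + qf M2 fun q => u (e (.inr q)) := by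
  rw [qf, dotProduct, ← e.sum_comp, Fintype.sum_sum_type]
  simp only [mulVec_blocks h]; rfl

theorem dt_blocks (h : ∀ s s', M (e s) (e s') = fromBlocks M0 0 0 M2 s s') (h0 : 0 ≤ M0.det) :
    dt M⁻¹ = dt M0⁻¹ * dt M2⁻¹ := by
  have a : M.submatrix e e = fromBlocks M0 0 0 M2 := Matrix.ext h
  rw [dt_inv, dt_inv, dt_inv, dt, dt, dt, ← det_submatrix_equiv_self e, a, det_fromBlocks_zero₂₁,
    Real.sqrt_mul h0, inv_inv, inv_inv, inv_inv]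

end smg

namespace TS

section fb
variable {σ0 σ1 σ2 : Type}

/-- given the coordinates of `T0` equal to `b`, the structure `T1` is the structure `T2` -/
structure Fb (T1 : TS σ1) (T0 : TS σ0) (T2 : TS σ2) (e : T0.C ⊕ T2.C ≃ T1.C) (b : T0.C → ℤ) :
    Prop where
  K : ∀ s s', T1.K (e s) (e s') = fromBlocks T0.K 0 0 T2.K s s'
  u0 : ∀ y : T1.C → ℝ, (∀ p, y (e (.inl p)) = b p) → ∀ p, T1.u y (e (.inl p)) = T0.u (zc b) p
  u2 : ∀ y : T1.C → ℝ, (∀ p, y (e (.inl p)) = b p) → ∀ q,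
    T1.u y (e (.inr q)) = T2.u (fun q' => y (e (.inr q'))) q

variable {T1 : TS σ1} {T0 : TS σ0} {T2 : TS σ2} {e : T0.C ⊕ T2.C ≃ T1.C} {b : T0.C → ℤ}

theorem Fb.wt (h : T1.Fb T0 T2 e b) (h0 : T0.K.PosDef) (h2 : T2.K.PosDef) (y : T2.C → ℤ) :
    T1.wt (smg e b y) = T0.wt b * T2.wt y := by
  have k : ∀ p, zc (smg e b y) (e (.inl p)) = b p := fun p => congrArg _ (smg_inl e b y p)
  refine gs_blocks e h0 h2 (Matrix.ext h.K) fun s => ?_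
  rcases s with p | q
  · exact h.u0 _ k p
  · exact (h.u2 _ k q).trans (congrArg (T2.u · q) (funext fun q => congrArg _ (smg_inr e b y q)))

theorem Fb.th (h : T1.Fb T0 T2 e b) (hA : ∀ s s', T1.A (e s) (e s') = fromBlocks T0.A 0 0 T2.A s s')
    (h0 : T0.A.det ≠ 0) (h2 : T2.A.det ≠ 0) {y : T1.C → ℝ} (hy : ∀ p, y (e (.inl p)) = b p)
    (q : T2.C) : T1.th y (e (.inr q)) = T2.th (fun q' => y (e (.inr q'))) q :=
  congrArg (y (e (.inr q)) - ·) ((mulVec_blocks (inv_blocks hA h0 h2) _ _).trans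
    (congrArg (fun u => (T2.A⁻¹ *ᵥ u) q) (funext (h.u2 y hy))))

theorem Fb.ph (h : T1.Fb T0 T2 e b) (hA : ∀ s s', T1.A (e s) (e s') = fromBlocks T0.A 0 0 T2.A s s')
    (h0 : T0.A.det ≠ 0) (h2 : T2.A.det ≠ 0) (k y : T2.C → ℤ) :
    T1.ph (smg e 0 k) (smg e b y) = T2.ph k y := by
  refine congrArg ee ?_
  rw [dotProduct, ← e.sum_comp, Fintype.sum_sum_type, sum_eq_zero fun p _ => by
    simp [zc, smg_inl], zero_add]
  refine sum_congr rfl fun q _ => ?_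
  rw [h.th hA h0 h2 fun p => congrArg _ (smg_inl e b y p)]
  simp only [zc, smg_inr]; rfl

variable (e) in
/-- the splitting restricted to subsets of the coordinates -/
def subE (p1 : T1.C → Prop) (p0 : T0.C → Prop) (p2 : T2.C → Prop)
    (k : ∀ s, Sum.elim p0 p2 s ↔ p1 (e s)) : {c // p0 c} ⊕ {c // p2 c} ≃ {c // p1 c} :=
  (Equiv.subtypeSum (p := Sum.elim p0 p2)).symm.trans (e.subtypeEquiv k)

theorem Fb.cut {p1 : T1.C → Prop} {p0 : T0.C → Prop} {p2 : T2.C → Prop} [DecidablePred p1]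
    [DecidablePred p0] [DecidablePred p2] (k : ∀ s, Sum.elim p0 p2 s ↔ p1 (e s))
    {b' : {c // p0 c} → ℤ} {z0 : T0.C → ℤ} (h : T1.Fb T0 T2 e (glue p0 b' z0)) (z2 : T2.C → ℤ) :
    (T1.cut p1 (smg e z0 z2)).Fb (T0.cut p0 z0) (T2.cut p2 z2) (subE e p1 p0 p2 k) b' := by
  have a : ∀ y : {c // p1 c} → ℝ, (∀ p, y (subE e p1 p0 p2 k (.inl p)) = b' p) → ∀ p,
      glue p1 y (zc (smg e z0 z2)) (e (.inl p)) = glue p0 b' z0 p := fun y hy p => by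
    by_cases m : p0 p
    · rw [glue_pos _ _ ((k (.inl p)).1 m), glue_pos _ _ m]; exact hy ⟨p, m⟩
    · rw [glue_neg _ _ fun x => m ((k (.inl p)).2 x), glue_neg _ _ m, zc, smg_inl]
  refine ⟨?_, fun y hy p => ?_, fun y hy q => ?_⟩
  · rintro (p | p) (q | q)
    exacts [h.K (.inl p.1) (.inl q.1), h.K (.inl p.1) (.inr q.1), h.K (.inr p.1) (.inl q.1),
      h.K (.inr p.1) (.inr q.1)]
  · exact (T1.u_cut _ _ _ _).trans ((h.u0 _ (a y hy) p.1).trans ((congrArg (T0.u · p.1)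
      (zc_glue b' z0)).trans (T0.u_cut _ _ _ p).symm))
  · refine (T1.u_cut _ _ _ _).trans ((h.u2 _ (a y hy) q.1).trans (Eq.trans (congrArg (T2.u · q.1)
      (funext fun c => ?_)) (T2.u_cut _ _ _ q).symm))
    by_cases m : p2 c
    · exact (glue_pos _ _ ((k (.inr c)).1 m)).trans (glue_pos (fun q' => y (subE e p1 p0 p2 k
        (.inr q'))) _ m).symm
    · exact (glue_neg _ _ fun x => m ((k (.inr c)).2 x)).trans ((congrArg _
        (smg_inr e z0 z2 c)).trans (glue_neg _ (zc z2) m).symm)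

theorem glue_smg {p1 : T1.C → Prop} {p0 : T0.C → Prop} {p2 : T2.C → Prop} [DecidablePred p1]
    [DecidablePred p0] [DecidablePred p2] (k : ∀ s, Sum.elim p0 p2 s ↔ p1 (e s))
    (b' : {c // p0 c} → ℤ) (y : {c // p2 c} → ℤ) (z0 : T0.C → ℤ) (z2 : T2.C → ℤ) :
    glue p1 (smg (subE e p1 p0 p2 k) b' y) (smg e z0 z2) =
      smg e (glue p0 b' z0) (glue p2 y z2) := funext fun c => by
  obtain ⟨p | q, rfl⟩ := e.surjective c
  · rw [smg_inl]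
    by_cases m : p0 p
    · rw [glue_pos _ _ ((k (.inl p)).1 m), glue_pos _ _ m]; exact smg_inl _ b' y ⟨p, m⟩
    · rw [glue_neg _ _ fun x => m ((k (.inl p)).2 x), glue_neg _ _ m, smg_inl]
  · rw [smg_inr]
    by_cases m : p2 q
    · rw [glue_pos _ _ ((k (.inr q)).1 m), glue_pos _ _ m]; exact smg_inr _ b' y ⟨q, m⟩
    · rw [glue_neg _ _ fun x => m ((k (.inr q)).2 x), glue_neg _ _ m, smg_inr]

variable {C2 : Type} {e' : T0.C ⊕ C2 ≃ T1.C} {w : (T0.C → ℤ) → (C2 → ℤ) → ℝ}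

/-- Fubini over the background -/
theorem fb_Sc (h : ∀ b y, T1.wt (smg e' b y) = T0.wt b * w b y) (h1 : T1.Tri)
    {g : (T1.C → ℤ) → ℂ} (hg : Bb g) :
    T1.Sc g = T0.Sc fun b => ∑' y, (w b y : ℂ) * g (smg e' b y) :=
  (tsum_smg e' (h1.smc hg)).trans (tsum_congr fun b => Eq.trans (tsum_congr fun y =>
    (congrArg (fun z : ℝ => (z : ℂ) * g (smg e' b y)) (h b y)).trans
      (by push_cast; exact mul_assoc ..)) tsum_mul_left)

theorem fb_S (h : ∀ b y, T1.wt (smg e' b y) = T0.wt b * w b y) (h1 : T1.Tri)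
    {g : (T1.C → ℤ) → ℝ} (hg : Bb g) : T1.S g = T0.S fun b => ∑' y, w b y * g (smg e' b y) :=
  (tsum_smg e' (h1.sm hg)).trans (tsum_congr fun b => Eq.trans (tsum_congr fun y =>
    (congrArg (· * g (smg e' b y)) (h b y)).trans (mul_assoc ..)) tsum_mul_left)

theorem fb_sm (h : ∀ b y, T1.wt (smg e' b y) = T0.wt b * w b y) (h1 : T1.Tri)
    {g : (T1.C → ℤ) → ℝ} (hg : Bb g) :
    Summable fun b => T0.wt b * ∑' y, w b y * g (smg e' b y) :=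
  (summable_smg e' (h1.sm hg)).congr fun b => Eq.trans (tsum_congr fun y =>
    (congrArg (· * g (smg e' b y)) (h b y)).trans (mul_assoc ..)) tsum_mul_left

end fb

variable {τ0 τ : Type} {T : TS Unit} {S0 : Sh Unit τ0} {S : Sh Unit τ}
  {v : Matrix (Option S0.W) (Option S0.W) ℝ} {st : T.C → ℕ} {M : ℕ} {Ψ0 : T.Twd S0}
  {Ψ : T.C → MvPolynomial T.C (MvPolynomial (Sh.TW S0 S) ℝ)} {b : T.Cw S0 → ℤ} {a : ℝ}

variable (T S0 S) in
/-- the coordinates of the tangent tower on `S` (`= (T.tan S0 Ψ0 v b).Cw S`) -/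
abbrev Tq : Type := {q : T.Tc S0 × S.W // S.cd q.2 = Finsupp.single () (T.nl S0 q.1)}

variable (T v) in
/-- `tE` as an equivalence -/
def tQ (h : S.Ok) : T.Cw S0 ⊕ T.Tq S0 S ≃ T.Cw (S0.ten S v) :=
  Equiv.ofBijective (Sum.elim (fun p => ⟨(p.1.1, Sh.i0 S p.1.2), (T.tE S0 S v 0 0 h (.inl p)).2⟩)
    fun q => ⟨(q.1.1.1.1, Tz.i1 (q.1.1.1.2, q.1.2)), (T.tE S0 S v 0 0 h (.inr q)).2⟩)
    (tE_bij (Ψ0 := 0) (b := 0) h)

variable (T S0 S) in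
/-- products of kernels on `Tq` (`= (T.tan S0 Ψ0 v b).kw S B K`) -/
def kq (B : Matrix (T.Tc S0) (T.Tc S0) ℝ) (K : Matrix S.W S.W ℝ) :
    Matrix (T.Tq S0 S) (T.Tq S0 S) ℝ := Matrix.of fun q q' => B q.1.1 q'.1.1 * K q.1.2 q'.1.2

theorem tan_kw (B : Matrix (T.Tc S0) (T.Tc S0) ℝ) (K : Matrix S.W S.W ℝ) :
    (T.tan S0 Ψ0 v b).kw S B K = T.kq S0 S B K := rfl

theorem tQ_eq (h : S.Ok) (s) : T.tQ v h s = T.tE S0 S v Ψ0 b h s := by cases s <;> rfl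

theorem tQ_inl (h : S.Ok) (p : T.Cw S0) : (T.tQ v h (.inl p)).1 = (p.1.1, Sh.i0 S p.1.2) := rfl

theorem tQ_inr (h : S.Ok) (q : T.Tq S0 S) :
    (T.tQ v h (.inr q)).1 = (q.1.1.1.1, Tz.i1 (q.1.1.1.2, q.1.2)) := rfl

variable (T S0 S) in
/-- the twist `tt` for any tangent tower at `b` -/
def tu (Ψ : T.C → MvPolynomial T.C (MvPolynomial (Sh.TW S0 S) ℝ)) (b : T.Cw S0 → ℤ)
    (x : T.Tc S0) : MvPolynomial (T.Tc S0) (MvPolynomial S.W ℝ) := T.tq S0 S (Ψ x.1.1) b x.1.2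

theorem tt_tu : T.tt S0 S v Ψ b = T.tu S0 S Ψ b := rfl

theorem tw0_tu (h : S0.Ok) (hΨ : T.Adm S0 st Ψ0) :
    (T.tan S0 Ψ0 v b).tw0 S = T.tu S0 S (T.tin S0 S v Ψ0) b := tan_tw0 h hΨ

variable (Ψ b) in
theorem ten_fb (Ψ0 : T.Twd S0) (h : S.Ok) : (T.tw (S0.ten S v) Ψ).Fb (T.tw S0 (T.tb S0 S v Ψ))
    ((T.tan S0 Ψ0 v b).tw S (T.tu S0 S Ψ b)) (T.tQ v h) b :=
  ⟨K_tE b Ψ0 h T.K, fun _ hy => u_inl Ψ Ψ0 h hy, fun _ hy => u_inr Ψ Ψ0 h hy⟩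

variable (b) in
theorem ten_fb0 (h : S.Ok) (h0 : S0.Ok) (hΨ : T.Adm S0 st Ψ0) :
    (T.tw (S0.ten S v) (T.tin S0 S v Ψ0)).Fb (T.tw S0 Ψ0) ((T.tan S0 Ψ0 v b).sh S) (T.tQ v h) b :=
  ⟨K_tE b Ψ0 h T.K, fun _ hy p => (u_inl (T.tin S0 S v Ψ0) Ψ0 h hy p).trans
    (congrArg (fun Ψ => (T.tw S0 Ψ).u (zc b) p) (tb_tin Ψ0)), fun _ hy => u_inr0 h h0 hΨ hy⟩

theorem Fb.stg {σ0 σ1 σ2 : Type} {T1 : TS σ1} {T0 : TS σ0} {T2 : TS σ2} {e : T0.C ⊕ T2.C ≃ T1.C}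
    {b : T0.C → ℤ} (h : T1.Fb T0 T2 e b) (s1 s0 s2) :
    (T1.stg s1).Fb (T0.stg s0) (T2.stg s2) e b := ⟨h.K, h.u0, h.u2⟩

theorem kw_tQ (h : S.Ok) (B : Matrix T.C T.C ℝ) (s s') :
    T.kw (S0.ten S v) B (S0.ten S v).K (T.tQ v h s) (T.tQ v h s') =
      fromBlocks (T.kw S0 B S0.K) 0 0 (T.kq S0 S (T.kn S0 B v) S.K) s s' :=
  K_tE 0 0 h B s s'

theorem kw1_tQ (h : S.Ok) (B : Matrix T.C T.C ℝ) (s s') :
    T.kw (S0.ten S v) B 1 (T.tQ v h s) (T.tQ v h s') =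
      fromBlocks (T.kw S0 B 1) 0 0 (T.kq S0 S (T.kn S0 B 1) 1) s s' := by
  rcases s with p | p <;> rcases s' with q | q
  · refine congrArg (B _ _ * ·) (if_congr ⟨fun e => Option.some.inj
      (congrArg (fun z : Sh.TW S0 S => z.1.1) e), fun e => congrArg (Sh.i0 S) e⟩ rfl rfl)
  · refine mul_eq_zero_of_right _ (one_apply_ne fun e => ?_)
    cases congrArg (fun z : Sh.TW S0 S => z.1.2) e
  · refine mul_eq_zero_of_right _ (one_apply_ne fun e => ?_)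
    cases congrArg (fun z : Sh.TW S0 S => z.1.2) e
  · change B p.1.1.1.1 q.1.1.1.1 *
      (if Tz.i1 (p.1.1.1.2, p.1.2) = Tz.i1 (q.1.1.1.2, q.1.2) then 1 else 0) = B p.1.1.1.1 q.1.1.1.1
        * (if p.1.1.1.2 = q.1.1.1.2 then 1 else 0) * if p.1.2 = q.1.2 then 1 else 0
    simp only [Tz.i1, Subtype.mk.injEq, Prod.mk.injEq, Option.some.injEq, ite_and, mul_assoc]
    split_ifs <;> simp

section laws
variable (hs : T.Stg st M) (h0 : S0.Ok) (h : S.Ok) (hv : S0.Tk v a)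
  (hΨ : T.Adm (S0.ten S v) st Ψ)
include hs h0 h hv hΨ

theorem tan_lw_A : ((T.tan S0 (T.tb S0 S v Ψ) v b).lw S (T.ts S0 st M) (T.tu S0 S Ψ b)).A =
    T.kq S0 S (T.kn S0 (T.stg st).A 1) 1 :=
  (lw_A (tan_stg hs h0 hΨ.tb hv) (hΨ.tt hs h0 h) h).trans
    (congrArg (fun B => T.kq S0 S B 1) (tan_As hs h0 hΨ.tb))

theorem tan_lw_D : ((T.tan S0 (T.tb S0 S v Ψ) v b).lw S (T.ts S0 st M) (T.tu S0 S Ψ b)).D =
    T.kq S0 S (T.kn S0 (T.stg st).D v) S.K :=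
  (lw_D (tan_stg hs h0 hΨ.tb hv) (hΨ.tt hs h0 h) h).trans
    (congrArg (fun B => T.kq S0 S B S.K) (tan_Ds hs h0 hΨ.tb))

theorem ten_A (s s') : (T.lw (S0.ten S v) st Ψ).A (T.tQ v h s) (T.tQ v h s') =
    fromBlocks (T.lw S0 st (T.tb S0 S v Ψ)).A 0 0
      ((T.tan S0 (T.tb S0 S v Ψ) v b).lw S (T.ts S0 st M) (T.tu S0 S Ψ b)).A s s' :=
  (congrFun (congrFun (lw_A hs hΨ (Tz.ten_ok h0 h hv)) _) _).trans ((kw1_tQ h _ s s').trans
    (congrArg₂ (fun A B => fromBlocks A 0 0 B s s') (lw_A hs hΨ.tb h0)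
      (tan_lw_A hs h0 h hv hΨ)).symm)

theorem ten_D (s s') : (T.lw (S0.ten S v) st Ψ).D (T.tQ v h s) (T.tQ v h s') =
    fromBlocks (T.lw S0 st (T.tb S0 S v Ψ)).D 0 0
      ((T.tan S0 (T.tb S0 S v Ψ) v b).lw S (T.ts S0 st M) (T.tu S0 S Ψ b)).D s s' :=
  (congrFun (congrFun (lw_D hs hΨ (Tz.ten_ok h0 h hv)) _) _).trans ((kw_tQ h _ s s').trans
    (congrArg₂ (fun A B => fromBlocks A 0 0 B s s') (lw_D hs hΨ.tb h0)
      (tan_lw_D hs h0 h hv hΨ)).symm)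

theorem ten_Zc : (T.lw (S0.ten S v) st Ψ).Zc = (T.lw S0 st (T.tb S0 S v Ψ)).Zc *
    ((T.tan S0 (T.tb S0 S v Ψ) v b).lw S (T.ts S0 st M) (T.tu S0 S Ψ b)).Zc :=
  dt_blocks (e := T.tQ v h) (ten_D hs h0 h hv hΨ) (lw_tri hs hΨ.tb h0).pd_D.det_pos.le

/-- the phases of tangent frequencies -/
theorem ten_ph (k y : T.Tq S0 S → ℤ) :
    (T.lw (S0.ten S v) st Ψ).ph (smg (T.tQ v h) 0 k) (smg (T.tQ v h) b y) =
      ((T.tan S0 (T.tb S0 S v Ψ) v b).lw S (T.ts S0 st M) (T.tu S0 S Ψ b)).ph k y :=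
  ((ten_fb Ψ b (T.tb S0 S v Ψ) h).stg _ _ _).ph (ten_A hs h0 h hv hΨ) (lw_tri hs hΨ.tb h0).det
    (lw_tri (tan_stg hs h0 hΨ.tb hv) (hΨ.tt hs h0 h) h).det k y

theorem ten_wt (y : T.Tq S0 S → ℤ) : (T.tw (S0.ten S v) Ψ).wt (smg (T.tQ v h) b y) =
    (T.tw S0 (T.tb S0 S v Ψ)).wt b * ((T.tan S0 Ψ0 v b).tw S (T.tu S0 S Ψ b)).wt y :=
  (ten_fb Ψ b Ψ0 h).wt (kw_posDef hs.cl.1.pd h0.pd) (kw_posDef (T := T.tan S0 Ψ0 v b)
    (kn_pd hs.cl.1.pd hv.pd) h.pd) y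

theorem ten_Sc {g : (T.Cw (S0.ten S v) → ℤ) → ℂ} (hg : Bb g) :
    (T.tw (S0.ten S v) Ψ).Sc g = (T.tw S0 (T.tb S0 S v Ψ)).Sc fun b =>
      ((T.tan S0 Ψ0 v b).tw S (T.tu S0 S Ψ b)).Sc fun y => g (smg (T.tQ v h) b y) :=
  fb_Sc (T1 := T.tw (S0.ten S v) Ψ) (T0 := T.tw S0 (T.tb S0 S v Ψ)) (e' := T.tQ v h)
    (w := fun b => ((T.tan S0 Ψ0 v b).tw S (T.tu S0 S Ψ b)).wt) (fun _ => ten_wt hs h0 h hv hΨ)
    (tw_tri hs.cl hΨ (Tz.ten_ok h0 h hv)) hg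

theorem ten_S {g : (T.Cw (S0.ten S v) → ℤ) → ℝ} (hg : Bb g) :
    (T.tw (S0.ten S v) Ψ).S g = (T.tw S0 (T.tb S0 S v Ψ)).S fun b =>
      ((T.tan S0 Ψ0 v b).tw S (T.tu S0 S Ψ b)).S fun y => g (smg (T.tQ v h) b y) :=
  fb_S (T1 := T.tw (S0.ten S v) Ψ) (T0 := T.tw S0 (T.tb S0 S v Ψ)) (e' := T.tQ v h)
    (w := fun b => ((T.tan S0 Ψ0 v b).tw S (T.tu S0 S Ψ b)).wt) (fun _ => ten_wt hs h0 h hv hΨ)
    (tw_tri hs.cl hΨ (Tz.ten_ok h0 h hv)) hg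

theorem ten_sm {g : (T.Cw (S0.ten S v) → ℤ) → ℝ} (hg : Bb g) :
    Summable fun b => (T.tw S0 (T.tb S0 S v Ψ)).wt b *
      ((T.tan S0 Ψ0 v b).tw S (T.tu S0 S Ψ b)).S fun y => g (smg (T.tQ v h) b y) :=
  fb_sm (T1 := T.tw (S0.ten S v) Ψ) (T0 := T.tw S0 (T.tb S0 S v Ψ)) (e' := T.tQ v h)
    (w := fun b => ((T.tan S0 Ψ0 v b).tw S (T.tu S0 S Ψ b)).wt) (fun _ => ten_wt hs h0 h hv hΨ)
    (tw_tri hs.cl hΨ (Tz.ten_ok h0 h hv)) hg

end laws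

/-! ### locality -/

theorem tq_single (h : S0.Ok) (x : T.Tc S0) (c : ℝ) :
    T.tq S0 S (monomial (Finsupp.single x.1.1 1) (MvPolynomial.C c)) b x.1.2 =
      MvPolynomial.C (MvPolynomial.C c) * X x := by
  have d : T.fJ S0 S (MvPolynomial.C c) = MvPolynomial.C (MvPolynomial.C (MvPolynomial.C c)) := by
    simp [fJ, MvPolynomial.algebraMap_apply]
  rw [tq, tm, eval₂_monomial, Finsupp.prod_single_index (by simp), pow_one, d, Sh.cu_C_mul, cu_Yt h]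

/-- the tangent errors read the background of the earlier stages only -/
theorem tu_congr (hs : T.Stg st M) (h : S0.Ok) (hΨ : T.Adm (S0.ten S v) st Ψ) (x : T.Tc S0)
    {b b' : T.Cw S0 → ℤ} (e : ∀ p, st p.1.1 < st x.1.1 → b p = b' p) :
    T.tu S0 S Ψ b x = T.tu S0 S Ψ b' x := by
  rw [tu, tu, tq_sum, tq_sum _ b']
  refine sum_congr rfl fun m hm => ?_
  by_cases c : ∃ F ∈ m.support, st x.1.1 ≤ st F
  · obtain ⟨F, c1, c2⟩ := c
    have k := (hΨ.le _ _ hm).2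
    obtain rfl := single_of_wt hs.pos (Finsupp.mem_support_iff.1 c1) (k.trans c2)
    rw [Finsupp.weight_single, one_smul] at k
    have l := hs.lev _ _ (le_antisymm k c2)
    have t : coeff (Finsupp.single F 1) (Ψ x.1.1) = (MvPolynomial.C (coeff (Finsupp.single
        F 1) (T.Φ x.1.1)) : MvPolynomial (Sh.TW S0 S) ℝ) :=
      hΨ.top x.1.1 _ (by rw [Finsupp.weight_single, one_smul, l])
    rw [t]
    exact (tq_single h ⟨(F, x.1.2), x.2.trans_eq l.symm⟩ _).trans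
      (tq_single h ⟨(F, x.1.2), x.2.trans_eq l.symm⟩ _).symm
  · push Not at c
    rw [tq, tq, tm, tm, eval₂_monomial, eval₂_monomial]
    refine congrArg (fun P => S0.cu _ _ (_ * P)) (Finsupp.prod_congr fun F hF => ?_)
    refine congrArg (fun P => (_ + P) ^ _) (sum_congr rfl fun p hp => ?_)
    simp only [e p ((mem_filter.1 hp).2 ▸ c F hF)]

theorem tan_congr (hs : T.Stg st M) (h : S0.Ok) (hΨ : T.Adm S0 st Ψ0) (x : T.Tc S0)
    {b b' : T.Cw S0 → ℤ} (e : ∀ p, st p.1.1 < st x.1.1 → b p = b' p) :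
    (T.tan S0 Ψ0 v b).Φ x = (T.tan S0 Ψ0 v b').Φ x :=
  map_injective _ (C_injective S0.W ℝ) ((tq_tin (S := S0) (v := v) Ψ0 b x).symm.trans
    ((tu_congr hs h hΨ.tin x e).trans (tq_tin Ψ0 b' x)))

end TS

/-! ### points and containers -/

namespace Sh

variable {τ0 τ : Type} {S0 : Sh Unit τ0} {S : Sh Unit τ} {v : Matrix (Option S0.W) (Option S0.W) ℝ}

/-- the product of two characters -/
def tχ (χ0 : S0.W → ℤ) (χ : S.W → ℤ) (z : TW S0 S) : ℤ := z.1.1.elim 1 χ0 * z.1.2.elim 1 χ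

theorem prod_sg (χ : S.W → ℤ) (o : Option S.W) :
    (S.sg o).prod (fun w n => χ w ^ n) = o.elim 1 χ := by
  cases o <;> simp [sg]

theorem Ok.pt_u (h : S.Ok) {χ : S.W → ℤ} {s : ℕ} (hχ : ∀ m, m ≠ 0 → Finsupp.weight S.dg m ≤ s →
    m.prod (fun w n => χ w ^ n) = ∑ w, S.r w m * χ w) {m : S.W →₀ ℕ}
    (k : Finsupp.weight S.dg m ≤ s) :
    m.prod (fun w n => χ w ^ n) = ∑ o, S.ru o m * o.elim 1 χ := by
  by_cases z : m = 0
  · simp [z, Xt.ru_zero h]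
  · rw [Fintype.sum_option, Xt.ru_none z, zero_mul, zero_add]; exact hχ m z k

theorem prod_tχ (χ0 : S0.W → ℤ) (χ : S.W → ℤ) (m : TW S0 S →₀ ℕ) :
    m.prod (fun z n => tχ χ0 χ z ^ n) = (w0 S0 S m).prod (fun w n => χ0 w ^ n) *
      (w1 S0 S m).prod fun w n => χ w ^ n := by
  have a : ∀ {α : Type} (χ : α → ℤ) (m : α →₀ ℕ),
      m.prod (fun w n => χ w ^ n) = eval χ (monomial m 1) := fun χ m => by
    rw [eval_monomial, one_mul]
  have c := (congrArg (fun P => eval χ0 (MvPolynomial.map (eval χ) P)) (J_monomial m (1 : ℤ)))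
  simp only [J, aeval_monomial, map_one, one_mul, map_finsuppProd, map_pow, map_monomial,
    eval_monomial, prod_sg] at c
  rw [mul_comm, ← c]
  exact Finsupp.prod_congr fun z _ => by rw [tχ, mul_comm]

theorem tχ_mul (h0 : S0.Ok) (h : S.Ok) {χ0 : S0.W → ℤ} {χ : S.W → ℤ} {s : ℕ}
    (k0 : ∀ m, m ≠ 0 → Finsupp.weight S0.dg m ≤ s →
      m.prod (fun w n => χ0 w ^ n) = ∑ w, S0.r w m * χ0 w)
    (k : ∀ m, m ≠ 0 → Finsupp.weight S.dg m ≤ s →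
      m.prod (fun w n => χ w ^ n) = ∑ w, S.r w m * χ w) (m : TW S0 S →₀ ℕ) (z : m ≠ 0)
    (l : Finsupp.weight (S0.ten S v).dg m ≤ s) :
    m.prod (fun z n => tχ χ0 χ z ^ n) = ∑ z : TW S0 S, (S0.ten S v).r z m * tχ χ0 χ z := by
  have l' : Finsupp.weight (td S0 S) m ≤ s := ten_dg' (v := v) ▸ l
  rw [ten_wt] at l'
  rw [prod_tχ, h0.pt_u k0 (by omega), h.pt_u k (by omega), sum_mul_sum, ← Tz.tsum2 fun y =>
    S0.ru y.1 (w0 S0 S m) * y.1.elim 1 χ0 * (S.ru y.2 (w1 S0 S m) * y.2.elim 1 χ)]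
  · exact sum_congr rfl fun z _ => by rw [ten_r, tχ]; ring
  · obtain ⟨x, hx⟩ := Finsupp.support_nonempty_iff.2 z
    by_cases a : w0 S0 S m = 0
    · have : w1 S0 S m ≠ 0 := fun c => x.2 (Prod.ext (Tz.sg_eq (Xt.wt_zero a x hx))
        (Tz.sg_eq (Xt.wt_zero c x hx)))
      simp [Xt.ru_none this]
    · simp [Xt.ru_none a]

theorem tχ_pt (h0 : S0.Ok) (h : S.Ok) {χ0 : S0.W → ℤ} {χ : S.W → ℤ} {s : ℕ} (k0 : S0.Pt s χ0)
    (k : ∀ m, m ≠ 0 → Finsupp.weight S.dg m ≤ s →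
      m.prod (fun w n => χ w ^ n) = ∑ w, S.r w m * χ w) (e : ∑ w, S.ε w * χ w = 0) :
    (S0.ten S v).Pt s (tχ χ0 χ) := ⟨tχ_mul h0 h k0.mul k, by
  refine (Tz.tsum2 (fun y => (y.1.elim (y.2.elim 0 S.ε) fun w => y.2.elim (S0.ε w) fun _ => 0) *
    (y.1.elim 1 χ0 * y.2.elim 1 χ)) (zero_mul _)).trans ?_
  simp [Fintype.sum_option, e, k0.mass]⟩

end Sh

namespace TS

variable {τ0 τ : Type} {T : TS Unit} {S0 : Sh Unit τ0} {S : Sh Unit τ}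
  {v : Matrix (Option S0.W) (Option S0.W) ℝ} {Ψ0 : T.Twd S0} {b : T.Cw S0 → ℤ}

variable (T S0) in
/-- the point of `T` given by a point `χ0` of the background and a point of the tangent tower -/
def up (χ0 : S0.W → ℤ) (b : T.Cw S0 → ℤ) (y : T.Tc S0 → ℤ) (F : T.C) : ℤ :=
  ∑ x : T.Tc S0 with x.1.1 = F, x.1.2.elim 1 χ0 * y x + T.pw S0 χ0 b F

theorem pw_smg (h : S.Ok) (χ0 : S0.W → ℤ) (χ : S.W → ℤ) (y : T.Tq S0 S → ℤ) :
    T.pw (S0.ten S v) (Sh.tχ χ0 χ) (smg (T.tQ v h) b y) =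
      T.up S0 χ0 b ((T.tan S0 Ψ0 v b).pw S χ y) := funext fun F => by
  refine (sum_tE b Ψ0 h F _).trans (congrArg₂ _ (sum_congr rfl fun x _ => ?_)
    (sum_congr rfl fun p _ => ?_))
  · refine Eq.trans (sum_congr rfl fun q hq => ?_) (mul_sum _ _ _).symm
    rw [← (mem_flt.1 hq).2, ← mul_assoc]
    exact congrArg (_ * ·) (smg_inr (T.tQ v h) b y q)
  · exact congrArg₂ _ (mul_one _) (smg_inl (T.tQ v h) b y p)

end TS

/-- the tangent container, centred at the point `χ0` of the background -/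
def Ctr.tan (V : Ctr) {τ0 : Type} (S0 : Sh Unit τ0) (Ψ0 : V.T.Twd S0)
    (v : Matrix (Option S0.W) (Option S0.W) ℝ) (b : V.T.Cw S0 → ℤ) (χ0 : S0.W → ℤ) : Ctr where
  T := V.T.tan S0 Ψ0 v b
  π x := if (x : V.T.Tc S0).1.2 = none then V.π (x : V.T.Tc S0).1.1 else 0
  c := V.x (V.T.pw S0 χ0 b)

section ctr
variable {V : Ctr} {τ0 : Type} {S0 : Sh Unit τ0} {Ψ0 : V.T.Twd S0} {st : V.T.C → ℕ}
  {v : Matrix (Option S0.W) (Option S0.W) ℝ} {b : V.T.Cw S0 → ℤ} {χ0 : S0.W → ℤ} {s : ℕ} {a : ℝ}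

theorem Ctr.Ok.tan (h : V.Ok s) (h0 : S0.Ok) (hΨ : V.T.Adm S0 st Ψ0) (hv : S0.Tk v a) :
    (V.tan S0 Ψ0 v b χ0).Ok s := by
  refine ⟨(TS.tan_ok h0 h.1 hΨ hv).toTri, fun x => ?_, fun (x : V.T.Tc S0) z => ?_⟩
  · exact (congrFun (TS.tan_lev Ψ0 b) x).trans_le ((Nat.sub_le _ _).trans (h.2.1 _))
  · refine (congrFun (TS.tan_lev Ψ0 b) x).trans ?_
    change (if x.1.2 = none then V.π x.1.1 else 0) ≠ 0 at z
    split_ifs at z with e
    · rw [TS.nl, e, h.2.2 _ z]; rfl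
    · exact absurd rfl z

theorem Ctr.Ok.tan_x (h : V.Ok s) (h0 : S0.Ok) (y : V.T.Tc S0 → ℤ) :
    (V.tan S0 Ψ0 v b χ0).x y = V.x (V.T.up S0 χ0 b y) := by
  change V.c + V.π ⬝ᵥ V.T.pw S0 χ0 b + ∑ x : V.T.Tc S0,
    (if x.1.2 = none then V.π x.1.1 else 0) * y x = V.c + ∑ F, V.π F * V.T.up S0 χ0 b y F
  simp only [TS.up, mul_add, sum_add_distrib, mul_sum]
  rw [add_assoc, add_comm (V.π ⬝ᵥ _), ← sum_fiberwise univ (fun x : V.T.Tc S0 => x.1.1)]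
  refine congrArg₂ (fun a c => V.c + (a + c)) (sum_congr rfl fun F _ => sum_congr rfl fun x hx => ?_)
    rfl
  rw [← (mem_filter.1 hx).2]
  rcases x with ⟨⟨F, _ | w⟩, k⟩
  · simp
  · have : V.π F = 0 := by_contra fun z => by
      have := h.2.2 F z
      have := h0.dg_pos w
      change S0.dg w < V.T.lev F at k
      omega
    simp [this]

end ctr


end Crest.Agent.N49.Tw

end
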