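import Crest.Agent.N49.Tn.St2
import Crest.Agent.N49.Rf.Pid

/-! # Row 49 (helper80): the number of short frequencies -/

set_option autoImplicit false

open Matrix Finset

noncomputable section

namespace Crest.Agent.N49.Tw

open Po

theorem short_fin {d : Type} [Fintype d] [DecidableEq d] {M : Matrix d d ℝ} (hM : M.PosDef)
    (L : ℝ) : ∃ K : Finset (d → ℤ), (#K : ℝ) ≤ Real.exp (Real.pi * L) * th M 0 ∧
      ∀ k, qf M (zc k) ≤ L → k ∈ K := by
  have c : ∀ K : Finset (d → ℤ), (K : Set (d → ℤ)) ⊆ {k | qf M (zc k) ≤ L} →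
      (#K : ℝ) ≤ Real.exp (Real.pi * L) * th M 0 := fun K h =>
    card_le hM 0 fun n hn => by rw [sub_zero]; exact h hn
  have f : {k : d → ℤ | qf M (zc k) ≤ L}.Finite := by
    by_contra z
    obtain ⟨n, hn⟩ := exists_nat_gt (Real.exp (Real.pi * L) * th M 0)
    obtain ⟨K, h, e⟩ := Set.Infinite.exists_subset_card_eq z n
    exact hn.not_ge (e ▸ c K h)
  exact ⟨f.toFinset, c _ (by simp), fun k h => by simpa using h⟩

theorem tct : TCt := fun σ T t L b h b0 b1 => by
  classical
  have p : (T.D.submatrix (Subtype.val : {c // T.lev c = t} → T.C) Subtype.val).PosDef :=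
    h.pd_D.submatrix Subtype.val_injective
  obtain ⟨K, hK, k⟩ := short_fin (p.smul b0) L
  refine ⟨K.image fun n c => if e : T.lev c = t then n ⟨c, e⟩ else 0, ?_, fun x hx e => ?_⟩
  · refine (Nat.cast_le.2 card_image_le).trans (hK.trans ?_)
    rw [Real.exp_add, Real.exp_add, Real.exp_log (show 0 < T.ct t from th_pos p 0),
      Real.exp_nat_mul, Real.exp_log (inv_pos.2 b0), mul_comm (T.ct t)]
    refine mul_le_mul_of_nonneg_left ((th_scale p b0 b1 0).trans ?_) (Real.exp_pos _).le
    rw [Fintype.card_subtype]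
    refine mul_le_mul_of_nonneg_right (pow_le_pow_left₀ (by positivity)
      (inv_anti₀ b0 (Real.le_sqrt_of_sq_le (by nlinarith))) _) (th_pos p 0).le
  · refine mem_image.2 ⟨fun c => x c.1, k _ ?_, funext fun c => ?_⟩
    · rw [TS.qf_lev hx, le_div_iff₀ b0] at e
      rw [qf, smul_mulVec, dotProduct_smul, smul_eq_mul, mul_comm]
      exact e
    · split_ifs with z
      exacts [rfl, (of_not_not fun n => z (hx c n)).symm]

end Crest.Agent.N49.Tw

end
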