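import Crest.Agent.N49.Tn.Pk2

/-!
# Row 49 (helper18): one tangent frequency (leaf `TPk`)
-/

set_option autoImplicit false

open Matrix MvPolynomial Finset

noncomputable section

namespace Crest.Agent.N49.Tw

open Po TS Pk2

/-- **one tangent frequency** -/
theorem tpk2 {M c : ℕ} (hC : CHAR M c) : TPk M c := by
  intro τ0 T S0 st Ψ0 v n N t t' l col k a a1 b η R τ0' τ' β κ hs hΨ hS hv a0 _ b0 b1 hN c0 hκ e0 e1
    d0 s1 s2 sy k0 hk hq hβ f0 m
  obtain ⟨x0, hx⟩ := Function.ne_iff.1 k0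
  obtain ⟨u1, u2, u3⟩ := hk x0 hx
  have lM : l ≤ M := u3 ▸ hs.nl_le x0
  obtain ⟨z1, dl, z3⟩ := tsy M l col a1 lM b0
  obtain ⟨z3, -⟩ := z3 (T.tan S0 Ψ0 v 0) (T.kn S0 (T.stg st).D v) k (u3 ▸ nl_pos x0)
    fun x e => (congrFun (tan_lev Ψ0 0) x).trans (hk x e).2.2
  generalize hS1 : Sh.sym col (fun _ => a1) = S1 at z1 dl z3
  have h0 := hS.toOk
  have h := z1.toOk
  have z2 := Sh.dbl_sz (p := fun _ => False) z1 (fun _ _ e => e.elim) z1.gen
  have ab : a * a1 / 2 ≤ a := by nlinarith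
  have y0 : S0.Sz N (a * a1 / 2) := hS.mono (le_trans (by nlinarith [Nat.zero_le (2 ^ M)]) hN) ab
  have y1 := (tsz _ _ S0 S1 v _ _ _ _ _ _ hS z1 hv b0 a0 ab (by nlinarith [mul_pos a0 b0])).mono
    (le_trans (Nat.mul_le_mul_left _ (by omega)) hN) le_rfl
  have y2 := (tsz _ _ S0 (S2 S1) v _ _ _ _ _ _ hS z2 hv (half_pos b0) a0 ab
    (mul_div_assoc ..).le).mono hN le_rfl
  let k0' : T.Tq S0 S1 → ℤ := fun q => if S1.dg q.1.2 = l then k q.1.1 else 0
  have hk0 : ∀ q, k0' q ≠ 0 → st q.1.1.1.1 = t := fun q z =>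
    (hk _ fun e => z (ite_eq_right_iff.2 fun _ => e)).2.1
  let k1 := smg (T.tQ v h) 0 k0'
  have hk1 : ∀ P : T.Cw (S0.ten S1 v) → Prop, (∀ q, P (T.tQ v h (.inr q)) → k0' q = 0) →
      ∀ x, P x → k1 x = 0 := fun P hP x hx => by
    obtain ⟨c | q, rfl⟩ := (T.tQ v h).surjective x
    exacts [smg_inl .., (smg_inr ..).trans (hP q hx)]
  obtain ⟨m2, hb⟩ := bias_k2 cn_ten hs y1.toOk y2.toOk hΨ.tin hΨ.tin (kill_tin ch1 Ψ0)
    (kill_tin ch2 Ψ0) t k1
  have hD := tan_Ds (b := 0) (v := v) hs h0 hΨ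
  have q2 : qf (T.lw _ st (T.tin S0 (S2 S1) v Ψ0)).D (zc (k2 T cn_ten k1)) =
      2 * a1 * qf ((T.tan S0 Ψ0 v 0).stg (T.ts S0 st M)).D (zc k) := by
    refine (congrArg (qf · _) (lw_D hs hΨ.tin y2.toOk)).trans ((qf_k2 cn_ten y2.toOk _
      (hk1 _ fun q e => by cases e)).trans (Eq.trans (congrArg (2 * ·) ?_) (mul_assoc ..).symm))
    refine (qf_blocks (kw_tQ h _) _).trans (Eq.trans ?_ (z3.trans (congrArg (a1 * qf · _) hD.symm)))
    refine (congrArg₂ (· + ·) (sum_eq_zero fun p _ => mul_eq_zero_of_left ?_ _)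
      (congrArg (qf _) (funext fun q => congrArg Int.cast (smg_inr ..)))).trans (zero_add _)
    exact (congrArg Int.cast (smg_inl ..)).trans Int.cast_zero
  have hb' := hβ _ (hC _ _ T _ st _ t N _ b η R τ0' κ (k2 T cn_ten k1) hs hΨ.tin y2 c0 hκ e0 e1 d0
    s1 sy (fun z => by
      have := (tan_stg (b := 0) hs h0 hΨ hv).tri.pd_D.dotProduct_mulVec_pos (x := zc k) fun e =>
        hx (Int.cast_eq_zero.1 (congrFun e x0))
      refine (mul_pos (mul_pos two_pos b0) this).ne (Eq.trans ?_ q2)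
      exact (sum_eq_zero fun x _ => mul_eq_zero_of_left
        (Int.cast_eq_zero.2 (congrFun z x)) _).symm)
    (fun x e => k2_supp (P := fun F => st F ≠ t) _ (hk1 _ fun q e => by_contra fun z =>
      e (hk0 q z)) x e) (q2 ▸ hq))
  obtain ⟨V, B, V', i⟩ := cut_iso hs h0 h hv hΨ t
  have X := xx_tri hs h0 h hv hΨ t
  have m0 := (i.mas η).2 (s2 _ S0 Ψ0 y0 hΨ)
  have m1 := (lt_mas hs y1.toOk hΨ.tin t η).1 (s2 _ _ _ y1 hΨ.tin)
  have lo : (XX T S1 v st Ψ0 t).Low (pp T S1 v st t) :=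
    lw_low (T := T.cut (fun F => st F < t) 0) (cn_ten (S0 := S0) (S := S1) (v := v)).idl
  have co := core (X := XX T S1 v st Ψ0 t) (p := pp T S1 v st t) (g := fun y => (T.lw (S0.ten S1 v)
    st (T.tin S0 S1 v Ψ0)).ph k1 (ex T (S0.ten S1 v) st t y)) X lo e1 f0 m0 m1
    (m2 η (s2 _ _ _ y2 hΨ.tin)) (fun y => (norm_ee _).le) (hb.trans_le hb')
  have t0 := lw_tri hs hΨ h0
  let A : Set ({x // pp T S1 v st t x} → ℤ) := {z | τ' * (XX T S1 v st Ψ0 t).fsum (pp T S1 v st t) z <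
    ‖(XX T S1 v st Ψ0 t).fib (pp T S1 v st t) (fun y => (T.lw (S0.ten S1 v) st
      (T.tin S0 S1 v Ψ0)).ph k1 (ex T (S0.ten S1 v) st t y)) z‖}
  let G : (((T.lw S0 st Ψ0).lt t).C → ℤ) → ℝ := fun z => A.indicator 1
    fun c => z ((eL v Ψ0 h t).symm c)
  have g1 := ttl _ (T.lw S0 st Ψ0) t M G t0 (fun c => (lw_lev c).trans_le (hs.le _).1)
    (u2 ▸ (hs.le _).1) m fun _ => ⟨ind_nonneg _ _, ind_le _ _⟩
  have g2 : ((T.lw S0 st Ψ0).lt t).S G = ((XX T S1 v st Ψ0 t).cut (pp T S1 v st t) 0).S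
      (A.indicator 1) := (i.S G).symm.trans (congrArg (TS.S _) (funext fun y => congrArg
        (A.indicator 1) (funext fun c => congrArg y ((eL v Ψ0 h t).apply_symm_apply c))))
  refine le_trans (Eq.trans_le ?_ g1) (mul_le_mul_of_nonneg_left
    ((congrArg₂ (· / ·) g2 i.Zc.symm).trans_le co)
    (mul_nonneg zero_le_two (prod_nonneg fun j _ => zero_le_one.trans (one_le_ct t0 j))))
  refine congrArg (T.tw S0 Ψ0).E (funext fun y => ?_)
  subst hS1
  have e := sb_eq hs h0 h hv hΨ (t' := t') k0' hk0 (fun q => by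
    have := dl q.1.2
    have := (Sh.cd_degree _).symm.trans ((congrArg _ q.2).trans (Finsupp.degree_single _ _))
    rw [← u1, hs.ts_lt, u2, show T.nl S0 x0 = l from u3]
    omega) y
  have fp := ((X.summable_ker (p := pp T _ v st t) fun c => y ((eL v Ψ0 h t).symm c).1).tsum_pos
    (fun z => (ker_pos _ z).le) 0 (ker_pos _ _)).trans_eq (fsum_eq _).symm
  have : y ∈ {y | τ' < (T.tan S0 Ψ0 v y).sbS (T.ts S0 st M) t' col (fun _ => a1) k} ↔
      (fun c => y ((eL v Ψ0 h t).symm c).1) ∈ A :=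
    (iff_of_eq (congrArg (τ' < ·) e)).trans (lt_div_iff₀ fp)
  by_cases z : (fun c => y ((eL v Ψ0 h t).symm c).1) ∈ A
  · exact (Set.indicator_of_mem (this.2 z) _).trans (Set.indicator_of_mem z 1).symm
  · exact (Set.indicator_of_notMem (mt this.1 z) _).trans (Set.indicator_of_notMem z _).symm

end Crest.Agent.N49.Tw

end
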