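import Crest.Agent.N49.Tn.Fin
import Crest.Agent.N49.Tn.Pkf
import Crest.Agent.N49.Tn.Co
import Crest.Agent.N49.Tn.Ct
import Crest.Agent.N49.Md.Gen

/-!
# Row 49 (helper10): regularity of tangent towers, unconditionally
-/

set_option autoImplicit false

namespace Crest.Agent.N49

theorem Tw.tangA (M C' : ℕ) : Tw.TANG M C' :=
  let ⟨c, h⟩ := Tw.char M
  Tw.tfin Tw.tst (Tw.tco Tw.tst) Tw.tct M c C' h (Tw.tpk2 h)

theorem Md.genA (M C' : ℕ) : Md.GEN M C' := Md.genT Tw.tangA M C'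

end Crest.Agent.N49
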