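import Crest.Agent.N49.Tw.Cd
import Crest.Agent.N49.Tw.Api

/-!
# Row 49 (helper81): tangent towers over a background shape (FROZEN definitions and statements)
-/

set_option autoImplicit false

open Matrix MvPolynomial Finset

noncomputable section

namespace Crest.Agent.N49.Tw

open Po

namespace Sh

variable {τ0 τ : Type} (S0 : Sh Unit τ0) (S : Sh Unit τ)

/-- the length of a word or of the unit -/
def od (o : Option S0.W) : ℕ := o.elim 0 S0.dg

/-- the coefficient of a word or of the unit -/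
def cu (R : Type) [CommRing R] (o : Option S0.W) : MvPolynomial S0.W R →ₗ[R] R :=
  (basisMonomials S0.W R).constr R fun m => (S0.ru o m : R)

/-- the words of a product -/
abbrev TW : Type := {x : Option S0.W × Option S.W // x ≠ (none, none)}

/-- the product of two shapes; the words `(o, w)` have covariance `v ⊗ S.K` -/
def ten (v : Matrix (Option S0.W) (Option S0.W) ℝ) : Sh Unit Unit where
  W := TW S0 S
  col := id
  ty x := Finsupp.single () (S0.od x.1.1 + S.od x.1.2)
  r x m := S0.ru x.1.1 (Finsupp.weight (fun y : TW S0 S => S0.sg y.1.1) m) *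
    S.ru x.1.2 (Finsupp.weight (fun y : TW S0 S => S.sg y.1.2) m)
  ε x := x.1.1.elim (x.1.2.elim 0 S.ε) fun w => x.1.2.elim (S0.ε w) fun _ => 0
  K := Matrix.of fun x x' => x.1.2.elim
    (x'.1.2.elim (x.1.1.elim 0 fun w => x'.1.1.elim 0 fun w' => S0.K w w') fun _ => 0)
    fun w => x'.1.2.elim 0 fun w' => v x.1.1 x'.1.1 * S.K w w'

/-- admissible kernels of the tangent words -/
structure Tk (v : Matrix (Option S0.W) (Option S0.W) ℝ) (a : ℝ) : Prop where
  pd : v.PosDef
  blk : ∀ o o', v o o' ≠ 0 → S0.od o = S0.od o'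
  lo : ∀ x, a * ∑ o, x o ^ 2 ≤ qf v x

end Sh

namespace TS

variable {τ0 τ : Type} (T : TS Unit) (S0 : Sh Unit τ0) (S : Sh Unit τ)

/-- the tangent families -/
abbrev Tc : Type := {x : T.C × Option S0.W // S0.od x.2 < T.lev x.1}

/-- the element of the ring of `S0` with free coefficients `y` and background `b` -/
def Yt {R : Type} [CommRing R] (y : T.Tc S0 → R) (b : T.Cw S0 → R) (F : T.C) :
    MvPolynomial S0.W R :=
  (∑ x : T.Tc S0 with x.1.1 = F, monomial (S0.sg x.1.2) (y x)) + T.Yw S0 b F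

/-- **the tangent tower** at the background `b` -/
def tan (Ψ0 : T.Twd S0) (v : Matrix (Option S0.W) (Option S0.W) ℝ) (b : T.Cw S0 → ℤ) :
    TS Unit where
  C := T.Tc S0
  deg x := Finsupp.single () (T.lev x.1.1 - S0.od x.1.2)
  Φ x := S0.cu _ x.1.2 (eval₂ (MvPolynomial.map (algebraMap ℝ (MvPolynomial (T.Tc S0) ℝ)))
    (T.Yt S0 (X (R := ℝ)) fun p => MvPolynomial.C (b p : ℝ)) (Ψ0 x.1.1))
  K := Matrix.of fun x x' => T.K x.1.1 x'.1.1 * v x.1.2 x'.1.2

/-- its stages: the old stage first, then the decreasing new level -/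
def ts (st : T.C → ℕ) (M : ℕ) (x : T.Tc S0) : ℕ :=
  (M + 1) ^ (st x.1.1 * (M + 1) + (M - (T.lev x.1.1 - S0.od x.1.2)))

variable (v : Matrix (Option S0.W) (Option S0.W) ℝ)

/-- a twist on the background seen on the product -/
def tin (Ψ0 : T.Twd S0) : T.Twd (S0.ten S v) := fun F =>
  MvPolynomial.map (rename fun w => (⟨(some w, none), by simp⟩ : Sh.TW S0 S)).toRingHom (Ψ0 F)

/-- the background part of a twist on the product -/
def tb (Ψ : T.Twd (S0.ten S v)) : T.Twd S0 := fun F => MvPolynomial.map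
  (aeval fun x : Sh.TW S0 S => x.1.2.elim (monomial (S0.sg x.1.1) (1 : ℝ)) fun _ => 0).toRingHom (Ψ F)

/-- the twist induced on the tangent tower -/
def tt (Ψ : T.Twd (S0.ten S v)) (b : T.Cw S0 → ℤ) :
    (T.tan S0 (T.tb S0 S v Ψ) v b).Twd S := fun x =>
  S0.cu (MvPolynomial (T.Tc S0) (MvPolynomial S.W ℝ)) x.1.2
    (eval₂ (aeval fun z : Sh.TW S0 S => monomial (S0.sg z.1.1)
        (MvPolynomial.C (monomial (S.sg z.1.2) (1 : ℝ)) :
          MvPolynomial (T.Tc S0) (MvPolynomial S.W ℝ))).toRingHom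
      (T.Yt S0 X fun p => MvPolynomial.C (MvPolynomial.C (b p : ℝ))) (Ψ x.1.1))

/-- coordinates of the product: background words, tangent words -/
def tE (Ψ0 : T.Twd S0) (b : T.Cw S0 → ℤ) (h : S.Ok) :
    T.Cw S0 ⊕ (T.tan S0 Ψ0 v b).Cw S → T.Cw (S0.ten S v) :=
  Sum.elim (fun p => ⟨(p.1.1, ⟨(some p.1.2, none), by simp⟩), by
      refine Finsupp.ext fun u => ?_
      have := lev_cw p
      simp only [Sh.cd, Sh.ten, Finsupp.mapDomain_id, Sh.od, Option.elim, add_zero, ← this]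
      simp [lev, Finsupp.degree_eq_sum]⟩)
    fun q => ⟨(q.1.1.1.1, ⟨(q.1.1.1.2, some q.1.2), by simp⟩), by
      refine Finsupp.ext fun u => ?_
      have a := lev_cw q
      have c := q.1.1.2
      have d : (T.tan S0 Ψ0 v b).lev q.1.1 = T.lev q.1.1.1.1 - S0.od q.1.1.1.2 :=
        Finsupp.degree_single _ _
      have := h.ne
      have e : S0.od q.1.1.1.2 + S.od (some q.1.2) = T.lev q.1.1.1.1 := by
        change _ + S.dg q.1.2 = _; omega
      simp only [Sh.cd, Sh.ten, Finsupp.mapDomain_id, e]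
      simp [lev, Finsupp.degree_eq_sum]⟩

end TS

/-- the number of stages of a tangent tower -/
def tM (M : ℕ) : ℕ := (M + 1) ^ ((M + 1) * (M + 1))

/-- **regularity of the tangent tower at most backgrounds** -/
def TANG (M C' : ℕ) : Prop := ∃ C c : ℕ, ∀ (τ0 : Type) (T : TS Unit) (S0 : Sh Unit τ0)
  (st : T.C → ℕ) (Ψ0 : T.Twd S0) (v : Matrix (Option S0.W) (Option S0.W) ℝ) (n n' : ℕ)
  (a a' η : ℝ), T.Stg st M → T.Adm S0 st Ψ0 → S0.Sz n a → S0.Tk v a → 0 < a → a ≤ 1 → 0 < η →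
  η ≤ 1 → n < n' → (n + 2) ^ c * a' ≤ a ^ 4 → T.RgS st M C n' a' η →
  (T.tw S0 Ψ0).P {b | ¬ (T.tan S0 Ψ0 v b).RgS (T.ts S0 st M) (tM M) C' n a η} ≤ η

end Crest.Agent.N49.Tw

end
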