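import Crest.Agent.N49.Tn.St2
import Crest.Agent.N49.Tn.Alg
import Crest.Agent.N49.Tw.Pers

/-!
# Row 49 (helper65): thresholds and the union bound for tangent towers
-/

set_option autoImplicit false

open Matrix MvPolynomial Finset

noncomputable section

namespace Crest.Agent.N49.Tw

open Po TS

namespace Tf

/-- polynomially bounded functions -/
def Pb (f : ℕ → ℕ) : Prop := ∃ E, ∀ n, f n ≤ (n + 2) ^ E

theorem Pb.const (c : ℕ) : Pb fun _ => c :=
  ⟨c, fun n => (Nat.lt_two_pow_self.le).trans (Nat.pow_le_pow_left (by omega) c)⟩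
theorem Pb.id : Pb fun n => n := ⟨1, fun n => by simp⟩
theorem Pb.mul {f g : ℕ → ℕ} (a : Pb f) (b : Pb g) : Pb fun n => f n * g n :=
  let ⟨E, a⟩ := a; let ⟨F, b⟩ := b
  ⟨E + F, fun n => by rw [pow_add]; exact Nat.mul_le_mul (a n) (b n)⟩
theorem Pb.pow {f : ℕ → ℕ} (a : Pb f) (k : ℕ) : Pb fun n => f n ^ k :=
  let ⟨E, a⟩ := a
  ⟨E * k, fun n => by rw [pow_mul]; exact Nat.pow_le_pow_left (a n) k⟩
theorem Pb.add {f g : ℕ → ℕ} (a : Pb f) (b : Pb g) : Pb fun n => f n + g n := by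
  obtain ⟨E, a⟩ := a
  obtain ⟨F, b⟩ := b
  refine ⟨E + F + 1, fun n => ?_⟩
  have h1 := (a n).trans (Nat.pow_le_pow_right (by omega) (Nat.le_add_right E F))
  have h2 := (b n).trans (Nat.pow_le_pow_right (by omega) (Nat.le_add_left F E))
  rw [pow_succ]; nlinarith

variable {σ : Type} [DecidableEq σ] {T : TS σ} {st : T.C → ℕ} {M C : ℕ} {P a l : ℝ}
  {κ : ℕ → ℕ → ℝ} {lb : ℕ → ℝ}

/-- the semantic estimate below a stage -/
theorem semL (hR : ∀ t ≤ M, RGS M t C) (hs : T.Stg st M) (k : T.RgP st M P a l κ lb) {t N : ℕ}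
    (t1 : 1 ≤ t) (tM : t ≤ M) (N1 : 1 ≤ N) {V W G : ℝ} (V0 : 0 < V) (VW : V ≤ 1 + W) (W0 : 0 ≤ W)
    (G0 : 0 ≤ G) (l0 : 0 ≤ l) (hG : G ≤ W * (1 + l + ∑ j ∈ Icc t M, T.cst st lb j))
    (hP : ((N : ℝ) + 1) ^ C * (1 + W) ≤ P) :
    T.Sem st t N ((⨅ j, κ t j) / V) (Real.exp (-G)) := by
  obtain ⟨t, rfl⟩ : ∃ s, t = s + 1 := ⟨t - 1, by omega⟩
  have q0 : (0 : ℝ) < (N + 1) ^ C := by positivity
  refine hR t (by omega) σ T st N _ _ hs N1 (Real.exp_pos _) (Real.exp_le_one_iff.2 (by linarith))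
    (rgS_iff.2 ⟨κ, lb, k.mono (by omega) (by nlinarith) (fun s e j => ?_) fun s e => ?_⟩)
  · obtain ⟨x, -, y⟩ := k.lo s (by omega)
    have z : P * κ s j ≤ ⨅ j, κ (t + 1) j :=
      le_ciInf fun i => k.sep _ tM s (Nat.lt_succ_of_le e) i j
    rw [le_div_iff₀ V0, mul_right_comm]
    exact (mul_le_mul_of_nonneg_right ((mul_le_mul_of_nonneg_left VW q0.le).trans hP)
      (x.le.trans (y j).1)).trans z
  · have s0 := k.sum_nonneg hs.tri s (s := t) (by omega)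
    have s1 := k.sum_nonneg hs.tri (t + 1) le_rfl
    have sm : ∑ j ∈ Icc s t, T.cst st lb j + ∑ j ∈ Icc (t + 1) M, T.cst st lb j =
        ∑ j ∈ Icc s M, T.cst st lb j := by
      simp only [← Finset.Ico_add_one_right_eq_Icc]
      exact sum_Ico_consecutive _ (by have := (mem_Icc.1 e).2; omega) (by omega)
    rw [← sm, ← Real.exp_neg, neg_neg, Real.log_exp]
    calc _ ≤ ((N : ℝ) + 1) ^ C * ((1 + W) * (1 + l + (∑ j ∈ Icc s t, T.cst st lb j +
          ∑ j ∈ Icc (t + 1) M, T.cst st lb j))) :=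
          mul_le_mul_of_nonneg_left (by nlinarith [mul_nonneg W0 s0]) q0.le
      _ ≤ _ := by rw [← mul_assoc]; exact mul_le_mul_of_nonneg_right hP (by positivity)

theorem tail {p e g L Y l η : ℝ} {n m : ℕ} (m1 : 1 ≤ m) (h0 : 0 < η) (hl : l = Real.log η⁻¹)
    (L0 : 0 ≤ L) (hp : p ≤ Real.exp (n * Y)) (he : e ≤ Real.exp (-g)) (e0 : 0 ≤ e)
    (hg : 7 * L + n * Y + m + 4 + l ≤ g) :
    2 * p * (16 * e + 8 * Real.exp (-g) / Real.exp (-L) ^ 2) ≤ η / (m * Real.exp (5 * L)) := by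
  have m0 : (0 : ℝ) < m := by exact_mod_cast m1
  have a : Real.exp (-g) / Real.exp (-L) ^ 2 = Real.exp (2 * L - g) := by
    rw [← Real.exp_nat_mul, ← Real.exp_sub]; congr 1; push_cast; ring
  have b : e ≤ Real.exp (2 * L - g) := he.trans (Real.exp_le_exp.2 (by linarith))
  have c : (m : ℝ) ≤ Real.exp m := by linarith [Real.add_one_le_exp (m : ℝ)]
  have d : (48 : ℝ) ≤ Real.exp 4 := by
    have := Real.exp_one_gt_d9
    rw [show (4 : ℝ) = (4 : ℕ) * 1 by norm_num, Real.exp_nat_mul]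
    exact le_trans (by norm_num) (pow_le_pow_left₀ (by norm_num : (0 : ℝ) ≤ 2.7) (by linarith) 4)
  rw [mul_div_assoc, a, le_div_iff₀ (by positivity)]
  calc _ ≤ 2 * Real.exp (n * Y) * (16 * Real.exp (2 * L - g) + 8 * Real.exp (2 * L - g)) *
        (Real.exp m * Real.exp (5 * L)) := by gcongr
    _ = 48 * (Real.exp (n * Y) * Real.exp (2 * L - g) * Real.exp m * Real.exp (5 * L)) := by ring
    _ ≤ Real.exp 4 * (Real.exp (n * Y) * Real.exp (2 * L - g) * Real.exp m * Real.exp (5 * L)) := by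
        gcongr
    _ ≤ _ := by
        simp only [← Real.exp_add]
        rw [← Real.exp_log h0]
        refine Real.exp_le_exp.2 ?_
        rw [Real.log_inv] at hl
        linarith

theorem widths (m : ℕ) {u a : ℝ} (u1 : 1 ≤ u) (a0 : 0 < a) (a1 : a ≤ 1) : ∃ w : ℕ → ℝ,
    (∀ t, 0 < w t) ∧ (∀ t, w t ≤ 1) ∧ (∀ t, u * w t ≤ a) ∧ (∀ t, a / u ^ (m + 1) ≤ w t) ∧
      ∀ t ≤ m, ∀ t' < t, u * w t' ≤ w t := by
  have up : ∀ e : ℕ, (1 : ℝ) ≤ u ^ e := fun e => one_le_pow₀ u1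
  have w0 : ∀ t, 0 < a / u ^ (m - t + 1) := fun t => by positivity
  have wu : ∀ t, u * (a / u ^ (m - t + 1)) ≤ a := fun t => by
    rw [mul_div_assoc', div_le_iff₀ (by positivity), pow_succ]
    nlinarith [up (m - t), mul_pos a0 (zero_lt_one.trans_le u1)]
  refine ⟨fun t => a / u ^ (m - t + 1), w0, fun t => by nlinarith [wu t, w0 t], wu, fun t =>
    div_le_div_of_nonneg_left a0.le (by positivity) (pow_le_pow_right₀ u1 (by omega)),
    fun t e t' e' => ?_⟩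
  rw [mul_div_assoc', div_le_div_iff₀ (by positivity) (by positivity), mul_comm _ a,
    mul_assoc, ← pow_succ']
  exact mul_le_mul_of_nonneg_left (pow_le_pow_right₀ u1 (by omega)) a0.le

end Tf

set_option maxHeartbeats 400000 in
open Tf in
theorem tfin : TFin := by
  intro hSt hCo hCt M c C' hc hP
  obtain ⟨C1, hR⟩ := rgs_all hc
  obtain ⟨tm, htm⟩ : ∃ tm, tm = tM M := ⟨_, rfl⟩
  have tm1 : 1 ≤ tm := htm ▸ Nat.one_le_pow _ _ (by omega)
  have o1 : Pb fun n => n + 1 := Pb.id.add (.const 1)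
  have o2 : Pb fun n => (n + 1) * (2 * 2 ^ M + 1) := o1.mul (.const _)
  have o3 := (o2.add (.const 2)).pow c
  have o4 := ((o1.pow C').mul ((Pb.const (M + 1)).mul o1)).mul
    ((Pb.const 2).add ((Pb.const ((tm + 1) * C')).mul .id))
  obtain ⟨E, hE⟩ := ((((o2.add o3).add (.const 1)).pow C1).mul ((Pb.const 1).add (o3.mul
    (((((Pb.const 7).mul o4).add .id).add (.const (tm + 5))).add (.const 2))))).mul
      ((Pb.const 2).mul ((o1.pow C').pow (tm + 1)))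
  refine ⟨E + C1 + 1, 0, fun τ0 T S0 st Ψ0 v n n' a a' η hs ad sz hv a0 a1 h0 h1 nn ha hr => ?_⟩
  obtain ⟨κ, lb, k⟩ := rgS_iff.1 hr
  specialize hE n
  obtain ⟨N, hN⟩ : ∃ N, N = (n + 1) * (2 * 2 ^ M + 1) := ⟨_, rfl⟩
  obtain ⟨N2, hN2⟩ : ∃ N2, N2 = (N + 2) ^ c := ⟨_, rfl⟩
  obtain ⟨u, hu⟩ : ∃ u, u = (n + 1) ^ C' := ⟨_, rfl⟩
  obtain ⟨Q0, hQ0⟩ : ∃ Q0, Q0 = 2 + (tm + 1) * C' * n := ⟨_, rfl⟩
  obtain ⟨Q1, hQ1⟩ : ∃ Q1, Q1 = u * ((M + 1) * (n + 1)) * Q0 := ⟨_, rfl⟩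
  obtain ⟨Q2, hQ2⟩ : ∃ Q2, Q2 = 7 * Q1 + n + (tm + 5) := ⟨_, rfl⟩
  obtain ⟨P, hPd⟩ : ∃ P : ℝ, P = ((n' : ℝ) + 1) ^ (E + C1 + 1) := ⟨_, rfl⟩
  simp only [← hN, ← hN2, ← hu, ← hQ0, ← hQ1, ← hQ2] at hE
  rw [← hPd] at k
  have n2 : (n : ℝ) + 2 ≤ n' + 1 := by exact_mod_cast (by omega : n + 2 ≤ n' + 1)
  have n0 : (0 : ℝ) ≤ n := Nat.cast_nonneg n
  have hW : ((N + N2 : ℕ) + 1 : ℝ) ^ C1 * (1 + N2 * (Q2 + 2)) * (2 * u ^ (tm + 1)) ≤ P := by
    rw [hPd]
    refine le_trans (by exact_mod_cast hE) ((pow_le_pow_left₀ (by linarith) n2 E).trans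
      (pow_le_pow_right₀ (by linarith) (by omega)))
  have Nr : ((N : ℝ) + 2) ^ c = N2 := by rw [hN2]; push_cast; rfl
  have ur : ((n : ℝ) + 1) ^ C' = u := by rw [hu]; push_cast; rfl
  have N21 : 1 ≤ N2 := hN2 ▸ Nat.one_le_pow _ _ (by omega)
  have N1 : (1 : ℝ) ≤ N2 := by exact_mod_cast N21
  have u1 : (1 : ℝ) ≤ u := ur ▸ one_le_pow₀ (by linarith)
  have up : ∀ e : ℕ, (1 : ℝ) ≤ u ^ e := fun e => one_le_pow₀ u1
  have q1 : (1 : ℝ) ≤ ((N + N2 : ℕ) + 1 : ℝ) ^ C1 :=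
    one_le_pow₀ (le_add_of_nonneg_left (Nat.cast_nonneg _))
  have Q20 : (0 : ℝ) ≤ Q2 := Nat.cast_nonneg _
  have Q10 : (0 : ℝ) ≤ Q1 := Nat.cast_nonneg _
  have Q2e : (Q2 : ℝ) = 7 * Q1 + n + (tm + 5) := by rw [hQ2]; push_cast; rfl
  have W0 : 0 ≤ (N2 : ℝ) * (Q2 + 2) := by positivity
  have W1 : ((N + N2 : ℕ) + 1 : ℝ) ^ C1 * (1 + N2 * (Q2 + 2)) ≤ P :=
    (le_mul_of_one_le_right (by positivity) (by linarith [up (tm + 1)])).trans hW
  have W2 : (1 + N2 * (Q2 + 2)) * (2 * u ^ (tm + 1)) ≤ P :=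
    le_trans (by rw [mul_assoc]; exact le_mul_of_one_le_left (by positivity) q1) hW
  have W3 : 1 + (N2 : ℝ) * (Q2 + 2) ≤ P :=
    (le_mul_of_one_le_right (by positivity) (by linarith [up (tm + 1)])).trans W2
  have aa : a' ≤ a * a := by
    rw [pow_zero, one_mul] at ha
    exact ha.trans (by nlinarith only [mul_pos a0 a0, mul_le_one₀ a1 a0.le a1])
  have aa' : a' ≤ a := aa.trans (mul_le_of_le_one_left a0.le a1)
  have l0 := log_inv_nonneg h0 h1
  obtain ⟨l, hl⟩ : ∃ l, l = Real.log η⁻¹ := ⟨_, rfl⟩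
  rw [← hl] at k l0
  rw [← htm]
  obtain ⟨w, w0, w1, wu, wm, ws⟩ := widths tm u1 a0 a1
  have hS := fun b => hSt τ0 T S0 st M Ψ0 v a b hs ad sz.toOk hv
  obtain ⟨D0, hD⟩ : ∃ D0 : Matrix (T.Tc S0) (T.Tc S0) ℝ, ∀ b, @Eq (Matrix (T.Tc S0) (T.Tc S0) ℝ)
      ((T.tan S0 Ψ0 v b).stg (T.ts S0 st M)).D D0 :=
    ⟨Matrix.of fun x x' => (T.stg st).D x.1.1 x'.1.1 * v x.1.2 x'.1.2,
      fun b => Matrix.ext (hS b).2.2.2⟩
  have hq : ∀ b (y : T.Tc S0 → ℤ), qf ((T.tan S0 Ψ0 v b).stg (T.ts S0 st M)).D (zc y) =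
      qf D0 (zc y) := fun b y => congrArg (qf · (zc y)) (hD b)
  have hct : ∀ b j, ((T.tan S0 Ψ0 v b).stg (T.ts S0 st M)).ct j = Po.th (D0.submatrix (Subtype.val :
      {c // (Finsupp.single () (T.ts S0 st M c)).degree = j} → _) Subtype.val) 0 := fun b j =>
    congrArg (fun D : Matrix (T.Tc S0) (T.Tc S0) ℝ => Po.th (D.submatrix (Subtype.val :
      {c // (Finsupp.single () (T.ts S0 st M c)).degree = j} → _) Subtype.val) 0) (hD b)
  have hRr : ∀ b j, ((T.tan S0 Ψ0 v b).stg (T.ts S0 st M)).R j =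
      #{c | (Finsupp.single () (T.ts S0 st M c)).degree = j} := fun _ _ => rfl
  have tri0 := (hS 0).1.tri
  obtain ⟨L, hL⟩ : ∃ L, L = (T.tan S0 Ψ0 v 0).LbS (T.ts S0 st M) tm C' n w η := ⟨_, rfl⟩
  have hLb : ∀ b t, (T.tan S0 Ψ0 v b).LbS (T.ts S0 st M) tm C' n w η t = L t := fun b t => by
    simp only [hL, LbS, hct, hRr]
  have Le : ∀ t, L t = u * (1 + l + ∑ j ∈ Icc t tm, (T.tan S0 Ψ0 v 0).cst (T.ts S0 st M) w j) := fun t => by
    rw [hL, hl, ← ur]; rfl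
  have c0 : ∀ j, 0 ≤ (T.tan S0 Ψ0 v 0).cst (T.ts S0 st M) w j := fun j => cst_nonneg tri0 (w0 j) (w1 j)
  have Lc : ∀ t, ∑ j ∈ Icc t tm, (T.tan S0 Ψ0 v 0).cst (T.ts S0 st M) w j ≤ L t ∧ 0 ≤ L t := fun t => by
    have := sum_nonneg fun j (_ : j ∈ Icc t tm) => c0 j
    rw [Le]; constructor <;> nlinarith only [this, u1, l0]
  choose K hK1 hK2 using fun t => hCt _ _ t (L t) (w t) tri0 (w0 t) (w1 t)
  have hM : (T.lw S0 st Ψ0).Mas (1 / 2) := by
    have p : (1 : ℝ) ≤ (n' + 1) ^ E := one_le_pow₀ (by linarith)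
    have p' : (0 : ℝ) < (n' + 1) ^ C1 := by positivity
    have p2 : 2 * ((n' : ℝ) + 1) ^ C1 ≤ P := by
      rw [hPd, pow_add, pow_add, pow_one]
      nlinarith only [mul_le_mul_of_nonneg_right p p'.le, p', n2, n0]
    refine (lw_tri hs ad sz.toOk).mas_top (fun c => (lw_lev c).trans_lt
      (Nat.lt_succ_of_le (hs.le _).1)) (hR M le_rfl _ T st n' a _ hs (by omega) one_half_pos
        (by norm_num) (hr.mono'' hs.tri h0 h1 one_le_two (hPd ▸ p2) (hPd ▸ mul_le_mul (by linarith) aa'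
          hr.pos.le (by linarith)) ?_) _ S0 Ψ0 (sz.mono nn.le le_rfl) ad)
    rw [one_div, inv_inv, ← hl]
    linarith [Real.log_le_sub_one_of_pos (two_pos (α := ℝ))]
  -- the bad events
  let A : (Σ _ : ℕ, T.Tc S0 → ℤ) → Set (T.Cw S0 → ℤ) := fun i => {b | ∃ s : ℕ, (i.2 ≠ 0 ∧
    (∀ x, i.2 x ≠ 0 → (T.ts S0 st M) x = i.1 ∧ T.nl S0 x = s) ∧
    qf ((T.tan S0 Ψ0 v 0).stg (T.ts S0 st M)).D (zc i.2) ≤ L i.1 / w i.1) ∧ Real.exp (-L i.1) <
      (T.tan S0 Ψ0 v b).sbS (T.ts S0 st M) i.1 (fun _ : Fin s => ()) (fun _ => w i.1) i.2}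
  have tw := tw_tri hs.cl ad sz.toOk
  have key : ∀ t' q, (T.tw S0 Ψ0).P (A ⟨t', q⟩) ≤ η / (tm * Real.exp (5 * L t')) := by
    intro t' q
    rcases (A ⟨t', q⟩).eq_empty_or_nonempty with e | ⟨-, s, ⟨q0, q1', q2⟩, -⟩
    · rw [e]; exact (P_empty _).trans_le (by positivity)
    obtain ⟨x, hx⟩ := Function.ne_iff.1 q0
    obtain ⟨t, ht⟩ : ∃ t, st x.1.1 = t := ⟨_, rfl⟩
    have tM' : t ≤ M := ht ▸ (hs.le _).1
    have t1 : 1 ≤ t := ht ▸ hs.pos _
    obtain ⟨b0, b1, b2⟩ := k.lo t tM'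
    have bd : BddBelow (Set.range (κ t)) := ⟨lb t, by rintro _ ⟨j, rfl⟩; exact (b2 j).1⟩
    have lbb : lb t ≤ ⨅ j, κ t j := le_ciInf fun j => (b2 j).1
    obtain ⟨X, hX⟩ : ∃ X, X = ∑ j ∈ Icc t M, T.cst st lb j := ⟨_, rfl⟩
    have X0 : 0 ≤ X := hX ▸ k.sum_nonneg hs.tri t le_rfl
    have la : ∀ j ∈ Icc t M, Real.log a⁻¹ ≤ Real.log (lb j)⁻¹ ∧ 0 ≤ Real.log (lb j)⁻¹ := fun j e => by
      obtain ⟨x, x1, y⟩ := k.lo j (mem_Icc.1 e).2
      refine ⟨Real.log_le_log (inv_pos.2 a0) (inv_anti₀ x ?_), log_inv_nonneg x x1⟩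
      nlinarith only [(y 0).1, (y 0).2, x, aa', W3, W0]
    have lu : Real.log u ≤ C' * n := by
      rw [← ur, Real.log_pow]
      exact mul_le_mul_of_nonneg_left (by linarith [Real.log_le_sub_one_of_pos (by linarith :
        (0 : ℝ) < n + 1)]) (Nat.cast_nonneg _)
    have lw' : ∀ j, 1 + Real.log (w j)⁻¹ ≤ 1 + Real.log a⁻¹ + (tm + 1) * (C' * n) := fun j => by
      have := Real.log_le_log (inv_pos.2 (w0 j)) (inv_anti₀ (by positivity) (wm j))
      rw [inv_div, div_eq_mul_inv, Real.log_mul (by positivity) (inv_pos.2 a0).ne',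
        Real.log_pow] at this
      push_cast at this
      linarith only [this, mul_le_mul_of_nonneg_left lu (by positivity : (0 : ℝ) ≤ tm + 1)]
    have la0 := log_inv_nonneg a0 a1
    have Q0e : (Q0 : ℝ) = 2 + (tm + 1) * (C' * n) := by rw [hQ0]; push_cast; ring
    have Cn : (0 : ℝ) ≤ (tm + 1) * (C' * n) := by positivity
    have co := hCo τ0 T S0 st M n Ψ0 v a (1 + Real.log a⁻¹ + (tm + 1) * (C' * n)) 0 x hs ad sz.toOk
      sz.card hv a0 a1 (by positivity)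
    rw [(q1' x hx).1, ht, ← htm] at co
    have s1 : ∑ j ∈ Icc t' tm, (T.tan S0 Ψ0 v 0).cst (T.ts S0 st M) w j ≤ (M + 1) * (n + 1) * (Q0 * X) := by
      refine (sum_le_sum fun j _ => ?_).trans (co.trans (mul_le_mul_of_nonneg_left ?_
        (by positivity)))
      · exact add_le_add le_rfl (mul_le_mul_of_nonneg_left (lw' j) (Nat.cast_nonneg _))
      · rw [hX, mul_sum]
        refine sum_le_sum fun j e => ?_
        have z := Real.log_nonneg (one_le_ct hs.tri j)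
        obtain ⟨z1, z2⟩ := la j e
        have z3 : 1 + Real.log a⁻¹ + (tm + 1) * (C' * n) + Real.log a⁻¹ ≤
            Q0 * (1 + Real.log (lb j)⁻¹) := by
          rw [Q0e]; nlinarith only [z1, z2, Cn, mul_nonneg Cn z2]
        have z4 := mul_le_mul_of_nonneg_left z3 (Nat.cast_nonneg ((T.stg st).R j))
        rw [cst]
        nlinarith only [z4, mul_nonneg Cn z, z, Q0e]
    have LY : L t' ≤ Q1 * (1 + l + X) := by
      have z : (1 : ℝ) ≤ (M + 1) * (n + 1) * Q0 := by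
        have : (1 : ℝ) ≤ (M + 1) * (n + 1) := by
          nlinarith only [Nat.cast_nonneg (α := ℝ) M, n0]
        nlinarith only [this, Q0e, Cn]
      rw [Le, hQ1]
      push_cast
      rw [mul_assoc, mul_assoc]
      exact mul_le_mul_of_nonneg_left (by nlinarith only [z, s1, l0]) (by positivity)
    have κw : ∀ j, N2 * κ t j ≤ a * w t' / 2 := fun j => by
      have z0 := b0.le.trans (b2 j).1
      have z1 : N2 * (2 * u ^ (tm + 1)) * κ t j ≤ a * a :=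
        (mul_le_mul_of_nonneg_right (le_trans (mul_le_mul_of_nonneg_right
          (by nlinarith only [N1, Q20])
          (by positivity)) W2) z0).trans ((b2 j).2.trans aa)
      refine le_trans ?_ (div_le_div_of_nonneg_right (mul_le_mul_of_nonneg_left (wm t') a0.le)
        zero_le_two)
      rw [mul_div_assoc', div_div, le_div_iff₀ (by positivity)]
      linarith
    have lw2 : (⨅ j, κ t j) ≤ a * w t' / 2 := (ciInf_le bd 0).trans
      ((le_mul_of_one_le_left (b0.le.trans (b2 0).1) N1).trans (κw 0))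
    obtain ⟨g, hg⟩ : ∃ g, g = Q2 * (1 + l + X) := ⟨_, rfl⟩
    have g0 : 0 ≤ g := by rw [hg]; positivity
    have gW : N2 * (g + 2) ≤ N2 * (Q2 + 2) * (1 + l + X) := by
      rw [mul_assoc, hg]
      exact mul_le_mul_of_nonneg_left (by nlinarith only [l0, X0]) (by positivity)
    have gP : N2 * (g + 2) ≤ P * (1 + l + X) :=
      gW.trans (mul_le_mul_of_nonneg_right (by linarith) (by positivity))
    have se := semL hR hs k t1 tM' (N := N + N2) (by omega) (V := N2) (by linarith)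
      (by nlinarith only [N1, Q20]) W0 (by positivity) l0 (hX ▸ gW) W1
    have pk := hP τ0 T S0 st Ψ0 v n N t t' s (fun _ => ()) q a (w t') (⨅ j, κ t j) _ _ _
      (Real.exp (-L t')) (Real.exp (-g)) (κ t) hs ad sz hv a0 a1 (w0 t') (w1 t') hN.ge
      (b0.trans_le lbb) (fun j => ⟨ciInf_le bd j, by rw [Nr]; exact κw j⟩) (Real.exp_pos (-(N2 * (g + 2))))
      (Real.exp_le_one_iff.2 (neg_nonpos.2 (by positivity))) (Real.exp_pos _).le
      (by rw [Nr]; exact se.mono (by omega) le_rfl le_rfl)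
      (se.mono (by omega) ((div_le_self (b0.le.trans lbb) N1).trans lw2) le_rfl)
      (hX ▸ k.sym t (mem_Icc.2 ⟨t1, tM'⟩)) q0
      (fun y hy => ⟨(q1' y hy).1, (hs.ts_inj.1 ((q1' y hy).1.trans (q1' x hx).1.symm)).1.trans ht,
        (q1' y hy).2⟩) ?_
      (fun z hz => root_le N21 (Real.exp_le_exp.2 (neg_le_neg gP)) (by rwa [Nr, ← hN2] at hz)) (Real.exp_pos _) hM
    · refine (tw.P_mono ?_).trans (pk.trans (tail (Y := 1 + l + X) (n := n) tm1 h0 hl (Lc t').2 ?_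
        (Real.exp_le_exp.2 (neg_le_neg (by nlinarith only [N1, g0]))) (Real.exp_pos _).le ?_))
      · rintro b ⟨s', ⟨-, z, -⟩, hb⟩
        obtain rfl : s' = s := (z x hx).2.symm.trans (q1' x hx).2
        exact hb
      · have tl := lw_tri hs ad sz.toOk
        rw [← Real.log_le_iff_le_exp (prod_pos fun j _ => zero_lt_one.trans_le (one_le_ct tl j)),
          Real.log_prod fun j _ => (zero_lt_one.trans_le (one_le_ct tl j)).ne']
        refine (sum_le_sum fun j e => (lwc _ _ T S0 st Ψ0 M n j a a hs ad sz a0 a1 le_rfl).2.trans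
          (mul_le_mul_of_nonneg_left (?_ : _ ≤ T.cst st lb j) n0)).trans ?_
        · exact add_le_add le_rfl (mul_le_mul_of_nonneg_left (by linarith [(la j e).1])
            (Nat.cast_nonneg _))
        · rw [← mul_sum, ← hX]; exact mul_le_mul_of_nonneg_left (by linarith) n0
      · rw [hg, Q2e]
        nlinarith only [mul_nonneg (Nat.cast_nonneg (α := ℝ) tm) (add_nonneg l0 X0), LY, l0, X0]
    · rw [Nr]
      have z1 : w t' * qf ((T.tan S0 Ψ0 v 0).stg (T.ts S0 st M)).D (zc q) ≤ L t' := (le_div_iff₀' (w0 t')).1 q2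
      have z2 : P * (1 + l + X) ≤ a * w t' / 2 * (P * (1 + l + X) / lb t) := by
        rw [mul_div_assoc', mul_comm (a * w t' / 2), mul_div_assoc]
        exact le_mul_of_one_le_right ((by positivity : 0 ≤ N2 * (g + 2)).trans gP)
          ((one_le_div b0).2 (lbb.trans lw2))
      refine le_trans ?_ (gP.trans z2)
      refine mul_le_mul_of_nonneg_left ?_ (by positivity)
      rw [mul_assoc, hg, Q2e]
      nlinarith only [z1, LY, l0, X0, n0, Q10,
        mul_nonneg (Nat.cast_nonneg (α := ℝ) tm) (add_nonneg l0 X0),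
        mul_nonneg n0 (add_nonneg l0 X0), mul_nonneg Q10 (add_nonneg l0 X0),
        Nat.cast_nonneg (α := ℝ) tm]
  refine ((tw.P_mono (t := {b : T.Cw S0 → ℤ | ∃ i ∈ (Icc 1 tm).sigma K, b ∈ A i}) fun b hb => ?_).trans
    (tw.P_biUnion _ A)).trans ?_
  · by_contra hn
    refine hb ⟨fun t _ => w t, w, fun t _ => ⟨w0 t, w1 t, fun _ => ⟨le_rfl, ur ▸ wu t⟩⟩,
      fun t e t' e' _ _ => ?_, fun t e s col q q0 q1' q2 => not_lt.1 fun z => hn ?_⟩
    · exact ur ▸ ws t e t' e'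
    · have e1 := hLb b t
      replace q2 := q2.trans_eq (congrArg (· / w t) e1)
      replace z := (congrArg (fun y => Real.exp (-y)) e1).symm.trans_lt z
      replace q2 := (hq 0 q).trans_le ((hq b q).symm.trans_le q2)
      refine ⟨⟨t, q⟩, mem_sigma.2 ⟨e, hK2 t q (fun x hx => (stg_lev x).trans (q1' x hx).1) q2⟩,
        s, ⟨q0, fun x hx => ⟨(q1' x hx).1, ?_⟩, q2⟩, z⟩
      exact (Finsupp.degree_single _ _).symm.trans
        ((congrArg Finsupp.degree (q1' x hx).2).trans (by simp))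
  · refine (sum_sigma _ _ _).trans_le ?_
    refine (sum_le_sum (g := fun _ => η / tm) fun t e => ?_).trans ?_
    · refine (sum_le_card_nsmul _ _ _ fun q _ => key t q).trans ?_
      have z : (#(K t) : ℝ) ≤ Real.exp (5 * L t) := (hK1 t).trans (Real.exp_le_exp.2 (by
        have z1 : (T.tan S0 Ψ0 v 0).cst (T.ts S0 st M) w t ≤ L t :=
          (single_le_sum (fun j _ => c0 j) (mem_Icc.2 ⟨le_rfl, (mem_Icc.1 e).2⟩)).trans (Lc t).1
        unfold cst at z1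
        rw [mul_add] at z1
        nlinarith only [z1, Real.pi_lt_four, (Lc t).2,
          Nat.cast_nonneg (α := ℝ) (((T.tan S0 Ψ0 v 0).stg (T.ts S0 st M)).R t)]))
      rw [nsmul_eq_mul, ← div_div, mul_div_assoc', div_le_iff₀ (Real.exp_pos _), mul_comm]
      exact mul_le_mul_of_nonneg_left z (by positivity)
    · rw [sum_const, Nat.card_Icc, nsmul_eq_mul, Nat.add_sub_cancel,
        mul_div_cancel₀ _ (by positivity)]

end Crest.Agent.N49.Tw

end
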