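import Crest.Agent.N49.Tn.St2
import Crest.Agent.N49.Tn.Alg
import Crest.Agent.N49.Tn.Stg
import Crest.Agent.N49.Tw.Mast1
import Crest.Agent.N49.Tw.Mono
import Crest.Agent.N49.Rf.New

/-!
# Row 49 (helper85): tangent towers, thresholds and the union bound
-/

set_option autoImplicit false

open Matrix Finset

noncomputable section

namespace Crest.Agent.N49.Tw

open Po

namespace Tf

/-- polynomially bounded functions -/
def Pb (f : ℕ → ℕ) : Prop := ∃ e, ∀ n, f n ≤ (n + 2) ^ e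

theorem Pb.c (k : ℕ) : Pb fun _ => k :=
  ⟨k, fun n => Nat.lt_two_pow_self.le.trans (Nat.pow_le_pow_left (by omega) k)⟩
theorem Pb.id : Pb fun n => n := ⟨1, fun n => by simp⟩
theorem Pb.mul {f g : ℕ → ℕ} : Pb f → Pb g → Pb fun n => f n * g n
  | ⟨e, h⟩, ⟨e', h'⟩ => ⟨e + e', fun n => by rw [pow_add]; exact Nat.mul_le_mul (h n) (h' n)⟩
theorem Pb.pow {f : ℕ → ℕ} (k : ℕ) : Pb f → Pb fun n => f n ^ k
  | ⟨e, h⟩ => ⟨e * k, fun n => by rw [pow_mul]; exact Nat.pow_le_pow_left (h n) k⟩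
theorem Pb.add {f g : ℕ → ℕ} : Pb f → Pb g → Pb fun n => f n + g n
  | ⟨e, h⟩, ⟨e', h'⟩ => ⟨e + e' + 1, fun n => by
    have a := (h n).trans (Nat.pow_le_pow_right (by omega) (Nat.le_add_right e e'))
    have b := (h' n).trans (Nat.pow_le_pow_right (by omega) (Nat.le_add_left e' e))
    rw [pow_succ]; nlinarith⟩

theorem rgs_all {M c : ℕ} (hc : CHAR M c) : ∃ C, ∀ t ≤ M, RGS M t C := by
  choose f hf using rgs hc
  exact ⟨(range (M + 1)).sup f, fun t m σ _ T st n a η hs hn h0 h1 r => hf t σ T st n a η hs hn h0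
    h1 (r.mono hs.tri h0 h1 (le_sup (f := f) (mem_range.2 (by omega))) le_rfl le_rfl le_rfl)⟩

theorem tail {K Pi L Q Y m η ε : ℝ} (η0 : 0 < η) (m1 : 1 ≤ m) (L0 : 0 ≤ L) (Q1 : 1 ≤ Q)
    (hY : 1 + Real.log η⁻¹ ≤ Y) (Y1 : 1 ≤ Y) (hL : L ≤ Q * Y) (hK : K ≤ Real.exp (5 * L))
    (P0 : 0 ≤ Pi) (hP : Pi ≤ Real.exp (Q * Y)) (ε0 : 0 ≤ ε)
    (hε : ε ≤ Real.exp (-((9 * Q + 48 * m) * Y))) :
    K * (2 * Pi * (16 * ε + 8 * Real.exp (-((9 * Q + 48 * m) * Y)) / Real.exp (-L) ^ 2)) ≤ η / m := by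
  have a : Real.exp (-((9 * Q + 48 * m) * Y)) / Real.exp (-L) ^ 2 =
      Real.exp (2 * L - (9 * Q + 48 * m) * Y) := by
    rw [← Real.exp_nat_mul, ← Real.exp_sub]; congr 1; push_cast; ring
  have b : ε ≤ Real.exp (2 * L - (9 * Q + 48 * m) * Y) := hε.trans (Real.exp_le_exp.2 (by linarith))
  have c : Real.exp (5 * L) * Real.exp (Q * Y) * Real.exp (2 * L - (9 * Q + 48 * m) * Y) ≤
      η * Real.exp (-(48 * m)) := by
    rw [← Real.exp_add, ← Real.exp_add]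
    conv_rhs => rw [← Real.exp_log η0, ← Real.exp_add]
    rw [Real.log_inv] at hY
    exact Real.exp_le_exp.2 (by nlinarith)
  have d : 48 * Real.exp (-(48 * m)) ≤ 1 / m := by
    rw [Real.exp_neg, ← div_eq_mul_inv, div_le_div_iff₀ (Real.exp_pos _) (by linarith)]
    linarith [Real.add_one_le_exp (48 * m)]
  rw [mul_div_assoc, a]
  calc _ ≤ Real.exp (5 * L) * (2 * Real.exp (Q * Y) * (16 * Real.exp (2 * L - (9 * Q + 48 * m) * Y) +
        8 * Real.exp (2 * L - (9 * Q + 48 * m) * Y))) := by gcongr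
    _ = 48 * (Real.exp (5 * L) * Real.exp (Q * Y) * Real.exp (2 * L - (9 * Q + 48 * m) * Y)) := by
      ring
    _ ≤ 48 * (η * Real.exp (-(48 * m))) := by gcongr
    _ = η * (48 * Real.exp (-(48 * m))) := by ring
    _ ≤ _ := (mul_le_mul_of_nonneg_left d η0.le).trans_eq (mul_one_div _ _)

section
variable {T T' : TS Unit} {st : T.C → ℕ} {st' : T'.C → ℕ} (e : T.C ≃ T'.C)

theorem cst_congr (hl : ∀ c, st c = st' (e c))
    (hD : ∀ c c', (T.stg st).D c c' = (T'.stg st').D (e c) (e c'))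
    (lb : ℕ → ℝ) (j : ℕ) : T.cst st lb j = T'.cst st' lb j := by
  let f : {c // (T.stg st).lev c = j} ≃ {c // (T'.stg st').lev c = j} :=
    e.subtypeEquiv fun c => by rw [TS.stg_lev, TS.stg_lev, hl]
  have a : (T.stg st).ct j = (T'.stg st').ct j := by
    rw [TS.ct, TS.ct, ← Rf.th_equiv _ f]
    congr 1
    exact Matrix.ext fun c c' => hD c.1 c'.1
  have b : (T.stg st).R j = (T'.stg st').R j := by
    rw [TS.R, TS.R, ← Fintype.card_subtype, ← Fintype.card_subtype]; exact Fintype.card_congr f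
  rw [TS.cst, TS.cst, a, b]

theorem qf_congr (hD : ∀ c c', (T.stg st).D c c' = (T'.stg st').D (e c) (e c')) {y : T.C → ℤ}
    {y' : T'.C → ℤ} (hy : ∀ c, y c = y' (e c)) :
    qf (T.stg st).D (zc y) = qf (T'.stg st').D (zc y') := by
  simp only [qf, dotProduct, mulVec, hD, zc, hy]
  exact (sum_congr rfl fun c _ => congrArg _
    (e.sum_comp fun c' => (T'.stg st').D (e c) c' * y' c')).trans
      (e.sum_comp fun c => (y' c : ℝ) * ∑ c', (T'.stg st').D c c' * y' c')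
end

variable {τ0 : Type} {T : TS Unit} {S0 : Sh Unit τ0} {st : T.C → ℕ} {M : ℕ} {Ψ0 : T.Twd S0}
  {v : Matrix (Option S0.W) (Option S0.W) ℝ} {a : ℝ}

theorem D_eq (hst : TSt) (hs : T.Stg st M) (hA : T.Adm S0 st Ψ0) (o : S0.Ok) (hv : S0.Tk v a)
    (b : T.Cw S0 → ℤ) (x x' : T.Tc S0) : ((T.tan S0 Ψ0 v b).stg (T.ts S0 st M)).D x x' =
      ((T.tan S0 Ψ0 v 0).stg (T.ts S0 st M)).D x x' :=
  ((hst τ0 T S0 st M Ψ0 v a b hs hA o hv).2.2.2 x x').trans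
    ((hst τ0 T S0 st M Ψ0 v a 0 hs hA o hv).2.2.2 x x').symm

theorem cst_eq (hst : TSt) (hs : T.Stg st M) (hA : T.Adm S0 st Ψ0) (o : S0.Ok) (hv : S0.Tk v a)
    (b : T.Cw S0 → ℤ) (lb : ℕ → ℝ) (j : ℕ) : (T.tan S0 Ψ0 v b).cst (T.ts S0 st M) lb j =
      (T.tan S0 Ψ0 v 0).cst (T.ts S0 st M) lb j :=
  cst_congr (T := T.tan S0 Ψ0 v b) (T' := T.tan S0 Ψ0 v 0) (Equiv.refl (T.Tc S0)) (fun _ => rfl)
    (D_eq hst hs hA o hv b) lb j

theorem qf_eq (hst : TSt) (hs : T.Stg st M) (hA : T.Adm S0 st Ψ0) (o : S0.Ok) (hv : S0.Tk v a)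
    (b : T.Cw S0 → ℤ) (y : T.Tc S0 → ℤ) : qf ((T.tan S0 Ψ0 v b).stg (T.ts S0 st M)).D (zc y) =
      qf ((T.tan S0 Ψ0 v 0).stg (T.ts S0 st M)).D (zc y) :=
  qf_congr (T := T.tan S0 Ψ0 v b) (T' := T.tan S0 Ψ0 v 0) (Equiv.refl (T.Tc S0))
    (D_eq hst hs hA o hv b) fun _ => rfl

variable {P a' l : ℝ} {κ : ℕ → ℕ → ℝ} {lb lb' : ℕ → ℝ} {t n : ℕ}

theorem sem {C0 N : ℕ} (hC : ∀ t ≤ M, RGS M t C0) (hs : T.Stg st M) (k : T.RgP st M P a' l κ lb)
    (l0 : 0 ≤ l) (t1 : 0 < t) (tM : t ≤ M) (N1 : 1 ≤ N) {m G e : ℝ} (m1 : 1 ≤ m) (mG : m ≤ G)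
    (e0 : 0 ≤ e) (he : e ≤ G * (1 + l + ∑ j ∈ Icc t M, T.cst st lb j))
    (r : (N + 1 : ℝ) ^ C0 * (1 + G) ≤ P) : T.Sem st t N ((⨅ j, κ t j) / m) (Real.exp (-e)) := by
  obtain ⟨t', rfl⟩ : ∃ t', t = t' + 1 := ⟨t - 1, by omega⟩
  have q : (0 : ℝ) < (N + 1) ^ C0 := by positivity
  have X0 := k.sum_nonneg hs.tri (t' + 1) le_rfl
  refine hC t' (by omega) Unit T st _ _ _ hs N1 (Real.exp_pos _) (Real.exp_le_one_iff.2
    (by linarith)) (TS.rgS_iff.2 ⟨κ, lb, k.mono (by omega) ((le_mul_of_one_le_right q.le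
      (by linarith)).trans r) (fun s i j => ?_) fun s i => ?_⟩)
  · obtain ⟨y, -, y'⟩ := k.lo s (by omega)
    have z : P * κ s j ≤ ⨅ j, κ (t' + 1) j := le_ciInf fun i => k.sep _ tM s (by omega) i j
    rw [le_div_iff₀ (by linarith), mul_right_comm]
    refine le_trans (mul_le_mul_of_nonneg_right (le_trans ?_ r) (y.le.trans (y' j).1)) z
    exact mul_le_mul_of_nonneg_left (by linarith) q.le
  · have s1 := k.sum_nonneg hs.tri s (show t' ≤ M by omega)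
    have i' := mem_Icc.1 i
    have : ∑ j ∈ Icc s M, T.cst st lb j = ∑ j ∈ Icc s t', T.cst st lb j +
        ∑ j ∈ Icc (t' + 1) M, T.cst st lb j := by
      rw [← sum_union (by rw [disjoint_left]; simp; omega)]
      exact sum_congr (by ext; simp; omega) fun _ _ => rfl
    rw [this, ← Real.exp_neg, neg_neg, Real.log_exp]
    generalize ∑ j ∈ Icc s t', T.cst st lb j = Z at *
    generalize ∑ j ∈ Icc (t' + 1) M, T.cst st lb j = X at *
    calc _ ≤ (N + 1 : ℝ) ^ C0 * ((1 + G) * (1 + l + (Z + X))) :=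
          mul_le_mul_of_nonneg_left (by nlinarith [mul_nonneg (by linarith : 0 ≤ G) s1]) q.le
      _ ≤ _ := by rw [← mul_assoc]; exact mul_le_mul_of_nonneg_right r (by linarith)

theorem prod_ct (hs : T.Stg st M) (hA : T.Adm S0 st Ψ0) (hS : S0.Sz n a)
    (k : T.RgP st M P a' l κ lb) (la : ∀ s ≤ M, lb s ≤ a) : ∏ j ∈ Icc t M, (T.lw S0 st Ψ0).ct j ≤
      Real.exp (n * ∑ j ∈ Icc t M, T.cst st lb j) := by
  have lt := TS.lw_tri hs hA hS.toOk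
  rw [mul_sum, Real.exp_sum]
  refine prod_le_prod (fun j _ => zero_le_one.trans (TS.one_le_ct lt j)) fun j hj => ?_
  obtain ⟨y, y', -⟩ := k.lo j (mem_Icc.1 hj).2
  exact (Real.log_le_iff_le_exp (zero_lt_one.trans_le (TS.one_le_ct lt j))).1
    ((lwc Unit τ0 T S0 st Ψ0 M n j a _ hs hA hS y y' (la j (mem_Icc.1 hj).2)).2.trans
      (mul_le_mul_of_nonneg_left (add_le_add_right (mul_le_mul_of_nonneg_left
        (le_add_of_nonneg_left zero_le_one) (Nat.cast_nonneg _)) _) n.cast_nonneg))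

theorem cst_le (hco : TCo) (hs : T.Stg st M) (hA : T.Adm S0 st Ψ0) (hS : S0.Sz n a)
    (hv : S0.Tk v a) (a0 : 0 < a) (a1 : a ≤ 1) (k : T.RgP st M P a' l κ lb) {w : ℝ} (w0 : 0 < w)
    (hb : ∀ j, w ≤ lb' j ∧ lb' j ≤ 1) (la : ∀ s ≤ M, lb s ≤ w * a) (x : T.Tc S0) :
    ∑ j ∈ Icc (T.ts S0 st M x) (tM M), (T.tan S0 Ψ0 v 0).cst (T.ts S0 st M) lb' j ≤
      (M + 1) * (n + 1) * ∑ j ∈ Icc (st x.1.1) M, T.cst st lb j := by
  have := hco τ0 T S0 st M n Ψ0 v a (1 + Real.log w⁻¹) 0 x hs hA hS.toOk hS.card hv a0 a1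
    (by linarith [TS.log_inv_nonneg w0 ((hb 0).1.trans (hb 0).2)])
  refine le_trans (sum_le_sum fun j _ => ?_) (this.trans (mul_le_mul_of_nonneg_left
    (sum_le_sum fun j hj => ?_) (by positivity)))
  · exact add_le_add_right (mul_le_mul_of_nonneg_left (add_le_add_right (Real.log_le_log
      (inv_pos.2 (w0.trans_le (hb j).1)) (inv_anti₀ w0 (hb j).1)) _) (Nat.cast_nonneg _)) _
  · refine add_le_add_right (mul_le_mul_of_nonneg_left ?_ (Nat.cast_nonneg _)) _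
    rw [add_assoc, ← Real.log_mul (inv_pos.2 w0).ne' (inv_pos.2 a0).ne', ← mul_inv]
    exact add_le_add_right (Real.log_le_log (inv_pos.2 (mul_pos w0 a0))
      (inv_anti₀ (k.lo j (mem_Icc.1 hj).2).1 (la j (mem_Icc.1 hj).2))) _

theorem num1 {a w P N Q y : ℝ} (a0 : 0 < a) (w1 : 1 ≤ w) (N1 : 1 ≤ N) (Q1 : 1 ≤ Q)
    (r : 4 * N * Q * w ≤ P) (y0 : 0 < y) (h : P * y ≤ a * a) :
    N * y ≤ a * (a / w) / 2 ∧ y ≤ a / w * a ∧ y ≤ a * a := by
  have e : N * w ≤ N * Q * w := by gcongr; nlinarith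
  have e1 : w ≤ N * w := by nlinarith
  have e2 := mul_le_mul_of_nonneg_right (show 4 * (N * w) ≤ P by linarith) y0.le
  refine ⟨?_, ?_, by nlinarith⟩
  · rw [mul_div_assoc', div_div, le_div_iff₀ (by linarith)]; nlinarith
  · rw [div_mul_eq_mul_div, le_div_iff₀ (by linarith)]; nlinarith

theorem num2 {a w P N Q Y y z x L : ℝ} (a0 : 0 < a) (w1 : 1 ≤ w) (N1 : 1 ≤ N) (Q1 : 1 ≤ Q)
    (Y1 : 1 ≤ Y) (r : 4 * N * Q * w ≤ P) (y0 : 0 < y) (h : y ≤ a * a) (hz : a / w ≤ z)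
    (hL : L ≤ Q * Y) (hx : x ≤ L / z) : N * (2 * z * x) ≤ a * z / 2 * (P * Y / y) := by
  have z0 : 0 < z := (div_pos a0 (by linarith)).trans_le hz
  rw [le_div_iff₀ z0] at hx
  rw [mul_div_assoc', le_div_iff₀ y0]
  have y1 : N * (2 * z * x) ≤ N * (2 * (Q * Y)) := mul_le_mul_of_nonneg_left (by linarith)
    (by linarith)
  have y3 : 4 * N * Q * (a * a) ≤ a * z * P := by
    have := mul_le_mul hz r (by positivity) z0.le
    rw [show a / w * (4 * N * Q * w) = 4 * N * Q * a by field_simp] at this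
    nlinarith
  calc _ ≤ N * (2 * (Q * Y)) * (a * a) := mul_le_mul y1 h y0.le (by positivity)
    _ = 4 * N * Q * (a * a) * (Y / 2) := by ring
    _ ≤ a * z * P * (Y / 2) := by gcongr
    _ = _ := by ring

theorem num3 {p M n l X Z : ℝ} (p1 : 1 ≤ p) (M0 : 0 ≤ M) (n0 : 0 ≤ n) (l0 : 0 ≤ l) (Z0 : 0 ≤ Z)
    (h : Z ≤ (M + 1) * (n + 1) * X) : n + 1 ≤ p * ((M + 1) * (n + 1)) ∧ Z ≤ p * (1 + l + Z) ∧
      p * (1 + l + Z) ≤ p * ((M + 1) * (n + 1)) * (1 + l + X) := by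
  have a := mul_nonneg M0 n0
  refine ⟨by nlinarith [mul_nonneg (sub_nonneg.2 p1) a], by nlinarith, ?_⟩
  rw [mul_assoc]
  refine mul_le_mul_of_nonneg_left ?_ (by linarith)
  nlinarith [mul_nonneg (by positivity : (0 : ℝ) ≤ M * n + M + n) (by linarith : 0 ≤ 1 + l)]

theorem num4 {N g Y : ℝ} (N1 : 1 ≤ N) (g0 : 0 ≤ g) (Y1 : 1 ≤ Y) : N ≤ N * (g + 2) ∧
    N * (g * Y + 2) ≤ N * (g + 2) * Y ∧ g * Y ≤ N * (g * Y + 2) ∧ 0 ≤ N * (g * Y + 2) := by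
  have a : 0 ≤ g * Y := by positivity
  refine ⟨by nlinarith, ?_, by nlinarith, by positivity⟩
  rw [mul_assoc]; exact mul_le_mul_of_nonneg_left (by nlinarith) (by linarith)

/-- one stage of the tangent tower -/
theorem one (hst : TSt) (hco : TCo) (hct : TCt) {c C0 : ℕ} (hp : TPk M c)
    (hC : ∀ t ≤ M, RGS M t C0) (hs : T.Stg st M) (hA : T.Adm S0 st Ψ0) (hS : S0.Sz n a)
    (hv : S0.Tk v a) (a0 : 0 < a) (a1 : a ≤ 1) {η p : ℝ} (η0 : 0 < η) (η1 : η ≤ 1)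
    (k : T.RgP st M P a' (Real.log η⁻¹) κ lb) (ha : a' ≤ a * a)
    (p1 : 1 ≤ p) {w : ℝ} (w1 : 1 ≤ w) (hb : ∀ j, a / w ≤ lb' j ∧ lb' j ≤ 1) {N N2 : ℕ}
    (hN : (n + 1) * (2 * 2 ^ M + 1) ≤ N) (hN2 : N2 = (N + 2) ^ c) {Q : ℝ}
    (hQ : Q = p * ((M + 1) * (n + 1)))
    (r1 : ((N2 + N : ℕ) + 1 : ℝ) ^ C0 * (1 + N2 * (9 * Q + 48 * tM M + 2)) ≤ P)
    (r2 : 4 * N2 * Q * w ≤ P) (m : (T.lw S0 st Ψ0).Mas (1 / 2)) (u : ℕ) {L : ℝ}
    (hL : L = p * (1 + Real.log η⁻¹ + ∑ j ∈ Icc u (tM M),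
      (T.tan S0 Ψ0 v 0).cst (T.ts S0 st M) lb' j)) :
    (T.tw S0 Ψ0).P {b | ¬ (T.tan S0 Ψ0 v b).SymS (T.ts S0 st M) u (fun _ => lb' u) (L / lb' u)
      (Real.exp (-L))} ≤ η / tM M := by
  have M1 : (1 : ℝ) ≤ tM M := by exact_mod_cast Nat.one_le_pow _ _ (Nat.succ_pos M)
  have tr := TS.tw_tri hs.cl hA hS.toOk
  by_cases ex : ∃ x, T.ts S0 st M x = u
  swap
  · refine le_trans (tr.P_mono (t := ∅) ?_) (by rw [TS.P_empty]; positivity)
    intro b h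
    refine h fun l col q q0 q1 _ => ?_
    obtain ⟨x, hx⟩ := Function.ne_iff.1 q0
    exact (ex ⟨x, (q1 x hx).1⟩).elim
  obtain ⟨x, hu⟩ := ex
  have s0 := (hst τ0 T S0 st M Ψ0 v a 0 hs hA hS.toOk hv).1
  have uM : u ≤ tM M := hu ▸ hs.ts_le x
  have t1 := hs.pos x.1.1
  have tM' := (hs.le x.1.1).1
  have l0 := TS.log_inv_nonneg η0 η1
  have X0 := k.sum_nonneg hs.tri (st x.1.1) le_rfl
  have n0 : (0 : ℝ) ≤ n := n.cast_nonneg
  have N1 : 1 ≤ N2 := hN2 ▸ Nat.one_le_pow _ _ (by omega)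
  have N1' : (1 : ℝ) ≤ N2 := by exact_mod_cast N1
  have Nr : ((N : ℝ) + 2) ^ c = N2 := by rw [hN2]; push_cast; rfl
  have lw : 0 < a / w := div_pos a0 (by linarith)
  have b0 : ∀ j, 0 < lb' j := fun j => lw.trans_le (hb j).1
  have c0 : ∀ j, 0 ≤ (T.tan S0 Ψ0 v 0).cst (T.ts S0 st M) lb' j := fun j =>
    TS.cst_nonneg s0.tri (b0 j) (hb j).2
  have Z0 := sum_nonneg fun j (_ : j ∈ Icc u (tM M)) => c0 j
  have Q1 : (n : ℝ) + 1 ≤ Q := hQ ▸ (num3 (X := 0) p1 M.cast_nonneg n0 l0 le_rfl (by simp)).1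
  have κP := fun s (e : s ≤ M) j => num1 a0 w1 N1' (by linarith) r2
    ((k.lo s e).1.trans_le ((k.lo s e).2.2 j).1) (((k.lo s e).2.2 j).2.trans ha)
  have la : ∀ s ≤ M, lb s ≤ a / w * a := fun s e => ((k.lo s e).2.2 0).1.trans (κP s e 0).2.1
  have e1 := cst_le (Ψ0 := Ψ0) hco hs hA hS hv a0 a1 k lw hb la x
  rw [hu] at e1
  obtain ⟨-, cL, LQ⟩ := num3 p1 M.cast_nonneg n0 l0 Z0 e1
  rw [← hL] at cL LQ
  rw [← hQ] at LQ
  replace cL := (single_le_sum (fun j (_ : j ∈ Icc u (tM M)) => c0 j)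
    (mem_Icc.2 ⟨le_rfl, uM⟩)).trans cL
  have L0 : 0 ≤ L := (c0 u).trans cL
  have pr := prod_ct (t := st x.1.1) hs hA hS k fun s e => (la s e).trans
    (mul_le_of_le_one_left a0.le ((hb 0).1.trans (hb 0).2))
  have sy := k.sym _ (mem_Icc.2 ⟨t1, tM'⟩)
  have Y1 : 1 ≤ 1 + Real.log η⁻¹ + ∑ j ∈ Icc (st x.1.1) M, T.cst st lb j := by linarith
  obtain ⟨g1, g2, g3, g4⟩ := num4 (g := 9 * Q + 48 * tM M) N1' (by linarith) Y1
  have se := sem (N := N2 + N) hC hs k l0 t1 tM' (by omega) N1' g1 g4 g2 r1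
  replace pr := pr.trans (Real.exp_le_exp.2 (mul_le_mul (show (n : ℝ) ≤ Q by linarith) (show _ ≤
    1 + Real.log η⁻¹ + ∑ j ∈ Icc (st x.1.1) M, T.cst st lb j by linarith) X0 (by linarith)))
  have Yl : 1 + Real.log η⁻¹ ≤ 1 + Real.log η⁻¹ + ∑ j ∈ Icc (st x.1.1) M, T.cst st lb j := by
    linarith
  generalize 1 + Real.log η⁻¹ + ∑ j ∈ Icc (st x.1.1) M, T.cst st lb j = Y at *
  have GP : N2 * (9 * Q + 48 * tM M + 2) ≤ P := le_trans (le_add_of_nonneg_left zero_le_one)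
    ((le_mul_of_one_le_left (by linarith) (one_le_pow₀ (le_add_of_nonneg_left
      (Nat.cast_nonneg _)))).trans r1)
  have gP := g2.trans (mul_le_mul_of_nonneg_right GP (by linarith))
  obtain ⟨b1, b2, b3⟩ := k.lo _ tM'
  have bd : BddBelow (Set.range (κ (st x.1.1))) := ⟨_, by rintro _ ⟨j, rfl⟩; exact (b3 j).1⟩
  have lbb : lb (st x.1.1) ≤ ⨅ j, κ (st x.1.1) j := le_ciInf fun j => (b3 j).1
  have κa : ∀ j, N2 * κ (st x.1.1) j ≤ a * lb' u / 2 := fun j =>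
    (κP _ tM' j).1.trans (by gcongr; exact (hb u).1)
  obtain ⟨K, K1, K2⟩ := hct Unit _ u L (lb' u) s0.tri (b0 u) (hb u).2
  classical
  obtain ⟨K', hK'⟩ : ∃ K' : Finset (T.Tc S0 → ℤ), ∀ q, q ∈ K' ↔ q ∈ K ∧ q ≠ 0 ∧
      (∀ y, q y ≠ 0 → T.ts S0 st M y = u) ∧
      qf ((T.tan S0 Ψ0 v 0).stg (T.ts S0 st M)).D (zc q) ≤ L / lb' u := ⟨_, fun q => mem_filter⟩
  have pk := fun q (hq : q ∈ K') => hp τ0 T S0 st Ψ0 v n N (st x.1.1) u (T.nl S0 x) (fun _ => ()) q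
    a (lb' u) _ _ _ _ (Real.exp (-L)) (Real.exp (-((9 * Q + 48 * tM M) * Y))) _ hs hA hS hv a0 a1
    (b0 u) (hb u).2 hN (b1.trans_le lbb) (fun j => ⟨ciInf_le bd j, Nr ▸ κa j⟩) (Real.exp_pos _)
    (Real.exp_le_one_iff.2 (neg_nonpos.2 g4)) (Real.exp_pos _).le
    (by rw [Nr, ← hN2]; exact se.mono (by omega) le_rfl le_rfl)
    (se.mono (by omega) ((div_le_self (b1.le.trans lbb) N1').trans ((ciInf_le bd 0).trans
      ((le_mul_of_one_le_left (b1.le.trans (b3 0).1) N1').trans (κa 0)))) le_rfl) sy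
    ((hK' q).1 hq).2.1 (fun y hy => ⟨((hK' q).1 hq).2.2.1 y hy,
      hs.ts_inj.1 ((((hK' q).1 hq).2.2.1 y hy).trans hu.symm)⟩)
    (Nr ▸ num2 a0 w1 N1' (by linarith) Y1 r2 b1 ((b3 0).1.trans (κP _ tM' 0).2.2) (hb u).1 LQ
      ((hK' q).1 hq).2.2.2) (fun y hy => root_le N1
      (Real.exp_le_exp.2 (neg_le_neg gP)) (by rwa [Nr, ← hN2] at hy)) (Real.exp_pos _) m
  have s1 := (tr.P_biUnion K' fun q => {y | Real.exp (-L) < (T.tan S0 Ψ0 v y).sbS (T.ts S0 st M) u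
    (fun _ : Fin (T.nl S0 x) => ()) (fun _ => lb' u) q}).trans (sum_le_sum pk)
  rw [sum_const] at s1
  refine le_trans (tr.P_mono ?_) (s1.trans ?_)
  · intro b h
    by_contra z
    refine h fun l' col q q0 q1 q2 => not_lt.1 fun q3 => z ⟨q, (hK' q).2 ⟨K2 q (fun y hy =>
      (TS.stg_lev y).trans (q1 y hy).1) ((qf_eq hst hs hA hS.toOk hv b q).ge.trans q2), q0,
        fun y hy => (q1 y hy).1, (qf_eq hst hs hA hS.toOk hv b q).ge.trans q2⟩, ?_⟩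
    obtain ⟨y, hy⟩ := Function.ne_iff.1 q0
    have e1 : T.nl S0 y = l' := by
      have := congrArg Finsupp.degree (q1 y hy).2
      rw [map_sum] at this
      simp only [Finsupp.degree_single, sum_const, card_univ, Fintype.card_fin, smul_eq_mul,
        mul_one] at this
      exact (Finsupp.degree_single _ _).symm.trans this
    obtain rfl : l' = T.nl S0 x := e1.symm.trans (hs.ts_inj.1 ((q1 y hy).1.trans hu.symm)).2
    exact q3
  · rw [nsmul_eq_mul]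
    refine tail η0 M1 L0 (by linarith) Yl Y1 LQ ?_ (prod_nonneg fun j _ => zero_le_one.trans
      (TS.one_le_ct (TS.lw_tri hs hA hS.toOk) j)) pr (Real.exp_pos _).le
      (Real.exp_le_exp.2 (neg_le_neg g3))
    refine (Nat.cast_le.2 (card_le_card fun q hq => ((hK' q).1 hq).1)).trans (K1.trans (Real.exp_le_exp.2 ?_))
    have : Real.log (((T.tan S0 Ψ0 v 0).stg (T.ts S0 st M)).ct u) +
        ((T.tan S0 Ψ0 v 0).stg (T.ts S0 st M)).R u * Real.log (lb' u)⁻¹ ≤ L :=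
      le_trans (add_le_add_right (mul_le_mul_of_nonneg_left (le_add_of_nonneg_left zero_le_one)
        (Nat.cast_nonneg _)) _) cL
    linarith [mul_le_mul_of_nonneg_right Real.pi_lt_four.le L0]

theorem num5 {n A B C0 : ℕ} (h : n ≤ A) (h' : 1 ≤ B) : 2 * (n + 1) ^ C0 ≤ (A + 1) ^ C0 * (1 + B) := by
  rw [mul_comm]; exact Nat.mul_le_mul (Nat.pow_le_pow_left (by omega) _) (by omega)

end Tf

open Tf

theorem tfin2 : TFin := by
  intro hst hco hct M c C' hc hp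
  obtain ⟨C0, hC⟩ := rgs_all hc
  have p1 : Pb fun n => (n + 1) ^ C' := (Pb.id.add (.c 1)).pow _
  have p2 : Pb fun n => (n + 1) * (2 * 2 ^ M + 1) := (Pb.id.add (.c 1)).mul (.c _)
  have p3 := (p2.add (.c 2)).pow c
  have p4 := p1.mul ((Pb.c (M + 1)).mul (Pb.id.add (.c 1)))
  obtain ⟨C, hE⟩ := ((((p3.add p2).add (.c 1)).pow C0).mul ((Pb.c 1).add (p3.mul
    ((((Pb.c 9).mul p4).add (.c (48 * tM M))).add (.c 2))))).add
      ((((Pb.c 4).mul p3).mul p4).mul (p1.pow (tM M + 1)))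
  refine ⟨C, 0, fun τ0 T S0 st Ψ0 v n n' a a' η hs hA hS hv a0 a1 η0 η1 nn ha hr => ?_⟩
  obtain ⟨κ, lb, k⟩ := TS.rgS_iff.1 hr
  rw [pow_zero, one_mul] at ha
  have E := (hE n).trans (Nat.pow_le_pow_left (show n + 2 ≤ n' + 1 by omega) C)
  have r1 := (Nat.le_add_right _ _).trans E
  have r2 := (Nat.le_add_left _ _).trans E
  have r3 := (num5 (n := n) (le_add_left ((Nat.le_succ n).trans (Nat.le_mul_of_pos_right _
    (Nat.succ_pos _)))) (Nat.one_le_iff_ne_zero.2 (by positivity))).trans r1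
  clear E hE p1 p2 p3 p4
  have n0 : (0 : ℝ) ≤ n := n.cast_nonneg
  have q1 : (1 : ℝ) ≤ (n + 1) ^ C' := one_le_pow₀ (by linarith)
  have tr := TS.tw_tri hs.cl hA hS.toOk
  have a2 : a' ≤ a * a := ha.trans ((pow_le_pow_of_le_one a0.le a1 (by norm_num)).trans_eq (sq a))
  have m : (T.lw S0 st Ψ0).Mas (1 / 2) := by
    have y : 2 * ((n : ℝ) + 1) ^ C0 ≤ (n' + 1) ^ C := by exact_mod_cast r3
    have y0 : (0 : ℝ) ≤ (n + 1) ^ C0 := by positivity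
    refine (hC M le_rfl).mast Unit τ0 T S0 st Ψ0 n a _ ⟨hs, hA, by norm_num, by norm_num,
      hr.mono'' hs.tri η0 η1 one_le_two y (mul_le_mul (by linarith) (a2.trans
        (mul_le_of_le_one_left a0.le a1)) hr.pos.le (by positivity)) ?_, hS⟩
    linarith [TS.log_inv_nonneg η0 η1, Real.log_le_sub_one_of_pos (show (0 : ℝ) < (1 / 2)⁻¹ by
      norm_num)]
  have M1 : (0 : ℝ) < tM M := by exact_mod_cast Nat.one_le_pow _ _ (Nat.succ_pos M)
  obtain ⟨lb', e⟩ : ∃ lb' : ℕ → ℝ, ∀ u, lb' u = a / ((n + 1) ^ C') ^ (tM M - u + 1) :=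
    ⟨_, fun _ => rfl⟩
  have hb : ∀ j, a / ((n + 1) ^ C') ^ (tM M + 1) ≤ lb' j ∧ lb' j ≤ 1 := fun j => by
    rw [e]
    exact ⟨div_le_div_of_nonneg_left a0.le (by positivity) (pow_le_pow_right₀ q1 (by omega)),
      (div_le_self a0.le (one_le_pow₀ q1)).trans a1⟩
  have o := fun u => one hst hco hct hp hC hs hA hS hv a0 a1 η0 η1 k a2 q1 (one_le_pow₀ q1) hb le_rfl
    rfl rfl (by exact_mod_cast r1) (by exact_mod_cast r2) m u rfl
  have s1 := (tr.P_biUnion (Icc 1 (tM M)) _).trans (sum_le_sum fun u _ => o u)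
  rw [sum_const] at s1
  refine le_trans (tr.P_mono ?_) (s1.trans ?_)
  · intro b h
    by_contra z
    refine h (TS.rgS_iff.2 ⟨fun u _ => lb' u, lb', fun t _ => ⟨(div_pos a0 (by positivity)).trans_le
      (hb t).1, (hb t).2, fun _ => ⟨le_rfl, ?_⟩⟩, fun t i t' i' _ _ => ?_, fun u hu => ?_⟩)
    · rw [e, pow_succ, mul_comm (_ ^ (_ - _)), ← div_div, mul_div_assoc',
        mul_div_cancel₀ _ (by positivity)]
      exact div_le_self a0.le (one_le_pow₀ q1)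
    · rw [e, e, pow_succ _ (tM M - t'), mul_comm (_ ^ (_ - _)), ← div_div, mul_div_assoc',
        mul_div_cancel₀ _ (by positivity)]
      exact div_le_div_of_nonneg_left a0.le (by positivity) (pow_le_pow_right₀ q1 (by omega))
    · simp only [cst_eq hst hs hA hS.toOk hv b]
      exact of_not_not fun y => z ⟨u, hu, y⟩
  · rw [Nat.card_Icc, nsmul_eq_mul, Nat.add_sub_cancel, mul_div_cancel₀ _ M1.ne']

end Crest.Agent.N49.Tw

end
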