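import Crest.Agent.N49.Tn.Alg

/-!
# Row 49 (helper49): images of configurations of a product ring as coefficients
-/

set_option autoImplicit false
set_option linter.unusedSectionVars false

open Matrix MvPolynomial Finset

noncomputable section

namespace Crest.Agent.N49.Tw.TS

variable {τ0 τ τ' ι ι' : Type} {T : TS Unit} {S0 : Sh Unit τ0} {S : Sh Unit τ} {S' : Sh Unit τ'}
  {v : Matrix (Option S0.W) (Option S0.W) ℝ}

/-- the matrix `φ` reads a linear functional of `m0 o * g (m w)` -/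
theorem hm_co (Ψ0 : T.Twd S0) (b : T.Cw S0 → ℤ) (h : S.Ok) (φ : Matrix S'.W (S0.ten S v).W ℤ)
    (m0 : Option S0.W → MvPolynomial ι' ℝ) (m : S.W → MvPolynomial ι ℝ)
    (g : MvPolynomial ι ℝ →ₗ[ℝ] MvPolynomial ι' ℝ) (l : MvPolynomial ι' ℝ →ₗ[ℝ] ℝ) (p : T.Cw S')
    (h0 : ∀ w, (φ p.1.2 (Sh.i0 S w) : ℝ) = l (m0 (some w)))
    (h1 : ∀ o w, (φ p.1.2 (⟨(o, some w), by simp⟩ : Sh.TW S0 S) : ℝ) = l (m0 o * g (m w)))
    {Y : T.Cw (S0.ten S v) → ℤ} {y : (T.tan S0 Ψ0 v b).Cw S → ℤ}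
    (e0 : ∀ p, Y (T.tE S0 S v Ψ0 b h (.inl p)) = b p)
    (e1 : ∀ q, Y (T.tE S0 S v Ψ0 b h (.inr q)) = y q) :
    (T.hm (S0.ten S v) S' φ Y p : ℝ) =
      l (∑ p0 : T.Cw S0 with p0.1.1 = p.1.1, (b p0 : ℝ) • m0 (some p0.1.2) +
        ∑ x : T.Tc S0 with x.1.1 = p.1.1, m0 x.1.2 *
          g (∑ q : (T.tan S0 Ψ0 v b).Cw S with q.1.1 = x, (y q : ℝ) • m q.1.2)) := by
  rw [hm, sum_tE b Ψ0 h, Int.cast_add, add_comm, map_add, map_sum, map_sum, Int.cast_sum,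
    Int.cast_sum]
  refine congrArg₂ _ (sum_congr rfl fun p0 _ => ?_) (sum_congr rfl fun x _ => ?_)
  · rw [e0, map_smul, ← h0, Int.cast_mul, mul_comm]; rfl
  · rw [map_sum, mul_sum, map_sum, Int.cast_sum]
    refine sum_congr rfl fun q hq => ?_
    obtain rfl := (mem_flt.1 hq).2
    rw [e1, map_smul, mul_smul_comm, map_smul, ← h1, Int.cast_mul, mul_comm]; rfl

end Crest.Agent.N49.Tw.TS

end
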