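import Crest.Agent.N49.Tw.Mast0
import Crest.Agent.N49.Tw.Dbl
import Crest.Agent.N49.Tw.Chg

/-!
# Row 49 (helper81): fibred structures
-/

set_option autoImplicit false
set_option linter.unusedSectionVars false

open Matrix MvPolynomial Finset

noncomputable section

namespace Crest.Agent.N49.Tw

open Po Db

namespace Tg

section raw
variable {X Y C : Type} (E : X ⊕ Y ≃ C)

/-- join two configurations -/
def jE {R : Type} (x : X → R) (y : Y → R) : C → R := fun c => Sum.elim x y (E.symm c)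

@[simp] theorem jE_inl {R : Type} (x : X → R) (y : Y → R) (a : X) : jE E x y (E (.inl a)) = x a := by
  simp [jE]

@[simp] theorem jE_inr {R : Type} (x : X → R) (y : Y → R) (a : Y) : jE E x y (E (.inr a)) = y a := by
  simp [jE]

theorem jext {R : Type} {f g : C → R} (h0 : ∀ a, f (E (.inl a)) = g (E (.inl a)))
    (h1 : ∀ a, f (E (.inr a)) = g (E (.inr a))) : f = g := funext fun c => by
  obtain ⟨a | a, rfl⟩ := E.surjective c
  exacts [h0 a, h1 a]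

theorem zc_jE (x : X → ℤ) (y : Y → ℤ) : zc (jE E x y) = jE E (zc x) (zc y) :=
  jext E (by simp [zc]) (by simp [zc])

/-- the splitting of the configurations -/
def jQ : (X → ℤ) × (Y → ℤ) ≃ (C → ℤ) where
  toFun x := jE E x.1 x.2
  invFun y := (fun a => y (E (.inl a)), fun a => y (E (.inr a)))
  left_inv x := by simp
  right_inv y := jext E (by simp) (by simp)

theorem hasSum_jE {F : (C → ℤ) → ℂ} (h : Summable F) :
    HasSum (fun a => ∑' z, F (jE E a z)) (∑' y, F y) :=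
  ((jQ E).hasSum_iff.2 h.hasSum).prod_fiberwise fun a =>
    (((jQ E).summable_iff.2 h).prod_factor a).hasSum

variable {E} {r : C → Prop} {r0 : X → Prop} {r1 : Y → Prop}

/-- the restriction to a set of coordinates -/
def rE (h0 : ∀ x, r (E (.inl x)) ↔ r0 x) (h1 : ∀ y, r (E (.inr y)) ↔ r1 y) :
    {x // r0 x} ⊕ {y // r1 y} ≃ {c // r c} :=
  Equiv.ofBijective (Sum.elim (fun x => ⟨E (.inl x.1), (h0 _).2 x.2⟩)
    fun y => ⟨E (.inr y.1), (h1 _).2 y.2⟩) ⟨by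
      rintro (x | x) (x' | x') k <;> simp_all [Subtype.ext_iff], by
      rintro ⟨c, hc⟩
      obtain ⟨a | a, rfl⟩ := E.surjective c
      exacts [⟨.inl ⟨a, (h0 a).1 hc⟩, rfl⟩, ⟨.inr ⟨a, (h1 a).1 hc⟩, rfl⟩]⟩

theorem res_jE {R : Type} (h0 : ∀ x, r (E (.inl x)) ↔ r0 x) (h1 : ∀ y, r (E (.inr y)) ↔ r1 y)
    (x : X → R) (y : Y → R) : (fun c : {c // r c} => jE E x y c.1) =
      jE (rE h0 h1) (fun c => x c.1) fun c => y c.1 :=
  jext (rE h0 h1) (fun a => by rw [jE_inl]; exact jE_inl E x y a.1)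
    fun a => by rw [jE_inr]; exact jE_inr E x y a.1

theorem glue_jE [DecidablePred r] [DecidablePred r0] [DecidablePred r1]
    (h0 : ∀ x, r (E (.inl x)) ↔ r0 x) (h1 : ∀ y, r (E (.inr y)) ↔ r1 y)
    (a : {x // r0 x} → ℤ) (z : {y // r1 y} → ℤ) :
    glue r (jE (rE h0 h1) a z) 0 = jE E (glue r0 a 0) (glue r1 z 0) := by
  refine jext E (fun x => ?_) fun x => ?_
  · rw [jE_inl]
    by_cases k : r0 x
    · rw [glue_pos _ _ k, glue_pos _ _ ((h0 x).2 k)]; exact jE_inl (rE h0 h1) a z ⟨x, k⟩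
    · rw [glue_neg _ _ k, glue_neg _ _ (mt (h0 x).1 k)]; rfl
  · rw [jE_inr]
    by_cases k : r1 x
    · rw [glue_pos _ _ k, glue_pos _ _ ((h1 x).2 k)]; exact jE_inr (rE h0 h1) a z ⟨x, k⟩
    · rw [glue_neg _ _ k, glue_neg _ _ (mt (h1 x).1 k)]; rfl

variable (E) in
/-- block diagonal matrices -/
def Bd (M : Matrix C C ℝ) (M0 : Matrix X X ℝ) (M1 : Matrix Y Y ℝ) : Prop :=
  M.submatrix E E = fromBlocks M0 0 0 M1

variable {M N : Matrix C C ℝ} {M0 N0 : Matrix X X ℝ} {M1 N1 : Matrix Y Y ℝ}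

theorem Bd.pp (h : Bd E M M0 M1) (h0 : ∀ x, r (E (.inl x)) ↔ r0 x)
    (h1 : ∀ y, r (E (.inr y)) ↔ r1 y) : Bd (rE h0 h1) (pp r M) (pp r0 M0) (pp r1 M1) := by
  refine Matrix.ext ?_
  rintro (x | x) (x' | x')
  exacts [congrFun₂ h (.inl x.1) (.inl x'.1), congrFun₂ h (.inl x.1) (.inr x'.1),
    congrFun₂ h (.inr x.1) (.inl x'.1), congrFun₂ h (.inr x.1) (.inr x'.1)]

theorem Bd.tr (h : Bd E M M0 M1) : Bd E Mᵀ M0ᵀ M1ᵀ := by
  rw [Bd, ← transpose_submatrix, h, fromBlocks_transpose, transpose_zero, transpose_zero]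

variable [Fintype X] [Fintype Y] [Fintype C]

theorem Bd.mul (h : Bd E M M0 M1) (k : Bd E N N0 N1) : Bd E (M * N) (M0 * N0) (M1 * N1) := by
  rw [Bd, ← submatrix_mul_equiv M N E E E, h, k, fromBlocks_multiply]; simp

theorem dot_jE (a x : X → ℝ) (b y : Y → ℝ) : jE E a b ⬝ᵥ jE E x y = a ⬝ᵥ x + b ⬝ᵥ y := by
  rw [dotProduct, ← E.sum_comp]; simp [dotProduct]

theorem Bd.mv (h : Bd E M M0 M1) (x : X → ℝ) (y : Y → ℝ) :
    M *ᵥ jE E x y = jE E (M0 *ᵥ x) (M1 *ᵥ y) := by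
  have e : ∀ s, (M *ᵥ jE E x y) (E s) = (fromBlocks M0 0 0 M1 *ᵥ Sum.elim x y) s := fun s => by
    rw [← h, submatrix_mulVec_equiv]; rfl
  refine jext E (fun a => ?_) fun a => ?_ <;> simp [e, fromBlocks_mulVec]

theorem Bd.qf (h : Bd E M M0 M1) (x : X → ℝ) (y : Y → ℝ) :
    qf M (jE E x y) = qf M0 x + qf M1 y := by rw [Po.qf, h.mv, dot_jE]; rfl

theorem Bd.gs (h : Bd E M M0 M1) (x : X → ℝ) (y : Y → ℝ) :
    gs M (jE E x y) = gs M0 x * gs M1 y := by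
  rw [Po.gs, h.qf, Po.gs, Po.gs, ← Real.exp_add]; congr 1; ring

variable [DecidableEq X] [DecidableEq Y] [DecidableEq C]

theorem Bd.inv (h : Bd E M M0 M1) (h0 : M0.det ≠ 0) (h1 : M1.det ≠ 0) : Bd E M⁻¹ M0⁻¹ M1⁻¹ := by
  rw [Bd, ← inv_submatrix_equiv, h]
  refine inv_eq_right_inv ?_
  rw [fromBlocks_multiply, mul_nonsing_inv _ h0.isUnit, mul_nonsing_inv _ h1.isUnit]; simp

theorem Bd.dt (h : Bd E M M0 M1) (h0 : M0.PosDef) : dt M = dt M0 * dt M1 := by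
  rw [Po.dt, ← det_submatrix_equiv_self E, h, det_fromBlocks_zero₂₁, Real.sqrt_mul h0.det_pos.le,
    mul_inv]; rfl

end raw

theorem ee_neg (t : ℝ) : ee (-t) = (starRingEnd ℂ) (ee t) := by
  rw [ee, ee, ← Complex.exp_conj]; congr 1; simp [map_ofNat]

theorem ph_zero (T : TS Unit) (y : T.C → ℤ) : T.ph 0 y = 1 := by
  rw [TS.ph, zc_zero, zero_dotProduct, ee_zero]

theorem ph_neg (T : TS Unit) (k y : T.C → ℤ) : T.ph (-k) y = (starRingEnd ℂ) (T.ph k y) := by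
  rw [TS.ph, zc_neg, neg_dotProduct, ee_neg, TS.ph]

/-- the weight of the errors in `r` -/
def mq (T : TS Unit) (r : T.C → Prop) [DecidablePred r] (y : T.C → ℤ) : ℝ :=
  gs (pp r T.K)⁻¹ fun c : {c // r c} => T.u (zc y) c.1

theorem wt_mq (T : TS Unit) (t : ℕ) (y : {c // T.lev c < t} → ℤ) :
    (T.lt t).wt y = mq T (fun c => T.lev c < t) (glue _ y 0) :=
  congrArg (gs _) (funext fun c => (T.u_cut _ 0 _ c).trans
    (congrArg (T.u · c.1) (zc_glue (p := fun c => T.lev c < t) y 0).symm))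

theorem mq_low {T : TS Unit} (h : T.Tri) (t : ℕ) {y y' : T.C → ℤ}
    (e : ∀ c, T.lev c < t → y c = y' c) :
    mq T (fun c => T.lev c < t) y = mq T (fun c => T.lev c < t) y' :=
  congrArg (gs _) (funext fun c => h.u_le fun j k => by simp [zc, e j (k.trans_lt c.2)])

/-- `L` is fibred over `L0`, with the fibre `W` over `b` -/
structure Fb (L L0 W : TS Unit) (E : L0.C ⊕ W.C ≃ L.C) (b : L0.C → ℤ) : Prop where
  t : L.Tri
  t0 : L0.Tri
  t1 : W.Tri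
  K : Bd E L.K L0.K W.K
  A : Bd E L.A L0.A W.A
  u : ∀ z : W.C → ℤ, L.u (zc (jE E b z)) = jE E (L0.u (zc b)) (W.u (zc z))

variable {L L0 W : TS Unit} {E : L0.C ⊕ W.C ≃ L.C} {b : L0.C → ℤ}

theorem Fb.D (h : Fb L L0 W E b) : Bd E L.D L0.D W.D :=
  ((h.A.inv h.t0.det h.t1.det).mul h.K).mul (h.A.inv h.t0.det h.t1.det).tr

theorem Fb.ph (h : Fb L L0 W E b) (k0 : L0.C → ℤ) (k1 z : W.C → ℤ) :
    L.ph (jE E k0 k1) (jE E b z) = L0.ph k0 b * W.ph k1 z := by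
  have : L.th (zc (jE E b z)) = jE E (L0.th (zc b)) (W.th (zc z)) := by
    rw [TS.th, h.u, (h.A.inv h.t0.det h.t1.det).mv, zc_jE]
    exact jext E (by simp [TS.th]) (by simp [TS.th])
  rw [TS.ph, this, zc_jE, dot_jE, ee_add]; rfl

variable {t t0 t1 : ℕ}

theorem Fb.mq (h : Fb L L0 W E b) (h0 : ∀ x, L.lev (E (.inl x)) < t ↔ L0.lev x < t0)
    (h1 : ∀ x, L.lev (E (.inr x)) < t ↔ W.lev x < t1) (z : W.C → ℤ) :
    mq L (fun c => L.lev c < t) (jE E b z) =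
      mq L0 (fun c => L0.lev c < t0) b * mq W (fun c => W.lev c < t1) z := by
  rw [Tg.mq, h.u, res_jE h0 h1]
  exact ((h.K.pp h0 h1).inv (pd_pp h.t0.pd).det_pos.ne' (pd_pp h.t1.pd).det_pos.ne').gs _ _

theorem Fb.Zc (h : Fb L L0 W E b) (h0 : ∀ x, L.lev (E (.inl x)) < t ↔ L0.lev x < t0)
    (h1 : ∀ x, L.lev (E (.inr x)) < t ↔ W.lev x < t1) :
    (L.lt t).Zc = (L0.lt t0).Zc * (W.lt t1).Zc := by
  rw [TS.Zc, TS.Zc, TS.Zc, h.t.Di_lt, h.t0.Di_lt, h.t1.Di_lt]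
  exact ((h.D.inv h.t0.pd_D.det_pos.ne' h.t1.pd_D.det_pos.ne').pp h0 h1).dt (pd_pp h.t0.pd_Di)

variable {W0 : TS Unit} {Φ : (L0.C → ℤ) → W0.C → MvPolynomial W0.C ℝ} {F : L0.C ⊕ W0.C ≃ L.C}

/-- Fubini for the truncated laws -/
theorem fub (h : ∀ b, Fb L L0 (W0.setΦ (Φ b)) F b)
    (h0 : ∀ x, L.lev (F (.inl x)) < t ↔ L0.lev x < t0)
    (h1 : ∀ x, L.lev (F (.inr x)) < t ↔ W0.lev x < t1) {G : (L.C → ℤ) → ℂ} (hG : ∀ y, ‖G y‖ ≤ 1) :
    HasSum (fun a : {c // L0.lev c < t0} → ℤ => ((L0.lt t0).wt a : ℂ) *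
      ((W0.setΦ (Φ (glue _ a 0))).lt t1).Sc fun z : {c // W0.lev c < t1} → ℤ =>
        G (jE F (glue _ a 0) (glue _ z 0)))
      ((L.lt t).Sc fun y : {c // L.lev c < t} → ℤ => G (glue _ y 0)) := by
  have s : Summable fun y : {c // L.lev c < t} → ℤ => ((L.lt t).wt y : ℂ) * G (glue _ y 0) :=
    ((h 0).t.lt t).smc (.of fun _ => hG _)
  refine HasSum.congr' (hasSum_jE (rE h0 h1) s) fun a => ?_
  refine Eq.trans (tsum_congr fun z => ?_) tsum_mul_left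
  have e := (h (glue _ a 0)).mq h0 h1 (glue (fun c : W0.C => W0.lev c < t1) z 0 : W0.C → ℤ)
  rw [wt_mq, glue_jE h0 h1, wt_mq, ← mul_assoc]
  exact congrArg₂ (· * ·) ((congrArg _ (e.trans (congrArg _
    (wt_mq (W0.setΦ (Φ (glue _ a 0))) t1 z).symm))).trans (Complex.ofReal_mul _ _))
    (congrArg G (glue_jE h0 h1 a z))

/-- the truncated fibres depend on the truncated base only -/
theorem fib_low (h : ∀ b, Fb L L0 (W0.setΦ (Φ b)) F b)
    (h0 : ∀ x, L.lev (F (.inl x)) < t ↔ L0.lev x < t0)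
    (h1 : ∀ x, L.lev (F (.inr x)) < t ↔ W0.lev x < t1) {b b' : L0.C → ℤ}
    (e : ∀ c, L0.lev c < t0 → b c = b' c) {k : W0.C → ℤ} (hk : ∀ x, k x ≠ 0 → L.lev (F (.inr x)) ≤ t) :
    (W0.setΦ (Φ b)).bias t1 k = (W0.setΦ (Φ b')).bias t1 k := by
  have j : ∀ z c, L.lev c < t → jE F b z c = jE F b' z c := fun z c hc => by
    obtain ⟨a | a, rfl⟩ := F.surjective c
    · simp [e a ((h0 a).1 hc)]
    · simp
  have w : ∀ z : {c // W0.lev c < t1} → ℤ,
      ((W0.setΦ (Φ b)).lt t1).wt z = ((W0.setΦ (Φ b')).lt t1).wt z := fun z => by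
    have := ((h b).mq h0 h1 _).symm.trans ((mq_low (h b).t t
      (j (glue (fun c => W0.lev c < t1) z 0))).trans ((h b').mq h0 h1 _))
    rw [mq_low (h b).t0 t0 e] at this
    exact (wt_mq (W0.setΦ (Φ b)) t1 z).trans ((mul_left_cancel₀ (gs_pos _ _).ne' this).trans
      (wt_mq (W0.setΦ (Φ b')) t1 z).symm)
  have p : ∀ z, (W0.setΦ (Φ b)).ph k z = (W0.setΦ (Φ b')).ph k z := fun z => by
    have := (h b).t.ph_low (k := jE F 0 k) (l := t) (fun c hc => by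
      obtain ⟨a | a, rfl⟩ := F.surjective c
      · simp
      · rw [jE_inr]; exact by_contra fun n => (hk a n).not_gt hc) (j z)
    have := ((h b).ph 0 k z).symm.trans (this.trans ((h b').ph 0 k z))
    rwa [ph_zero, ph_zero, one_mul, one_mul] at this
  exact congrArg norm (congrArg₂ (· / ·) (tsum_congr fun z => congrArg₂ (· * ·)
    (congrArg _ (w z)) (p _)) (congrArg _ (tsum_congr w)))

end Tg

end Crest.Agent.N49.Tw

end
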