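import Crest.Agent.N49.Tn.P0

/-!
# Row 49 (helper81): the second moment of the bias of a fibre
-/

set_option autoImplicit false

open Matrix MvPolynomial Finset

noncomputable section

namespace Crest.Agent.N49.Tw

open Po Db

namespace Tg

theorem cheb {X : Type} {w Z N : X → ℝ} {z0 z1 z2 m c0 c1 η β τ : ℝ} (w0 : ∀ a, 0 ≤ w a)
    (s0 : HasSum w z0) (s1 : HasSum (fun a => w a * Z a) z1)
    (s2 : HasSum (fun a => w a * Z a ^ 2) z2) (s3 : HasSum (fun a => w a * N a ^ 2) m)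
    (p1 : 0 < c1) (hτ : 0 < τ) (Z0 : ∀ a, 0 < Z a) (a0 : z0 ≤ (1 + η) * c0)
    (a1 : (1 - η) * (c0 * c1) ≤ z1) (a2 : z2 ≤ (1 + η) * (c0 * c1 ^ 2))
    (a3 : m ≤ 2 * β * (c0 * c1 ^ 2)) :
    ∑' a, w a * {a | τ < N a / Z a}.indicator 1 a ≤ c0 * (16 * η + 8 * β / τ ^ 2) := by
  have h := (((s2.sub (s1.mul_left (2 * c1))).add (s0.mul_left (c1 ^ 2))).mul_left (4 / c1 ^ 2)).add
    (s3.mul_left (4 / (τ ^ 2 * c1 ^ 2)))
  have k : ∀ a, w a * {a | τ < N a / Z a}.indicator 1 a ≤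
      4 / c1 ^ 2 * (w a * Z a ^ 2 - 2 * c1 * (w a * Z a) + c1 ^ 2 * w a) +
        4 / (τ ^ 2 * c1 ^ 2) * (w a * N a ^ 2) := fun a => by
    rw [show 4 / c1 ^ 2 * (w a * Z a ^ 2 - 2 * c1 * (w a * Z a) + c1 ^ 2 * w a) +
      4 / (τ ^ 2 * c1 ^ 2) * (w a * N a ^ 2) = w a * ((2 * (Z a - c1) / c1) ^ 2 +
        (2 * N a / (τ * c1)) ^ 2) by field_simp; ring]
    refine mul_le_mul_of_nonneg_left ?_ (w0 a)
    by_cases e : τ < N a / Z a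
    · rw [Set.indicator_of_mem (show a ∈ {a | τ < N a / Z a} from e), Pi.one_apply]
      rw [lt_div_iff₀ (Z0 a)] at e
      rcases le_total (2 * Z a) c1 with q | q
      · have : 2 * (Z a - c1) / c1 ≤ -1 := by rw [div_le_iff₀ p1]; linarith
        nlinarith [sq_nonneg (2 * N a / (τ * c1))]
      · have : 1 ≤ 2 * N a / (τ * c1) := by rw [le_div_iff₀ (by positivity)]; nlinarith
        nlinarith [sq_nonneg (2 * (Z a - c1) / c1)]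
    · rw [Set.indicator_of_notMem (show a ∉ {a | τ < N a / Z a} from e)]; positivity
  refine ((h.summable.of_nonneg_of_le (fun a => mul_nonneg (w0 a) (ind_nonneg _ a)) k).tsum_le_tsum
    k h.summable).trans (h.tsum_eq.trans_le ?_)
  have b1 : z2 - 2 * c1 * z1 + c1 ^ 2 * z0 ≤ 4 * η * (c0 * c1 ^ 2) := by
    nlinarith [mul_le_mul_of_nonneg_left a1 p1.le, mul_le_mul_of_nonneg_left a0 (sq_nonneg c1)]
  refine (add_le_add (mul_le_mul_of_nonneg_left b1 (by positivity))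
    (mul_le_mul_of_nonneg_left a3 (by positivity))).trans_eq ?_
  field_simp; ring

theorem Sc_one (T : TS Unit) : (T.Sc fun _ => 1) = T.Z := by rw [TS.Sc_const, mul_one]

theorem norm_ph (T : TS Unit) (k y : T.C → ℤ) : ‖T.ph k y‖ ≤ 1 := (norm_ee _).le

/-- the unnormalised bias -/
def nb (T : TS Unit) (t : ℕ) (k : T.C → ℤ) : ℂ :=
  (T.lt t).Sc fun z => T.ph k (glue (fun c => T.lev c < t) z 0)

theorem bias_div (T : TS Unit) (t : ℕ) (k : T.C → ℤ) : T.bias t k = ‖nb T t k‖ / (T.lt t).Z :=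
  (norm_div _ _).trans (congrArg _ (Complex.norm_of_nonneg (T.lt t).Z_nonneg))

theorem nb_zero (T : TS Unit) (t : ℕ) : nb T t 0 = (T.lt t).Z :=
  (congrArg (T.lt t).Sc (funext fun _ => ph_zero _ _)).trans (Sc_one _)

theorem nb_neg (T : TS Unit) (t : ℕ) (k : T.C → ℤ) : nb T t (-k) = (starRingEnd ℂ) (nb T t k) :=
  (congrArg (T.lt t).Sc (funext fun _ => ph_neg _ _ _)).trans ((T.lt t).Sc_conj _)

section
variable {L L0 W0 : TS Unit} {Φ : (L0.C → ℤ) → W0.C → MvPolynomial W0.C ℝ}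
  {F : L0.C ⊕ W0.C ≃ L.C} {t t0 t1 : ℕ}

theorem fub_nb (h : ∀ b, Fb L L0 (W0.setΦ (Φ b)) F b)
    (h0 : ∀ x, L.lev (F (.inl x)) < t ↔ L0.lev x < t0)
    (h1 : ∀ x, L.lev (F (.inr x)) < t ↔ W0.lev x < t1) (k0 : L0.C → ℤ) (k1 : W0.C → ℤ) :
    HasSum (fun a : {c // L0.lev c < t0} → ℤ => ((L0.lt t0).wt a : ℂ) * L0.ph k0 (glue _ a 0) *
      nb (W0.setΦ (Φ (glue _ a 0))) t1 k1) (nb L t (jE F k0 k1)) :=
  HasSum.congr' (fub h h0 h1 (norm_ph L (jE F k0 k1))) fun a => (congrArg _ ((congrArg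
    ((W0.setΦ (Φ (glue _ a 0))).lt t1).Sc (funext fun _ => (h _).ph _ _ _)).trans
      (TS.Sc_mul _ _ _))).trans (mul_assoc _ _ _).symm

theorem fub_re (h : ∀ b, Fb L L0 (W0.setΦ (Φ b)) F b)
    (h0 : ∀ x, L.lev (F (.inl x)) < t ↔ L0.lev x < t0)
    (h1 : ∀ x, L.lev (F (.inr x)) < t ↔ W0.lev x < t1) (k1 : W0.C → ℤ)
    {f : (L0.C → ℤ) → ℝ} (e : ∀ b, nb (W0.setΦ (Φ b)) t1 k1 = f b) :
    HasSum (fun a : {c // L0.lev c < t0} → ℤ => (L0.lt t0).wt a * f (glue _ a 0))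
      (nb L t (jE F 0 k1)).re :=
  HasSum.congr' (Complex.hasSum_re (fub_nb h h0 h1 0 k1)) fun a => by
    rw [ph_zero, mul_one, e, ← Complex.ofReal_mul, Complex.ofReal_re]

theorem fub_Z (h : ∀ b, Fb L L0 (W0.setΦ (Φ b)) F b)
    (h0 : ∀ x, L.lev (F (.inl x)) < t ↔ L0.lev x < t0)
    (h1 : ∀ x, L.lev (F (.inr x)) < t ↔ W0.lev x < t1) :
    HasSum (fun a : {c // L0.lev c < t0} → ℤ => (L0.lt t0).wt a *
      ((W0.setΦ (Φ (glue _ a 0))).lt t1).Z) (L.lt t).Z := by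
  have := fub_re h h0 h1 0 fun b => nb_zero _ _
  rwa [show jE F (0 : L0.C → ℤ) 0 = 0 from jext F (by simp) (by simp), nb_zero,
    Complex.ofReal_re] at this

end

variable {V W : TS Unit} {E : W.C ⊕ W.C ≃ V.C} {s : ℕ}

theorem two (h : ∀ z, Fb V W W E z) (h0 : ∀ x, V.lev (E (.inl x)) < s ↔ W.lev x < s)
    (h1 : ∀ x, V.lev (E (.inr x)) < s ↔ W.lev x < s) (k : W.C → ℤ) :
    nb V s (jE E k (-k)) = ((‖nb W s k‖ ^ 2 : ℝ) : ℂ) := by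
  refine (fub_nb (W0 := W) (Φ := fun _ => W.Φ) h h0 h1 k (-k)).tsum_eq.symm.trans ?_
  rw [← Complex.normSq_eq_norm_sq, ← Complex.mul_conj, ← nb_neg]
  exact tsum_mul_right

theorem twoZ (h : ∀ z, Fb V W W E z) (h0 : ∀ x, V.lev (E (.inl x)) < s ↔ W.lev x < s)
    (h1 : ∀ x, V.lev (E (.inr x)) < s ↔ W.lev x < s) : (V.lt s).Z = (W.lt s).Z ^ 2 :=
  (fub_Z (W0 := W) (Φ := fun _ => W.Φ) h h0 h1).tsum_eq.symm.trans (tsum_mul_right.trans (sq _).symm)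

variable {L0 L1 L2 W0 V0 : TS Unit} {Φ : (L0.C → ℤ) → W0.C → MvPolynomial W0.C ℝ}
  {Φ' : (L0.C → ℤ) → V0.C → MvPolynomial V0.C ℝ} {E1 : L0.C ⊕ W0.C ≃ L1.C}
  {E2 : L0.C ⊕ V0.C ≃ L2.C} {E3 : W0.C ⊕ W0.C ≃ V0.C} {t : ℕ}

/-- **most fibres have a small bias** -/
theorem mom (f1 : ∀ b, Fb L1 L0 (W0.setΦ (Φ b)) E1 b) (f2 : ∀ b, Fb L2 L0 (V0.setΦ (Φ' b)) E2 b)
    (f3 : ∀ b z, Fb (V0.setΦ (Φ' b)) (W0.setΦ (Φ b)) (W0.setΦ (Φ b)) E3 z)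
    (l1 : ∀ x, L1.lev (E1 (.inl x)) < t ↔ L0.lev x < t)
    (r1 : ∀ x, L1.lev (E1 (.inr x)) < t ↔ W0.lev x < s)
    (l2 : ∀ x, L2.lev (E2 (.inl x)) < t ↔ L0.lev x < t)
    (r2 : ∀ x, L2.lev (E2 (.inr x)) < t ↔ V0.lev x < s)
    (l3 : ∀ x, V0.lev (E3 (.inl x)) < s ↔ W0.lev x < s)
    (r3 : ∀ x, V0.lev (E3 (.inr x)) < s ↔ W0.lev x < s) {η β τ : ℝ} (h1 : η ≤ 1) (hτ : 0 < τ)
    (m0 : (L0.lt t).Mas η) (m1 : (L1.lt t).Mas η) (m2 : (L2.lt t).Mas η) {k : W0.C → ℤ}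
    (hb : L2.bias t (jE E2 0 (jE E3 k (-k))) ≤ β) :
    (L0.lt t).S ({a : {c // L0.lev c < t} → ℤ |
      τ < (W0.setΦ (Φ (glue _ a 0))).bias s k}.indicator 1) / (L0.lt t).Zc ≤
      16 * η + 8 * β / τ ^ 2 := by
  have t0 := (f1 0).t0.lt t
  have t2 := (f2 0).t.lt t
  have c0 := t0.Zc_pos
  have c2 := t2.Zc_pos
  have z1 : (L1.lt t).Zc = (L0.lt t).Zc * ((W0.setΦ (Φ 0)).lt s).Zc := (f1 0).Zc l1 r1
  have z3 : ((V0.setΦ (Φ' 0)).lt s).Zc = ((W0.setΦ (Φ 0)).lt s).Zc * ((W0.setΦ (Φ 0)).lt s).Zc :=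
    (f3 0 0).Zc l3 r3
  have z2 : (L2.lt t).Zc = (L0.lt t).Zc * ((V0.setΦ (Φ' 0)).lt s).Zc := (f2 0).Zc l2 r2
  rw [z3, ← sq] at z2
  have β0 : 0 ≤ β := (norm_nonneg _).trans hb
  rw [bias_div, div_le_iff₀ t2.Z_pos] at hb
  rw [div_le_iff₀' c0]
  have e2 : (L2.lt t).Z ≤ (1 + η) * (L2.lt t).Zc := by linarith [(abs_le.1 m2).2]
  have s0 : HasSum (fun a : {c // L0.lev c < t} → ℤ => (L0.lt t).wt a) (L0.lt t).Z :=
    t0.summable.hasSum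
  have q2 : ∀ b, ((V0.setΦ (Φ' b)).lt s).Z = ((W0.setΦ (Φ b)).lt s).Z ^ 2 :=
    fun b => twoZ (f3 b) l3 r3
  have q3 : ∀ b, nb (V0.setΦ (Φ' b)) s (jE E3 k (-k)) =
      ((‖nb (W0.setΦ (Φ b)) s k‖ ^ 2 : ℝ) : ℂ) := fun b => two (f3 b) l3 r3 k
  have s2 := fub_Z f2 l2 r2
  simp only [q2] at s2
  have := cheb (c1 := ((W0.setΦ (Φ 0)).lt s).Zc) (β := β) (η := η) (c0 := (L0.lt t).Zc)
    (Z := fun a : {c // L0.lev c < t} → ℤ => ((W0.setΦ (Φ (glue _ a 0))).lt s).Z)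
    (N := fun a : {c // L0.lev c < t} → ℤ => ‖nb (W0.setΦ (Φ (glue _ a 0))) s k‖)
    (fun a => ((L0.lt t).wt_pos a).le) s0 (fub_Z f1 l1 r1) s2
    (fub_re f2 l2 r2 _ q3) ((f1 0).t1.lt s).Zc_pos hτ (fun a => ((f1 _).t1.lt s).Z_pos)
    (by linarith [(abs_le.1 m0).2]) (by rw [← z1]; linarith [(abs_le.1 m1).1])
    (by rw [← z2]; exact e2) (by
      rw [← z2]
      refine ((Complex.re_le_norm _).trans hb).trans ?_
      nlinarith [mul_le_mul_of_nonneg_left e2 β0, mul_nonneg β0 c2.le])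
  refine le_of_eq_of_le (tsum_congr fun a => congrArg _ (congrArg (Set.indicator · 1 a) ?_)) this
  exact Set.ext fun a => iff_of_eq (congrArg (τ < ·) (bias_div _ _ _))

end Tg

end Crest.Agent.N49.Tw

end
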