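import Crest.Agent.N49.Tn.St

/-!
# Row 49 (helper81): tangent towers, analytic leaves (FROZEN statements)
-/

set_option autoImplicit false

open Matrix MvPolynomial Finset

noncomputable section

namespace Crest.Agent.N49.Tw

open Po

/-- leaf: from the truncated law to the full law -/
def TTl : Prop := ∀ (σ : Type) (T : TS σ) (t s : ℕ) (g : ((T.lt t).C → ℤ) → ℝ), T.Tri →
  (∀ c, T.lev c ≤ s) → t ≤ s → T.Mas (1 / 2) → (∀ a, 0 ≤ g a ∧ g a ≤ 1) →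
  T.E (fun y => g fun c : {c // T.lev c < t} => y c.1) ≤
    2 * (∏ j ∈ Icc t s, T.ct j) * ((T.lt t).S g / (T.lt t).Zc)

/-- leaf: the symbol shape with a constant variance -/
def TSy : Prop := ∀ (M l : ℕ) (col : Fin l → Unit) (a : ℝ), l ≤ M → 0 < a →
  (Sh.sym col fun _ => a).Sz (2 ^ M) a ∧ (∀ w, (Sh.sym col fun _ => a).dg w ≤ l) ∧
  ∀ (T : TS Unit) (D : Matrix T.C T.C ℝ) (k : T.C → ℤ), 1 ≤ l → (∀ F, k F ≠ 0 → T.lev F = l) →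
    qf (T.kw (Sh.sym col fun _ => a) D (Sh.sym col fun _ => a).K)
      (zc fun p => if (Sh.sym col fun _ => a).dg p.1.2 = l then k p.1.1 else 0) = a * qf D (zc k) ∧
    (k ≠ 0 → ∃ p : T.Cw (Sh.sym col fun _ => a),
      (Sh.sym col fun _ => a).dg p.1.2 = l ∧ k p.1.1 ≠ 0)

/-- leaf: the number of short frequencies -/
def TCt : Prop := ∀ (σ : Type) (T : TS σ) (t : ℕ) (L b : ℝ), T.Tri → 0 < b → b ≤ 1 →
  ∃ K : Finset (T.C → ℤ), (#K : ℝ) ≤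
      Real.exp (Real.pi * L + (Real.log (T.ct t) + T.R t * Real.log b⁻¹)) ∧
    ∀ k : T.C → ℤ, (∀ c, k c ≠ 0 → T.lev c = t) → qf T.D (zc k) ≤ L / b → k ∈ K

/-- one frequency of the tangent tower has a small symbol bias at most backgrounds -/
def TPk (M c : ℕ) : Prop := ∀ (τ0 : Type) (T : TS Unit) (S0 : Sh Unit τ0) (st : T.C → ℕ)
  (Ψ0 : T.Twd S0) (v : Matrix (Option S0.W) (Option S0.W) ℝ) (n N t t' l : ℕ) (col : Fin l → Unit)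
  (k : T.Tc S0 → ℤ) (a a1 b η R τ0 τ' β : ℝ) (κ : ℕ → ℝ), T.Stg st M → T.Adm S0 st Ψ0 →
  S0.Sz n a → S0.Tk v a → 0 < a → a ≤ 1 → 0 < a1 → a1 ≤ 1 → (n + 1) * (2 * 2 ^ M + 1) ≤ N →
  0 < b → (∀ j, b ≤ κ j ∧ (N + 2) ^ c * κ j ≤ a * a1 / 2) → 0 < η → η ≤ 1 → 0 ≤ τ0 →
  T.Sem st t ((N + 2) ^ c) (b / (N + 2) ^ c) η → T.Sem st t N (a * a1 / 2) η →
  T.SymS st t κ R τ0 → k ≠ 0 →
  (∀ x, k x ≠ 0 → T.ts S0 st M x = t' ∧ st x.1.1 = t ∧ T.lev x.1.1 - S0.od x.1.2 = l) →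
  (N + 2) ^ c * (2 * a1 * qf ((T.tan S0 Ψ0 v 0).stg (T.ts S0 st M)).D (zc k)) ≤ a * a1 / 2 * R →
  (∀ x : ℝ, x ^ (N + 2) ^ c ≤ (N + 2) ^ c * (τ0 + η) → x ≤ β) → 0 < τ' →
  (T.lw S0 st Ψ0).Mas (1 / 2) →
  (T.tw S0 Ψ0).P {y | τ' < (T.tan S0 Ψ0 v y).sbS (T.ts S0 st M) t' col (fun _ => a1) k} ≤
    2 * (∏ j ∈ Icc t M, (T.lw S0 st Ψ0).ct j) * (16 * η + 8 * β / τ' ^ 2)

/-- leaf: thresholds and the union bound -/
def TFin : Prop := TSt → TCo → TCt → ∀ M c C', CHAR M c → TPk M c → TANG M C'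

end Crest.Agent.N49.Tw

end
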