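import Crest.Agent.N49.Tn.P1
import Crest.Agent.N49.Tn.Stg
import Crest.Agent.N49.Tn.St2
import Crest.Agent.N49.Tw.Ccs
import Crest.Agent.N49.Tw.ConD

/-!
# Row 49 (helper81): the fibrations of the tangent block
-/

set_option autoImplicit false

open Matrix MvPolynomial Finset

noncomputable section

namespace Crest.Agent.N49.Tw

open Po Db

namespace Tg

/-- a structure from raw data -/
def mk {Y : Type} [Fintype Y] [DecidableEq Y] (l : Y → ℕ) (K : Matrix Y Y ℝ)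
    (Φ : Y → MvPolynomial Y ℝ) : TS Unit where
  C := Y
  deg c := Finsupp.single () (l c)
  Φ := Φ
  K := K

theorem mk_lev {Y : Type} [Fintype Y] [DecidableEq Y] (l : Y → ℕ) (K : Matrix Y Y ℝ)
    (Φ : Y → MvPolynomial Y ℝ) (c : Y) : (mk l K Φ).lev c = l c := Finsupp.degree_single _ _

section dbl
variable {τ : Type} (S : Sh Unit τ)

/-- two independent copies -/
abbrev d2 : Sh Unit τ := S.dbl fun _ => False

/-- the second copy -/
def e2 (w : S.W) : S.DW fun _ => False := .inr ⟨w, not_false⟩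

theorem e2_inj : Function.Injective (e2 S) := fun _ _ e => congrArg (S.fo _) e

theorem ch1 : S.Ch (d2 S) (Sum.inl : S.W → S.DW fun _ => False) where
  inj := Sum.inl_injective
  cd _ := rfl
  r1 w m := by
    refine (Sh.rd_inl w _).trans ((if_pos fun w' =>
      Finsupp.mapDomain_of_notMem_range _ _ (by simp)).trans ?_)
    exact congrArg _ (Finsupp.mapDomain_comp.symm.trans Finsupp.mapDomain_id)
  r2 w (m : S.DW (fun _ => False) →₀ ℕ) (n : S.rd _ (.inl w) m ≠ 0) := by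
    rintro (x | x) hx
    · exact ⟨x, rfl⟩
    · exact (n (if_neg fun z => Finsupp.mem_support_iff.1 hx (z x))).elim

theorem ch2 : S.Ch (d2 S) (e2 S) where
  inj := e2_inj S
  cd _ := rfl
  r1 w m := by
    refine (Sh.rd_inr _ _).trans ((if_pos fun w' _ =>
      Finsupp.mapDomain_of_notMem_range _ _ (by simp [e2])).trans ?_)
    exact congrArg _ (Finsupp.mapDomain_comp.symm.trans Finsupp.mapDomain_id)
  r2 w (m : S.DW (fun _ => False) →₀ ℕ) (n : S.rd _ (e2 S w) m ≠ 0) := by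
    rintro (x | x) hx
    · exact (n (if_neg fun z => Finsupp.mem_support_iff.1 hx (z x not_false))).elim
    · exact ⟨x.1, rfl⟩

variable {S} (U : TS Unit)

theorem bij3 : Function.Bijective (Sum.elim (U.ce (ch1 S)) (U.ce (ch2 S))) := ⟨by
    rintro (x | x) (x' | x') k
    · exact congrArg _ (TS.ce_inj (ch1 S) k)
    · exact (Sum.inl_ne_inr (congrArg (·.1.2) k)).elim
    · exact (Sum.inr_ne_inl (congrArg (·.1.2) k)).elim
    · exact congrArg _ (TS.ce_inj (ch2 S) k), by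
    rintro ⟨⟨F, w | w⟩, h⟩
    exacts [⟨.inl ⟨(F, w), h⟩, rfl⟩, ⟨.inr ⟨(F, w.1), h⟩, rfl⟩]⟩

variable {U} {E : U.Cw S ⊕ U.Cw S ≃ U.Cw (d2 S)}

theorem kill_tw0 (hε : S.ε = 0) {e : S.W → (d2 S).W} (h : S.Ch (d2 S) e) (F : U.C) :
    map (killCompl h.inj).toRingHom (U.tw0 (d2 S) F) = U.tw0 S F := by
  have a : (d2 S).el (R := ℝ) (d2 S).ε = 0 :=
    sum_eq_zero fun w _ => by rw [(Sh.dbl_ε w).trans (congrFun hε _), Pi.zero_apply, zero_smul]
  have b : S.el (R := ℝ) S.ε = 0 := by simp [Sh.el, hε]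
  ext1 m
  rw [coeff_map, TS.coeff_tw0, TS.coeff_tw0, a, b]
  exact (map_smul (killCompl h.inj) _ _).trans (by rw [map_pow, map_zero])

theorem bd_E3 (h1 : ∀ x, E (.inl x) = U.ce (ch1 S) x) (h2 : ∀ x, E (.inr x) = U.ce (ch2 S) x)
    (B : Matrix U.C U.C ℝ) {K : Matrix S.W S.W ℝ} {K' : Matrix (d2 S).W (d2 S).W ℝ}
    (a : ∀ w w', K' (.inl w) (.inl w') = K w w') (b : ∀ w w', K' (.inl w) (e2 S w') = 0)
    (c : ∀ w w', K' (e2 S w) (.inl w') = 0) (d : ∀ w w', K' (e2 S w) (e2 S w') = K w w') :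
    Bd E (U.kw (d2 S) B K') (U.kw S B K) (U.kw S B K) := by
  refine Matrix.ext ?_
  rintro (x | x) (x' | x') <;> simp only [submatrix_apply, h1, h2]
  exacts [congrArg (B _ _ * ·) (a _ _), mul_eq_zero_of_right _ (b _ _),
    mul_eq_zero_of_right _ (c _ _), congrArg (B _ _ * ·) (d _ _)]

variable (U S) in
/-- the errors on a shape -/
def Φs : U.Cw S → MvPolynomial (U.Cw S) ℝ := (U.sh S).Φ

variable (U S) in
/-- the twisted errors -/
def Φw (Ψ : U.Twd S) : U.Cw S → MvPolynomial (U.Cw S) ℝ := (U.tw S Ψ).Φ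

theorem tw0_Φ : Φw S U (U.tw0 S) = Φs S U :=
  funext fun p => congrArg (S.cf _ p.1.2) (TS.eval₂_tw0 _ _)

theorem tw0_u (y : U.Cw S → ℝ) (p : U.Cw S) : (U.tw S (U.tw0 S)).u y p = eval y (Φs S U p) :=
  congrArg (eval y) (congrFun tw0_Φ p)

variable (U S) in
/-- the untwisted law with stages -/
abbrev shs (st : U.C → ℕ) : TS Unit := mk (fun p : U.Cw S => st p.1.1) (U.kw S U.K S.K) (Φs S U)

variable {st : U.C → ℕ} {M : ℕ}

theorem shs_tri (hs : U.Stg st M) (o : S.Ok) : (shs S U st).Tri := by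
  have : (mk (fun p : U.Cw S => st p.1.1) (U.kw S U.K S.K) (Φw S U (U.tw0 S))).Tri :=
    TS.lw_tri hs (hs.adm o) o
  rwa [tw0_Φ] at this

theorem shs_A (hs : U.Stg st M) (o : S.Ok) : (shs S U st).A = U.kw S (U.stg st).A 1 := by
  have : @Eq (Matrix (U.Cw S) (U.Cw S) ℝ)
      (mk (fun p : U.Cw S => st p.1.1) (U.kw S U.K S.K) (Φw S U (U.tw0 S))).A _ :=
    TS.lw_A hs (hs.adm o) o
  rwa [tw0_Φ] at this

theorem shs_D (hs : U.Stg st M) (o : S.Ok) : (shs S U st).D = U.kw S (U.stg st).D S.K := by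
  have : @Eq (Matrix (U.Cw S) (U.Cw S) ℝ)
      (mk (fun p : U.Cw S => st p.1.1) (U.kw S U.K S.K) (Φw S U (U.tw0 S))).D _ :=
    TS.lw_D hs (hs.adm o) o
  rwa [tw0_Φ] at this

theorem fb3 (h1 : ∀ x, E (.inl x) = U.ce (ch1 S) x) (h2 : ∀ x, E (.inr x) = U.ce (ch2 S) x)
    (hs : U.Stg st M) (o : S.Ok) (hε : S.ε = 0) (z : U.Cw S → ℤ) :
    Fb (shs (d2 S) U st) (shs S U st) (shs S U st) E z := by
  have o2 : (d2 S).Ok := Sh.dbl_ok o fun _ _ h => h.elim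
  have t := shs_tri hs o
  refine ⟨shs_tri hs o2, t, t, bd_E3 h1 h2 U.K (fun _ _ => rfl) (fun _ _ => ?_)
    (fun _ _ => ?_) fun _ _ => rfl, ?_, fun z' => jext E (fun x => ?_) fun x => ?_⟩
  · exact sum_eq_zero fun b _ => b.2.elim
  · exact sum_eq_zero fun b _ => b.2.elim
  · rw [shs_A hs o, shs_A hs o2]
    exact bd_E3 h1 h2 _ (congrFun₂ (submatrix_one _ (ch1 S).inj))
      (fun _ _ => one_apply_ne Sum.inl_ne_inr) (fun _ _ => one_apply_ne Sum.inr_ne_inl)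
      (congrFun₂ (submatrix_one _ (ch2 S).inj))
  · refine (tw0_u _ _).symm.trans ((congrArg _ (h1 x)).trans ((TS.u_pb (ch1 S)
      (kill_tw0 hε (ch1 S)) _ x).trans ((tw0_u _ _).trans (Eq.trans ?_ (jE_inl E _ _ x).symm))))
    exact congrArg (fun y => eval y (Φs S U x)) (funext fun p => congrArg Int.cast
      ((congrArg (jE E z z') (h1 p).symm).trans (jE_inl E z z' p)))
  · refine (tw0_u _ _).symm.trans ((congrArg _ (h2 x)).trans ((TS.u_pb (ch2 S)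
      (kill_tw0 hε (ch2 S)) _ x).trans ((tw0_u _ _).trans (Eq.trans ?_ (jE_inr E _ _ x).symm))))
    exact congrArg (fun y => eval y (Φs S U x)) (funext fun p => congrArg Int.cast
      ((congrArg (jE E z z') (h2 p).symm).trans (jE_inr E z z' p)))

end dbl

theorem most (htl : TTl) {L0 L1 L2 : TS Unit} {Y Y' : Type} [Fintype Y] [DecidableEq Y] [Fintype Y']
    [DecidableEq Y'] {l : Y → ℕ} {l' : Y' → ℕ} {K : Matrix Y Y ℝ} {K' : Matrix Y' Y' ℝ}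
    {Φ : (L0.C → ℤ) → Y → MvPolynomial Y ℝ} {Φ' : (L0.C → ℤ) → Y' → MvPolynomial Y' ℝ}
    {E1 : L0.C ⊕ Y ≃ L1.C} {E2 : L0.C ⊕ Y' ≃ L2.C} {E3 : Y ⊕ Y ≃ Y'} {t s M : ℕ}
    (f1 : ∀ b, Fb L1 L0 (mk l K (Φ b)) E1 b) (f2 : ∀ b, Fb L2 L0 (mk l' K' (Φ' b)) E2 b)
    (f3 : ∀ b z, Fb (mk l' K' (Φ' b)) (mk l K (Φ b)) (mk l K (Φ b)) E3 z)
    (l1 : ∀ x, L1.lev (E1 (.inl x)) < t ↔ L0.lev x < t) (r1 : ∀ x, L1.lev (E1 (.inr x)) < t ↔ l x < s)
    (l2 : ∀ x, L2.lev (E2 (.inl x)) < t ↔ L0.lev x < t) (r2 : ∀ x, L2.lev (E2 (.inr x)) < t ↔ l' x < s)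
    (l3 : ∀ x, l' (E3 (.inl x)) = l x) (r3 : ∀ x, l' (E3 (.inr x)) = l x) {η β τ : ℝ} (h1 : η ≤ 1)
    (hτ : 0 < τ) (m0 : (L0.lt t).Mas η) (m1 : (L1.lt t).Mas η) (m2 : (L2.lt t).Mas η) {k : Y → ℤ}
    (hk : ∀ x, k x ≠ 0 → L1.lev (E1 (.inr x)) ≤ t) (hM : ∀ c, L0.lev c ≤ M) (ht : t ≤ M)
    (m : L0.Mas (1 / 2)) (hb : L2.bias t (jE E2 0 (jE E3 k (-k))) ≤ β) :
    L0.P {y | τ < (mk l K (Φ y)).bias s k} ≤
      2 * (∏ j ∈ Icc t M, L0.ct j) * (16 * η + 8 * β / τ ^ 2) := by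
  have r1' : ∀ x, L1.lev (E1 (.inr x)) < t ↔ (mk l K 0).lev x < s := fun x => by rw [mk_lev, r1]
  have a := mom (W0 := mk l K 0) (V0 := mk l' K' 0) (Φ := Φ) (Φ' := Φ') (E1 := E1) (E2 := E2)
    (E3 := E3) f1 f2 f3 l1 r1' l2 (fun x : Y' => by rw [mk_lev]; exact r2 x)
    (fun x : Y => iff_of_eq (congrArg (· < s) ((mk_lev ..).trans ((l3 x).trans (mk_lev ..).symm))))
    (fun x : Y => iff_of_eq (congrArg (· < s) ((mk_lev ..).trans ((r3 x).trans (mk_lev ..).symm)))) h1 hτ m0 m1 m2 hb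
  have t0 := (f1 0).t0
  refine le_trans (le_of_eq_of_le ?_ (htl Unit L0 t M _ t0 hM ht m
    fun a => ⟨ind_nonneg _ a, ind_le _ a⟩)) (mul_le_mul_of_nonneg_left a (mul_nonneg zero_le_two
      (prod_nonneg fun j _ => zero_le_one.trans (TS.one_le_ct t0 j))))
  refine congrArg L0.E (funext fun y => ?_)
  have e := fib_low (W0 := mk l K 0) (Φ := Φ) (F := E1) f1 l1 r1' (b := y)
    (b' := glue (fun c => L0.lev c < t) (fun c => y c.1) 0) 
    (fun c h => (glue_pos (p := fun c => L0.lev c < t) (fun c => y c.1) 0 h).symm) hk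
  exact Set.indicator_eq_indicator (iff_of_eq (congrArg (τ < ·) e)) rfl

theorem qf_two {L0 L2 V W : TS Unit} {E2 : L0.C ⊕ V.C ≃ L2.C} {E3 : W.C ⊕ W.C ≃ V.C} {b z}
    (f2 : Fb L2 L0 V E2 b) (f3 : Fb V W W E3 z) (k : W.C → ℤ) :
    qf L2.D (zc (jE E2 0 (jE E3 k (-k)))) = 2 * qf W.D (zc k) := by
  rw [zc_jE, f2.D.qf, zc_jE, f3.D.qf, zc_zero, qf_zero, zc_neg, qf_neg, zero_add, two_mul]

end Tg

end Crest.Agent.N49.Tw

end
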