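import Crest.Agent.N49.Tn.P2
import Crest.Agent.N49.Tw.Mono

/-!
# Row 49 (helper81): one frequency of the tangent tower (leaf `TPk`)
-/

set_option autoImplicit false

open Matrix MvPolynomial Finset

noncomputable section

namespace Crest.Agent.N49.Tw

open Po Db

namespace Tg

variable {τ0 τ : Type} (T : TS Unit) (S0 : Sh Unit τ0) (S : Sh Unit τ) (st : T.C → ℕ) (M : ℕ)
  (Ψ0 : T.Twd S0) (v : Matrix (Option S0.W) (Option S0.W) ℝ)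

/-- the coordinates of a tangent tower on a shape -/
abbrev TC : Type :=
  {p : T.Tc S0 × S.W // S.cd p.2 = Finsupp.single () (T.lev p.1.1.1 - S0.od p.1.1.2)}

/-- Kronecker products on these coordinates -/
def kt (B : Matrix (T.Tc S0) (T.Tc S0) ℝ) (K : Matrix S.W S.W ℝ) :
    Matrix (TC T S0 S) (TC T S0 S) ℝ := Matrix.of fun p p' => B p.1.1 p'.1.1 * K p.1.2 p'.1.2

/-- the errors of the tangent tower on a shape -/
def tΦ (b : T.Cw S0 → ℤ) : TC T S0 S → MvPolynomial (TC T S0 S) ℝ := Φs S (T.tan S0 Ψ0 v b)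

/-- the law of the tangent tower on a shape -/
abbrev tl (b : T.Cw S0 → ℤ) : TS Unit := mk (fun p : TC T S0 S => T.ts S0 st M p.1.1)
  (kt T S0 S (T.kn S0 T.K v) S.K) (tΦ T S0 S Ψ0 v b)

/-- the coordinates of a product -/
def E1 (o : S.Ok) : T.Cw S0 ⊕ TC T S0 S ≃ T.Cw (S0.ten S v) :=
  Equiv.ofBijective (Sum.elim
    (fun p => ⟨(p.1.1, ⟨(some p.1.2, none), by simp⟩), (T.tE S0 S v 0 0 o (.inl p)).2⟩)
    fun q => ⟨(q.1.1.1.1, ⟨(q.1.1.1.2, some q.1.2), by simp⟩), (T.tE S0 S v 0 0 o (.inr q)).2⟩)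
    (TS.tE_bij (Ψ0 := 0) (b := 0) o)

theorem bij4 : Function.Bijective (Sum.elim (fun x => ⟨(x.1.1, .inl x.1.2), x.2⟩)
    fun x => ⟨(x.1.1, e2 S x.1.2), x.2⟩ : TC T S0 S ⊕ TC T S0 S → TC T S0 (d2 S)) :=
  bij3 (S := S) (T.tan S0 0 0 0)

/-- the coordinates of two copies -/
def E4 : TC T S0 S ⊕ TC T S0 S ≃ TC T S0 (d2 S) := Equiv.ofBijective _ (bij4 T S0 S)

variable {T S0 S st M Ψ0 v}

theorem bd_one (o : S.Ok) (B : Matrix T.C T.C ℝ) : Bd (E1 T S0 S v o) (T.kw (S0.ten S v) B 1)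
    (T.kw S0 B 1) (kt T S0 S (T.kn S0 B 1) 1) := by
  refine Matrix.ext ?_
  rintro (x | x) (x' | x')
  · exact congrArg (B _ _ * ·) (congrFun₂ (submatrix_one
      (fun w : S0.W => (⟨(some w, none), by simp⟩ : Sh.TW S0 S)) fun _ _ e =>
        Option.some_injective _ (congrArg (·.1.1) e)) x.1.2 x'.1.2)
  · exact mul_eq_zero_of_right _ (one_apply_ne fun e => by cases congrArg (·.1.2) e)
  · exact mul_eq_zero_of_right _ (one_apply_ne fun e => by cases congrArg (·.1.2) e)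
  · refine Eq.trans (congrArg (B _ _ * ·) ((congrFun₂ (submatrix_one
      (fun w : Option S0.W × S.W => (⟨(w.1, some w.2), by simp⟩ : Sh.TW S0 S)) fun _ _ e =>
        Prod.ext (congrArg (·.1.1) e) (Option.some_injective _ (congrArg (·.1.2) e)))
          (x.1.1.1.2, x.1.2) (x'.1.1.1.2, x'.1.2)).trans ?_)) (mul_assoc _ _ _).symm
    exact (congrFun₂ one_kronecker_one (x.1.1.1.2, x.1.2) (x'.1.1.1.2, x'.1.2)).symm

theorem u_E1 (ha : T.Adm S0 st Ψ0) (o0 : S0.Ok) (o : S.Ok) (b : T.Cw S0 → ℤ) (z : TC T S0 S → ℤ) :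
    (T.tw (S0.ten S v) (T.tin S0 S v Ψ0)).u (zc (jE (E1 T S0 S v o) b z)) =
      jE (E1 T S0 S v o) ((T.tw S0 Ψ0).u (zc b)) fun q => eval (zc z) (tΦ T S0 S Ψ0 v b q) := by
  obtain ⟨k3, k4⟩ := ((tid τ0 τ T S0 S st Ψ0 v o ha o0).2 b).2.2 (zc (jE (E1 T S0 S v o) b z))
    fun p => congrArg Int.cast (jE_inl (E1 T S0 S v o) b z p)
  refine jext (E1 T S0 S v o) (fun p => (k3 p).trans (jE_inl (E1 T S0 S v o) _ _ p).symm) fun q => ?_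
  refine Eq.trans ?_ (jE_inr (E1 T S0 S v o) _ _ q).symm
  exact (k4 q).trans (congrArg (fun y => eval y (tΦ T S0 S Ψ0 v b q))
    (funext fun p => congrArg Int.cast (jE_inr (E1 T S0 S v o) b z p)))

variable {a : ℝ}

theorem tl_tri (hs : T.Stg st M) (ha : T.Adm S0 st Ψ0) (o0 : S0.Ok) (o : S.Ok)
    (hv : S0.Tk v a) (b : T.Cw S0 → ℤ) : (tl T S0 S st M Ψ0 v b).Tri :=
  shs_tri (TS.tan_stg (b := b) hs o0 ha hv) o

theorem tl_A (hs : T.Stg st M) (ha : T.Adm S0 st Ψ0) (o0 : S0.Ok) (o : S.Ok)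
    (hv : S0.Tk v a) (b : T.Cw S0 → ℤ) :
    (tl T S0 S st M Ψ0 v b).A = kt T S0 S (T.kn S0 (T.stg st).A 1) 1 :=
  (shs_A (TS.tan_stg (b := b) hs o0 ha hv) o).trans
    (congrArg (kt T S0 S · 1) (TS.tan_As hs o0 ha))

theorem tl_D (hs : T.Stg st M) (ha : T.Adm S0 st Ψ0) (o0 : S0.Ok) (o : S.Ok)
    (hv : S0.Tk v a) (b : T.Cw S0 → ℤ) :
    (tl T S0 S st M Ψ0 v b).D = kt T S0 S (T.kn S0 (T.stg st).D v) S.K :=
  (shs_D (TS.tan_stg (b := b) hs o0 ha hv) o).trans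
    (congrArg (kt T S0 S · S.K) (TS.tan_Ds hs o0 ha))

theorem fb1 (hs : T.Stg st M) (ha : T.Adm S0 st Ψ0) (o0 : S0.Ok) (o : S.Ok)
    (hv : S0.Tk v a) (op : (S0.ten S v).Ok) (b : T.Cw S0 → ℤ) :
    Fb (T.lw (S0.ten S v) st (T.tin S0 S v Ψ0)) (T.lw S0 st Ψ0) (tl T S0 S st M Ψ0 v b)
      (E1 T S0 S v o) b where
  t := TS.lw_tri hs ha.tin op
  t0 := TS.lw_tri hs ha o0
  t1 := tl_tri hs ha o0 o hv b
  K := Matrix.ext (TS.K_tE 0 0 o T.K)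
  A := by
    rw [TS.lw_A hs ha.tin op, TS.lw_A hs ha o0, tl_A hs ha o0 o hv]
    exact bd_one o _
  u := u_E1 ha o0 o b

theorem fb4 (hs : T.Stg st M) (ha : T.Adm S0 st Ψ0) (o0 : S0.Ok) (o : S.Ok) (hv : S0.Tk v a)
    (hε : S.ε = 0) (b : T.Cw S0 → ℤ) (z : TC T S0 S → ℤ) : Fb (tl T S0 (d2 S) st M Ψ0 v b)
      (tl T S0 S st M Ψ0 v b) (tl T S0 S st M Ψ0 v b) (E4 T S0 S) z :=
  fb3 (U := T.tan S0 Ψ0 v b) (E := E4 T S0 S) (fun _ => rfl) (fun _ => rfl)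
    (TS.tan_stg (b := b) hs o0 ha hv) o hε z

theorem lev_r (hs : T.Stg st M) (o : S.Ok) {x0 : T.Tc S0} (hd : ∀ w, S.dg w ≤ T.nl S0 x0)
    (x : TC T S0 S) :
    (T.lw (S0.ten S v) st (T.tin S0 S v Ψ0)).lev (E1 T S0 S v o (.inr x)) < st x0.1.1 ↔
      T.ts S0 st M x.1.1 < T.ts S0 st M x0 := by
  have b : S.dg x.1.2 = T.nl S0 x.1.1 := by
    rw [← Sh.cd_degree, x.2]; exact Finsupp.degree_single _ _
  have c := hd x.1.2
  have d := hs.ts_lt (x := x.1.1) (x' := x0)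
  rw [TS.lw_lev]
  change st x.1.1.1.1 < _ ↔ _
  omega

theorem lev_l (o : S.Ok) (t : ℕ) (x : T.Cw S0) :
    (T.lw (S0.ten S v) st (T.tin S0 S v Ψ0)).lev (E1 T S0 S v o (.inl x)) < t ↔
      (T.lw S0 st Ψ0).lev x < t := by
  rw [TS.lw_lev, TS.lw_lev]; rfl

theorem sym_ε {l : ℕ} (col : Fin l → Unit) (κ : ℕ → ℝ) : (Sh.sym col κ).ε = 0 :=
  funext fun w => by simp [Sh.sym, Sh.mono]

end Tg

namespace Tg

variable {τ0 τ : Type} {T : TS Unit} {S0 : Sh Unit τ0} {S : Sh Unit τ} {st : T.C → ℕ} {M : ℕ}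
  {Ψ0 : T.Twd S0} {v : Matrix (Option S0.W) (Option S0.W) ℝ} {a : ℝ}

variable (T S0 S v) in
/-- the frequency on the double -/
def k2 (o : (d2 S).Ok) (k : TC T S0 S → ℤ) : T.Cw (S0.ten (d2 S) v) → ℤ :=
  jE (E1 T S0 (d2 S) v o) 0 (jE (E4 T S0 S) k (-k))

theorem k2_ne (o : (d2 S).Ok) {k : TC T S0 S → ℤ} {p : TC T S0 S} (h : k p ≠ 0) :
    k2 T S0 S v o k ≠ 0 := fun e => by
  have := congrFun e (E1 T S0 (d2 S) v o (.inr (E4 T S0 S (.inl p))))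
  rw [k2, jE_inr, jE_inl] at this
  exact h this

theorem k2_sup (o : (d2 S).Ok) {k : TC T S0 S → ℤ} {t : ℕ} (h : ∀ p, k p ≠ 0 → st p.1.1.1.1 = t)
    (p : T.Cw (S0.ten (d2 S) v)) (e : st p.1.1 ≠ t) : k2 T S0 S v o k p = 0 := by
  obtain ⟨p | p, rfl⟩ := (E1 T S0 (d2 S) v o).surjective p
  · exact jE_inl _ _ _ _
  · rw [k2, jE_inr]
    obtain ⟨p | p, rfl⟩ := (E4 T S0 S).surjective p
    · rw [jE_inl]; exact by_contra fun z => e (h p z)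
    · rw [jE_inr]; exact neg_eq_zero.2 (by_contra fun z => e (h p z))

theorem k2_qf (hs : T.Stg st M) (ha : T.Adm S0 st Ψ0) (o0 : S0.Ok) (o : S.Ok) (o2 : (d2 S).Ok)
    (hv : S0.Tk v a) (hε : S.ε = 0) (op : (S0.ten (d2 S) v).Ok) (k : TC T S0 S → ℤ) :
    qf (T.lw (S0.ten (d2 S) v) st (T.tin S0 (d2 S) v Ψ0)).D (zc (k2 T S0 S v o2 k)) =
      2 * qf (kt T S0 S (T.kn S0 (T.stg st).D v) S.K) (zc k) := by
  have := qf_two (fb1 hs ha o0 o2 hv op 0) (fb4 hs ha o0 o hv hε 0 0) k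
  rw [tl_D hs ha o0 o hv] at this
  exact this

theorem most' (htl : TTl) (hs : T.Stg st M) (ha : T.Adm S0 st Ψ0) (o0 : S0.Ok) (o : S.Ok)
    (o2 : (d2 S).Ok) (hv : S0.Tk v a) (hε : S.ε = 0) (op : (S0.ten S v).Ok)
    (op2 : (S0.ten (d2 S) v).Ok) {x0 : T.Tc S0} (hd : ∀ w, S.dg w ≤ T.nl S0 x0) {η β τ : ℝ}
    (h1 : η ≤ 1) (hτ : 0 < τ) (m0 : ((T.lw S0 st Ψ0).lt (st x0.1.1)).Mas η)
    (m1 : ((T.lw (S0.ten S v) st (T.tin S0 S v Ψ0)).lt (st x0.1.1)).Mas η)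
    (m2 : ((T.lw (S0.ten (d2 S) v) st (T.tin S0 (d2 S) v Ψ0)).lt (st x0.1.1)).Mas η)
    {k : TC T S0 S → ℤ} (hk : ∀ p, k p ≠ 0 → st p.1.1.1.1 = st x0.1.1)
    (m : (T.lw S0 st Ψ0).Mas (1 / 2)) (hb : (T.lw (S0.ten (d2 S) v) st
      (T.tin S0 (d2 S) v Ψ0)).bias (st x0.1.1) (k2 T S0 S v o2 k) ≤ β) :
    (T.lw S0 st Ψ0).P {y | τ < (tl T S0 S st M Ψ0 v y).bias (T.ts S0 st M x0) k} ≤
      2 * (∏ j ∈ Icc (st x0.1.1) M, (T.lw S0 st Ψ0).ct j) * (16 * η + 8 * β / τ ^ 2) :=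
  have l3 : ∀ x, T.ts S0 st M (E4 T S0 S (.inl x)).1.1 = T.ts S0 st M x.1.1 :=
    fun _ => congrArg (T.ts S0 st M) rfl
  have r3 : ∀ x, T.ts S0 st M (E4 T S0 S (.inr x)).1.1 = T.ts S0 st M x.1.1 :=
    fun _ => congrArg (T.ts S0 st M) rfl
  have hk' : ∀ p, k p ≠ 0 → (T.lw (S0.ten S v) st (T.tin S0 S v Ψ0)).lev
      (E1 T S0 S v o (.inr p)) ≤ st x0.1.1 := fun p e => ((TS.lw_lev _).trans (hk p e)).le
  have hM : ∀ p, (T.lw S0 st Ψ0).lev p ≤ M := fun p => (TS.lw_lev p).trans_le (hs.le _).1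
  most (L0 := T.lw S0 st Ψ0) (L1 := T.lw (S0.ten S v) st (T.tin S0 S v Ψ0))
    (L2 := T.lw (S0.ten (d2 S) v) st (T.tin S0 (d2 S) v Ψ0)) (Y := TC T S0 S) (Y' := TC T S0 (d2 S))
    (E1 := E1 T S0 S v o) (E2 := E1 T S0 (d2 S) v o2) (E3 := E4 T S0 S)
    htl (Φ := tΦ T S0 S Ψ0 v) (Φ' := tΦ T S0 (d2 S) Ψ0 v) (fb1 hs ha o0 o hv op)
    (fb1 hs ha o0 o2 hv op2) (fb4 hs ha o0 o hv hε) (lev_l o _) (lev_r hs o hd) (lev_l o2 _)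
    (lev_r hs o2 fun w => (Sh.dbl_dg w).trans_le (hd _)) l3 r3 h1 hτ m0 m1 m2 hk' hM
    (hs.le _).1 m hb

theorem sbS_eq {l t : ℕ} (col : Fin l → Unit) (κ : ℕ → ℝ) (k : T.Tc S0 → ℤ) (y : T.Cw S0 → ℤ) :
    (T.tan S0 Ψ0 v y).sbS (T.ts S0 st M) t col κ k = (tl T S0 (Sh.sym col κ) st M Ψ0 v y).bias t
      fun p : TC T S0 (Sh.sym col κ) => if (Sh.sym col κ).dg p.1.2 = l then k p.1.1 else 0 := rfl

end Tg

open Tg in
theorem tpk (hz : TSz) (hy : TSy) (htl : TTl) {M c : ℕ} (hc : CHAR M c) : TPk M c := by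
  intro τ0 T S0 st Ψ0 v n N t t' l col k a a1 b η R τ τ' β κ hs ha h0 hv a0 a2 b0 b1 hN c0 hκ e0 e1
    τ1 s1 s2 sy k0 hk hq hβ τ2 m
  obtain ⟨x0, hx⟩ := Function.ne_iff.1 k0
  obtain ⟨rfl, rfl, rfl⟩ := hk x0 hx
  obtain ⟨z1, d1, q1⟩ := hy M _ col a1 (hs.nl_le x0) b0
  obtain ⟨q2, q3⟩ := q1 (T.tan S0 Ψ0 v 0) (T.kn S0 (T.stg st).D v) k (TS.nl_pos x0)
    fun x e => (congrFun (TS.tan_lev Ψ0 0) x).trans (hk x e).2.2
  obtain ⟨p0, p1, p2⟩ := q3 k0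
  have z2 := Sh.dbl_sz (p := fun _ => False) z1 (fun _ _ h => h.elim) z1.gen
  have aa : a * a1 / 2 ≤ a := by nlinarith
  have y0 : S0.Sz N (a * a1 / 2) := h0.mono (by nlinarith [Nat.zero_le (2 ^ M)]) aa
  have y1 := (hz _ _ S0 _ v _ _ _ _ _ _ h0 z1 hv b0 a0 aa
    (by nlinarith)).mono (le_trans (Nat.mul_le_mul_left _ (by omega)) hN) le_rfl
  have y2 := (hz _ _ S0 _ v _ _ _ _ _ _ h0 z2 hv (by positivity) a0 aa (by linarith)).mono hN le_rfl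
  have k3 : ∀ p : TC T S0 (Sh.sym col fun _ => a1), (if (Sh.sym col fun _ => a1).dg p.1.2 =
      T.lev x0.1.1 - S0.od x0.1.2 then k p.1.1 else 0) ≠ 0 → st p.1.1.1.1 = st x0.1.1 :=
    fun p e => (hk _ fun z => e (by rw [z, ite_self])).2.1
  refine le_of_eq_of_le (congrArg (T.lw S0 st Ψ0).P (Set.ext fun y =>
    iff_of_eq (congrArg (τ' < ·) (sbS_eq col _ k y)))) (most' htl hs ha h0.toOk z1.toOk z2.toOk hv
      (sym_ε col _) y1.toOk y2.toOk d1 e1 τ2 (s2 _ _ _ y0 ha) (s2 _ _ _ y1 ha.tin)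
      (s2 _ _ _ y2 ha.tin) k3 m (hβ _ ?_))
  refine hc Unit Unit T _ st _ _ N _ b η R τ κ _ hs ha.tin y2 c0 hκ e0 e1 τ1 s1 sy
    (k2_ne _ (p := p0) ((if_pos p1).trans_ne p2)) (k2_sup _ k3) (le_of_eq_of_le (congrArg _ ?_) hq)
  rw [mul_assoc, TS.tan_Ds hs h0.toOk ha]
  exact (k2_qf hs ha h0.toOk z1.toOk z2.toOk hv (sym_ε col _) y2.toOk _).trans (congrArg _ q2)

end Crest.Agent.N49.Tw

end
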