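import Crest.Agent.N49.Tn.Stg
import Crest.Agent.N49.Tn.Sz
import Crest.Agent.N49.Tw.Ccs
import Crest.Agent.N49.Tw.Cbr
import Crest.Agent.N49.Tw.ConD
import Crest.Agent.N49.Tw.ConM
import Crest.Agent.N49.Tw.Iso

/-!
# Row 49 (helper18): tools for the bias of a tangent frequency
-/

set_option autoImplicit false
set_option linter.unusedSectionVars false

open Matrix MvPolynomial Finset

noncomputable section

namespace Crest.Agent.N49.Tw.Pk2

open Po TS

/-- few backgrounds have a biased fibre -/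
theorem core {σ : Type} {X : TS σ} {p : X.C → Prop} [DecidablePred p] (h : X.Tri) (hp : X.Low p)
    {η β τ : ℝ} (h1 : η ≤ 1) (t0 : 0 < τ) (m0 : (X.cut p 0).Mas η) (m1 : X.Mas η)
    (m2 : (X.dbl p).Mas η) {g : (X.C → ℤ) → ℂ} (hg : ∀ y, ‖g y‖ ≤ 1)
    (hβ : ‖(X.dbl p).Ec fun y => g (fun c => y (.inl c)) *
      (starRingEnd ℂ) (g fun c => y (X.snd p c))‖ ≤ β) :
    (X.cut p 0).S ({a | τ * X.fsum p a < ‖X.fib p g a‖}.indicator 1) / (X.cut p 0).Zc ≤
      16 * η + 8 * β / τ ^ 2 := by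
  have hc := h.cut_low hp 0
  have hd := h.dbl hp
  have c0 := hc.Zc_pos
  obtain ⟨a0, a1, a2⟩ := h.moments hp m0 m1 m2
  have s0 := hc.summable
  have s1 := (h.hasSum_fsum (p := p) (Bb.const 1)).summable
  simp only [mul_one] at s1
  have s2 := (h.hasSum_fsum_sq hp).summable
  have s3 := h.hasSum_dbl_sq hp hg
  have e2 : (X.Zc / (X.cut p 0).Zc) ^ 2 * (X.cut p 0).Zc = (X.dbl p).Zc := by
    rw [div_pow, ← h.Zc_dbl hp 0]; field_simp
  have cp : 0 < X.Zc / (X.cut p 0).Zc := div_pos h.Zc_pos c0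
  generalize X.Zc / (X.cut p 0).Zc = c at *
  have b0 : 0 ≤ β := (norm_nonneg _).trans hβ
  rw [Ec, norm_div, Complex.norm_of_nonneg hd.Z_pos.le, div_le_iff₀ hd.Z_pos] at hβ
  have a3 := (s3.tsum_eq.trans_le (Complex.re_le_norm _)).trans hβ
  have a4 : (X.dbl p).Z ≤ 2 * (c ^ 2 * (X.cut p 0).Zc) := by
    have := (abs_le.1 m2).2
    have := hd.Zc_pos
    rw [e2]; nlinarith
  have S := (((s2.hasSum.mul_left (4 / c ^ 2)).sub (s1.hasSum.mul_left (8 / c))).add
    (s0.hasSum.mul_left 4)).add (s3.summable.hasSum.mul_left (4 / (τ ^ 2 * c ^ 2)))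
  refine (div_le_iff₀ c0).2 ((hasSum_le (fun a => ?_) (hc.sm (.ind _)).hasSum S).trans ?_)
  · have w := (X.cut p 0).wt_pos a
    have : ({a | τ * X.fsum p a < ‖X.fib p g a‖}.indicator 1 a : ℝ) ≤
        4 / c ^ 2 * (X.fsum p a - c) ^ 2 + 4 / (τ ^ 2 * c ^ 2) * ‖X.fib p g a‖ ^ 2 := by
      by_cases k : τ * X.fsum p a < ‖X.fib p g a‖
      · refine (ind_le _ _).trans ?_
        rcases le_total (X.fsum p a) (c / 2) with u | u
        · refine le_add_of_le_of_nonneg ?_ (by positivity)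
          rw [div_mul_eq_mul_div, le_div_iff₀ (by positivity)]
          nlinarith
        · refine le_add_of_nonneg_of_le (by positivity) ?_
          rw [div_mul_eq_mul_div, le_div_iff₀ (by positivity)]
          have : τ * (c / 2) ≤ ‖X.fib p g a‖ := (mul_le_mul_of_nonneg_left u t0.le).trans k.le
          nlinarith [mul_pos t0 cp]
      · rw [Set.indicator_of_notMem (by exact k)]
        positivity
    refine (mul_le_mul_of_nonneg_left this w.le).trans_eq ?_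
    field_simp
    ring
  · have u1 := mul_le_mul_of_nonneg_left a2 (show 0 ≤ 4 / c ^ 2 by positivity)
    have u2 := mul_le_mul_of_nonneg_left a1 (show 0 ≤ 8 / c by positivity)
    have u3 := mul_le_mul_of_nonneg_left (a3.trans (mul_le_mul_of_nonneg_left a4 b0))
      (show 0 ≤ 4 / (τ ^ 2 * c ^ 2) by positivity)
    have e1 : 4 / c ^ 2 * ((1 + η) * (c ^ 2 * (X.cut p 0).Zc)) = 4 * ((1 + η) * (X.cut p 0).Zc) := by
      field_simp
    have e3 : 8 / c * ((1 - η) * (c * (X.cut p 0).Zc)) = 8 * ((1 - η) * (X.cut p 0).Zc) := by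
      field_simp
    have e4 : 4 / (τ ^ 2 * c ^ 2) * (β * (2 * (c ^ 2 * (X.cut p 0).Zc))) =
        8 * β / τ ^ 2 * (X.cut p 0).Zc := by field_simp; ring
    linarith

theorem conj_ee (t : ℝ) : (starRingEnd ℂ) (ee t) = ee (-t) := by
  rw [ee, ee, ← Complex.exp_conj]
  simp [map_ofNat]

theorem wt_eqv {σ σ' : Type} {X : TS σ} {X' : TS σ'} (e : X'.C ≃ X.C)
    (hu : ∀ (y : X.C → ℤ) c, X'.u (zc fun c => y (e c)) c = X.u (zc y) (e c))
    (hK : ∀ c c', X'.K c c' = X.K (e c) (e c')) : X.Eqv X' (ren e).symm := fun y => by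
  have a : X'.K = X.K.submatrix e e := Matrix.ext hK
  change gs X'.K⁻¹ (X'.u (zc fun c => y (e c))) = gs _ _
  rw [a, inv_submatrix_equiv, funext (hu y), gs, gs, qf_ren]

theorem sum_ext {A B : Type} [Fintype A] [Fintype B] {e : A → B} (h : Function.Injective e)
    (k : A → ℤ) (f : B → ℝ) : zc (Function.extend e k 0) ⬝ᵥ f = zc k ⬝ᵥ fun a => f (e a) :=
  (Fintype.sum_of_injective e h _ _ (fun b n => by
    rw [zc, Function.extend_apply' _ _ _ n]; simp) fun a => by rw [zc, zc, h.extend_apply]).symm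

section cn
variable {σ τ τ' : Type} [DecidableEq σ] {T : TS σ} {S : Sh σ τ} {S' : Sh σ τ'}
  {st : T.C → ℕ} {M : ℕ} {Ψ : T.Twd S} {Ψ' : T.Twd S'}

theorem th_ce {e : S.W → S'.W} (h : S.Ch S' e) (hs : T.Stg st M) (o : S.Ok) (o' : S'.Ok)
    (ha : T.Adm S st Ψ) (ha' : T.Adm S' st Ψ')
    (hΨ : ∀ F, map (killCompl h.inj).toRingHom (Ψ' F) = Ψ F) (y : T.Cw S' → ℝ) (x : T.Cw S) :
    (T.lw S' st Ψ').th y (T.ce h x) = (T.lw S st Ψ).th (T.pb S h y) x := by
  refine (lw_th hs o' ha' y _).trans (Eq.trans ?_ (lw_th hs o ha _ x).symm)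
  refine congrArg (y (T.ce h x) - ·) (sum_congr rfl fun F _ => congrArg _ ?_)
  rw [← hΨ, ← funext (kill_Yw h y)]
  exact (h.cf _ _).trans (congrArg _ (map_eval (killCompl h.inj).toRingHom _ _))

variable {q : S.W → Prop} [DecidablePred q] {e1 e2 : S.W → S'.W}

variable (T) in
/-- the difference of the two copies of a frequency -/
def k2 (h : S.Cn S' q e1 e2) (k : T.Cw S → ℤ) : T.Cw S' → ℤ :=
  Function.extend (T.ce h.c1) k 0 - Function.extend (T.ce h.c2) k 0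

theorem dot_k2 (h : S.Cn S' q e1 e2) (k : T.Cw S → ℤ) (f : T.Cw S' → ℝ) : zc (k2 T h k) ⬝ᵥ f =
    (zc k ⬝ᵥ fun x => f (T.ce h.c1 x)) - zc k ⬝ᵥ fun x => f (T.ce h.c2 x) := by
  rw [k2, zc_sub, sub_dotProduct, sum_ext (ce_inj h.c1), sum_ext (ce_inj h.c2)]

theorem k2_supp (h : S.Cn S' q e1 e2) {k : T.Cw S → ℤ} {P : T.C → Prop}
    (hk : ∀ x, P x.1.1 → k x = 0) (x : T.Cw S') (hx : P x.1.1) : k2 T h k x = 0 := by
  have : ∀ {e : S.W → S'.W} (c : S.Ch S' e), Function.extend (T.ce c) k 0 x = 0 := fun c => by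
    by_cases z : ∃ a, T.ce c a = x
    · obtain ⟨a, rfl⟩ := z
      rw [(ce_inj c).extend_apply]; exact hk a hx
    · exact Function.extend_apply' _ _ _ z
  rw [k2, Pi.sub_apply, this, this, sub_zero]

theorem qf_k2 (h : S.Cn S' q e1 e2) (o' : S'.Ok) (D : Matrix T.C T.C ℝ) {k : T.Cw S → ℤ}
    (hk : ∀ x, q x.1.2 → k x = 0) :
    qf (T.kw S' D S'.K) (zc (k2 T h k)) = 2 * qf (T.kw S D S.K) (zc k) := by
  have z : ∀ f : T.Cw S → T.Cw S → ℝ, (∀ x x', ¬ q x.1.2 → ¬ q x'.1.2 → f x x' = 0) →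
      (zc k ⬝ᵥ fun x => zc k ⬝ᵥ f x) = 0 := fun f hf => sum_eq_zero fun x _ => by
    by_cases a : q x.1.2
    · simp [zc, hk x a]
    · refine mul_eq_zero_of_right _ (sum_eq_zero fun x' _ => ?_)
      by_cases b : q x'.1.2
      · simp [zc, hk x' b]
      · rw [hf x x' a b, mul_zero]
  have e : ∀ x, (T.kw S' D S'.K *ᵥ zc (k2 T h k)) x = (zc k ⬝ᵥ fun x' => T.kw S' D S'.K x
      (T.ce h.c1 x')) - zc k ⬝ᵥ fun x' => T.kw S' D S'.K x (T.ce h.c2 x') := fun x =>
    (dotProduct_comm _ _).trans (dot_k2 h k _)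
  have d : ∀ {e : S.W → S'.W} (c : S.Ch S' e), (∀ w w', S'.K (e w) (e w') = S.K w w') →
      (zc k ⬝ᵥ fun x => zc k ⬝ᵥ fun x' => T.kw S' D S'.K (T.ce c x) (T.ce c x')) =
        qf (T.kw S D S.K) (zc k) := fun c hc =>
    congrArg (zc k ⬝ᵥ ·) (funext fun x => (dotProduct_comm _ _).trans (congrArg (· ⬝ᵥ zc k)
      (funext fun x' => congrArg (D x.1.1 x'.1.1 * ·) (hc _ _))))
  rw [qf, dot_k2]
  simp only [e]
  rw [← Pi.sub_def, ← Pi.sub_def, dotProduct_sub, dotProduct_sub, d h.c1 h.k1, d h.c2 h.k2,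
    z (fun x x' => T.kw S' D S'.K (T.ce h.c1 x) (T.ce h.c2 x')) fun x x' a b =>
      mul_eq_zero_of_right _ (h.k3 _ _ a b),
    z (fun x x' => T.kw S' D S'.K (T.ce h.c2 x) (T.ce h.c1 x')) fun x x' a b =>
      mul_eq_zero_of_right _ ((congrFun₂ (Db.tr_eq o'.pd) _ _).symm.trans (h.k3 _ _ b a))]
  ring

theorem ph_k2 (h : S.Cn S' q e1 e2) (hs : T.Stg st M) (o : S.Ok) (o' : S'.Ok)
    (ha : T.Adm S st Ψ) (ha' : T.Adm S' st Ψ')
    (h1 : ∀ F, map (killCompl h.c1.inj).toRingHom (Ψ' F) = Ψ F)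
    (h2 : ∀ F, map (killCompl h.c2.inj).toRingHom (Ψ' F) = Ψ F) (k : T.Cw S → ℤ)
    (y : T.Cw S' → ℤ) : (T.lw S' st Ψ').ph (k2 T h k) y = (T.lw S st Ψ).ph k (T.pb S h.c1 y) *
      (starRingEnd ℂ) ((T.lw S st Ψ).ph k (T.pb S h.c2 y)) := by
  refine (congrArg ee ((dot_k2 h k _).trans (congrArg₂ (fun a b => zc k ⬝ᵥ a - zc k ⬝ᵥ b)
    (funext (th_ce h.c1 hs o o' ha ha' h1 (zc y)))
    (funext (th_ce h.c2 hs o o' ha ha' h2 (zc y)))))).trans ?_
  rw [sub_eq_add_neg, ee_add, ← conj_ee]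
  rfl

variable (T S) in
/-- extend a configuration of the earlier stages by zero -/
def ex (st : T.C → ℕ) (t : ℕ) (y : (T.cut (fun F => st F < t) 0).Cw S → ℤ) : T.Cw S → ℤ :=
  fun x => if h : st x.1.1 < t then y ⟨(⟨x.1.1, h⟩, x.1.2), x.2⟩ else 0

theorem bias_ex (hs : T.Stg st M) (o : S.Ok) (ha : T.Adm S st Ψ) (t : ℕ) (k : T.Cw S → ℤ) :
    (T.lw S st Ψ).bias t k = ‖((T.cut (fun F => st F < t) 0).lw S (fun F => st F.1)
      (T.rt S _ Ψ)).Ec fun y => (T.lw S st Ψ).ph k (ex T S st t y)‖ := by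
  refine congrArg norm (Eq.trans ?_ ((lt_iso hs o ha t).Ec _))
  refine congrArg ((T.lw S st Ψ).lt t).Ec (funext fun y => congrArg _ (funext fun x => ?_))
  exact dite_congr (propext (lt_iff t x)) (fun _ => rfl) fun _ => rfl

theorem u_ex {t : ℕ} (y : (T.cut (fun F => st F < t) 0).Cw S → ℤ)
    (x : (T.cut (fun F => st F < t) 0).Cw S) :
    ((T.cut (fun F => st F < t) 0).tw S (T.rt S _ Ψ)).u (zc y) x =
      (T.tw S Ψ).u (zc (ex T S st t y)) ⟨(x.1.1.1, x.1.2), x.2⟩ := by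
  have := u_glue (Ψ := Ψ) (p := fun F => st F < t) (q := fun x : T.Cw S => st x.1.1 < t)
    (fun _ => Iff.rfl) (fun x => zc y ((cfe S _ _ fun _ => Iff.rfl).symm x)) ⟨(x.1.1.1, x.1.2), x.2⟩
  refine (tw_u _ _).trans (this.symm.trans (congrArg (fun z => (T.tw S Ψ).u z _) (funext fun c => ?_)))
  exact Eq.symm ((apply_dite (Int.cast : ℤ → ℝ) _ _ _).trans
    (dite_congr rfl (fun _ => rfl) fun _ => Int.cast_zero))

theorem map_rt {p : T.C → Prop} [DecidablePred p] {f : MvPolynomial S'.W ℝ →+* MvPolynomial S.W ℝ}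
    (h : ∀ F, map f (Ψ' F) = Ψ F) (F : {F // p F}) : map f (T.rt S' p Ψ' F) = T.rt S p Ψ F := by
  refine MvPolynomial.ext _ _ fun m => (coeff_map _ _ _).trans ((congrArg f (coeff_rt p F m)).trans
    (Eq.trans ?_ (coeff_rt p F m).symm))
  rw [← h, coeff_map]

/-- the bias of the doubled frequency is the expectation on the double -/
theorem bias_k2 (h : S.Cn S' q e1 e2) (hs : T.Stg st M) (o : S.Ok) (o' : S'.Ok)
    (ha : T.Adm S st Ψ) (ha' : T.Adm S' st Ψ')
    (h1 : ∀ F, map (killCompl h.c1.inj).toRingHom (Ψ' F) = Ψ F)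
    (h2 : ∀ F, map (killCompl h.c2.inj).toRingHom (Ψ' F) = Ψ F) (t : ℕ) (k : T.Cw S → ℤ) :
    let X := (T.cut (fun F => st F < t) 0).lw S (fun F => st F.1) (T.rt S _ Ψ)
    let p := fun x : (T.cut (fun F => st F < t) 0).Cw S => q x.1.2
    (∀ η, ((T.lw S' st Ψ').lt t).Mas η → (X.dbl p).Mas η) ∧
    ‖(X.dbl p).Ec fun y => (T.lw S st Ψ).ph k (ex T S st t fun c => y (.inl c)) *
      (starRingEnd ℂ) ((T.lw S st Ψ).ph k (ex T S st t fun c => y (X.snd p c)))‖ =
      (T.lw S' st Ψ').bias t (k2 T h k) := by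
  intro X p
  obtain ⟨V, B, V', i⟩ := dbl_iso h (hs.cut_lt t) o o' (ha.rt _) (ha'.rt _) (map_rt h1) (map_rt h2)
  refine ⟨fun η m => (i.mas η).1 ((lt_mas hs o' ha' t η).1 m), ?_⟩
  rw [bias_ex hs o' ha']
  refine congrArg norm ((i.Ec _).symm.trans (congrArg (TS.Ec _) (funext fun y => ?_)))
  rw [ph_k2 h hs o o' ha ha' h1 h2]
  refine congrArg₂ (fun a b => (T.lw S st Ψ).ph k a * (starRingEnd ℂ) ((T.lw S st Ψ).ph k b))
    rfl (funext fun x => ?_)
  exact dite_congr rfl (fun a => congrArg y (cE_snd h _)) fun _ => rfl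

end cn

theorem le_wt {ι L : Type} (f : ι → L →₀ ℕ) {m : ι →₀ ℕ} {y : ι} (hy : y ∈ m.support) :
    f y ≤ Finsupp.weight f m := by
  rw [Finsupp.weight_apply, Finsupp.sum]
  refine le_trans ?_ (single_le_sum (f := fun i => m i • f i) (fun _ _ => zero_le) hy)
  obtain ⟨n, hn⟩ := Nat.exists_eq_succ_of_ne_zero (Finsupp.mem_support_iff.1 hy)
  rw [hn, succ_nsmul]; exact le_add_self

section ten
variable {τ0 τ τ' : Type} {S0 : Sh Unit τ0} {S : Sh Unit τ} {S' : Sh Unit τ'}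
  {v : Matrix (Option S0.W) (Option S0.W) ℝ} {f : S.W → S'.W}

variable (S0) in
/-- a map of words on the second factor -/
def te (f : S.W → S'.W) (x : Sh.TW S0 S) : Sh.TW S0 S' := ⟨(x.1.1, x.1.2.map f), fun e =>
  x.2 (Prod.ext (congrArg Prod.fst e :) (Option.map_eq_none_iff.1 (congrArg Prod.snd e)))⟩

theorem sg_map (f : S.W → S'.W) (o : Option S.W) : S'.sg (o.map f) = (S.sg o).mapDomain f := by
  cases o <;> simp [Sh.sg]

theorem ch_ten (h : S.Ch S' f) : (S0.ten S v).Ch (S0.ten S' v) (te S0 f) where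
  inj x x' e := Subtype.ext (Prod.ext (congrArg (·.1.1) e)
    (Option.map_injective h.inj (congrArg (·.1.2) e)))
  cd x := by
    refine congrArg (fun n => Finsupp.mapDomain id (Finsupp.single () (S0.od x.1.1 + n))) ?_
    change S'.od (x.1.2.map f) = S.od x.1.2
    rcases x.1.2 with _ | w
    · rfl
    · exact (Sh.cd_degree _).symm.trans ((congrArg _ (h.cd w)).trans (Sh.cd_degree _))
  r1 x (m : Sh.TW S0 S →₀ ℕ) := by
    change S0.ru x.1.1 (Finsupp.weight (fun y : Sh.TW S0 S' => S0.sg y.1.1) (m.mapDomain (te S0 f))) *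
      S'.ru (x.1.2.map f) (Finsupp.weight (fun y : Sh.TW S0 S' => S'.sg y.1.2)
        (m.mapDomain (te S0 f))) = _ * S.ru x.1.2 _
    rw [weight_mapD, weight_mapD]
    refine congrArg _ ?_
    have := weight_hom (Finsupp.mapDomain.addMonoidHom f) (fun y : Sh.TW S0 S => S.sg y.1.2) m
    rw [show (fun a : Sh.TW S0 S => S'.sg (te S0 f a).1.2) = fun a => Finsupp.mapDomain.addMonoidHom f
      (S.sg a.1.2) from funext fun a => sg_map f _, this]
    rcases x.1.2 with _ | w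
    · exact if_congr (map_eq_zero_iff _ (Finsupp.mapDomain_injective h.inj)) rfl rfl
    · exact h.r1 w _
  r2 x (m : Sh.TW S0 S' →₀ ℕ) z y hy := by
    have a : S'.ru (x.1.2.map f) (Finsupp.weight (fun y : Sh.TW S0 S' => S'.sg y.1.2) m) ≠ 0 :=
      right_ne_zero_of_mul z
    have b := le_wt (fun y : Sh.TW S0 S' => S'.sg y.1.2) hy
    obtain ⟨⟨o, _ | w⟩, n⟩ := y
    · exact ⟨⟨(o, none), fun e => n (Prod.ext (congrArg Prod.fst e :) rfl)⟩, rfl⟩
    · generalize Finsupp.weight (fun y : Sh.TW S0 S' => S'.sg y.1.2) m = μ at a b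
      have c : w ∈ μ.support :=
        Finsupp.mem_support_iff.2 fun e => by simpa [Sh.sg, e] using b w
      revert a
      rcases x.1.2 with _ | w'
      · exact fun a => by
          rw [show μ = 0 from by_contra fun k => a (if_neg k)] at c
          simp at c
      · intro a
        obtain ⟨u, rfl⟩ := h.r2 w' _ a w c
        exact ⟨⟨(o, some u), by simp⟩, rfl⟩

variable (S) in
/-- two independent copies -/
abbrev S2 : Sh Unit τ := S.dbl fun _ => False

theorem ch1 : S.Ch (S2 S) .inl where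
  inj := Sum.inl_injective
  cd _ := rfl
  r1 w m := (if_pos fun _ => Finsupp.mapDomain_of_notMem_range _ _ (by simp)).trans
    (congrArg _ ((Finsupp.mapDomain_comp).symm.trans Finsupp.mapDomain_id))
  r2 w m z x hx := by
    rcases x with x | x
    · exact ⟨x, rfl⟩
    · exact absurd (if_neg fun k => Finsupp.mem_support_iff.1 hx (k x)) z

theorem ch2 : S.Ch (S2 S) fun w => .inr ⟨w, id⟩ where
  inj _ _ e := congrArg Subtype.val (Sum.inr_injective e)
  cd _ := rfl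
  r1 w m := (if_pos fun _ _ => Finsupp.mapDomain_of_notMem_range _ _ (by simp)).trans
    (congrArg _ ((Finsupp.mapDomain_comp).symm.trans Finsupp.mapDomain_id))
  r2 w m z x hx := by
    rcases x with x | x
    · exact absurd (if_neg fun k => Finsupp.mem_support_iff.1 hx (k x id)) z
    · exact ⟨x.1, rfl⟩

theorem cn_ten : (S0.ten S v).Cn (S0.ten (S2 S) v) (fun x : Sh.TW S0 S => x.1.2 = none)
    (te S0 .inl) (te S0 fun w => .inr ⟨w, id⟩) where
  c1 := ch_ten ch1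
  c2 := ch_ten ch2
  eq x k := Subtype.ext (Prod.ext rfl (by change x.1.2.map _ = x.1.2.map _; rw [k]; rfl))
  ne x x' e := by
    have : x.1.2.map _ = x'.1.2.map _ := congrArg (·.1.2) e
    revert this
    rcases x.1.2 with _ | w <;> rcases x'.1.2 with _ | w' <;> simp
  all := by
    rintro ⟨⟨o, _ | w | w⟩, n⟩
    · exact .inl ⟨⟨(o, none), fun e => n (Prod.ext (congrArg Prod.fst e :) rfl)⟩, rfl⟩
    · exact .inl ⟨⟨(o, some w), by simp⟩, rfl⟩
    · exact .inr ⟨⟨(o, some w.1), by simp⟩, rfl⟩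
  idl x (m : Sh.TW S0 S →₀ ℕ) k z y hy := by
    have a : S.ru x.1.2 (Finsupp.weight (fun y : Sh.TW S0 S => S.sg y.1.2) m) ≠ 0 :=
      right_ne_zero_of_mul z
    have b := le_wt (fun y : Sh.TW S0 S => S.sg y.1.2) hy
    rw [k] at a
    generalize Finsupp.weight (fun y : Sh.TW S0 S => S.sg y.1.2) m = μ at a b
    rw [show μ = 0 from by_contra fun k => a (if_neg k)] at b
    change y.1.2 = none
    revert b
    rcases y.1.2 with _ | w
    · exact fun _ => rfl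
    · exact fun b => by simpa [Sh.sg] using b w
  sep := by
    rintro ⟨⟨o, _ | w⟩, n⟩ ⟨⟨o', _ | w'⟩, n'⟩ a b
    exacts [absurd rfl b, rfl, absurd rfl b, by cases a]
  k1 := by rintro ⟨⟨o, _ | w⟩, n⟩ ⟨⟨o', _ | w'⟩, n'⟩ <;> rfl
  k2 := by rintro ⟨⟨o, _ | w⟩, n⟩ ⟨⟨o', _ | w'⟩, n'⟩ <;> rfl
  k3 := by
    rintro ⟨⟨o, _ | w⟩, n⟩ ⟨⟨o', _ | w'⟩, n'⟩ a b
    exacts [absurd rfl a, absurd rfl a, absurd rfl b,
      mul_eq_zero_of_right _ (sum_eq_zero fun c _ => c.2.elim)]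

theorem kill_i0 (h : Function.Injective (te S0 f)) (P : MvPolynomial S0.W ℝ) :
    killCompl h (rename (Sh.i0 S') P) = rename (Sh.i0 S) P := by
  rw [← killCompl_rename_app h (rename (Sh.i0 S) P), rename_rename]
  rfl

theorem kill_tin {T : TS Unit} (h : S.Ch S' f) (Ψ0 : T.Twd S0) (F : T.C) :
    map (killCompl (ch_ten (v := v) h).inj).toRingHom (T.tin S0 S' v Ψ0 F) = T.tin S0 S v Ψ0 F := by
  have k : Function.Injective (te S0 f) := (ch_ten (v := v) h).inj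
  have : MvPolynomial.map (killCompl k).toRingHom (MvPolynomial.map (rename (Sh.i0 S')).toRingHom
      (Ψ0 F)) = MvPolynomial.map (rename (Sh.i0 S)).toRingHom (Ψ0 F) := by
    rw [MvPolynomial.map_map]
    exact congrArg (MvPolynomial.map · (Ψ0 F)) (RingHom.ext (kill_i0 k))
  exact this

end ten

end Crest.Agent.N49.Tw.Pk2

end
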