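import Crest.Agent.N49.Tn.St2
import Crest.Agent.N49.Tw.Pers

/-!
# Row 49 (helper71): the symbol shape with a constant variance
-/

set_option autoImplicit false

open Matrix MvPolynomial Finset

noncomputable section

namespace Crest.Agent.N49.Tw

open Po

theorem tsy : TSy := fun M l col a hl a0 => by
  refine ⟨(Sh.sym_sz a0 fun _ _ => le_rfl).mono (Nat.pow_le_pow_right two_pos hl) le_rfl,
    fun w => (Sh.sym_dg w).2, fun T D k l1 hk => ?_⟩
  obtain ⟨w, w1, w2, w3⟩ := TS.sym_top col (fun _ => a) l1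
  have cd : ∀ F, k F ≠ 0 → (Sh.sym col fun _ => a).cd w = T.deg F := fun F z => by
    rw [w1]
    refine Finsupp.ext fun u => ?_
    have := hk F z
    rw [TS.lev, Finsupp.degree_eq_sum, Fintype.sum_unique] at this
    simpa [Finsupp.finsetSum_apply] using this.symm
  refine ⟨?_, fun k0 => let ⟨F, hF⟩ := Function.ne_iff.1 k0; ⟨⟨(F, w), cd F hF⟩, w2, hF⟩⟩
  have key : ∀ g : T.C → (Sh.sym col fun _ => a).W → ℝ, ∑ p : T.Cw (Sh.sym col fun _ => a),
      zc (fun p : T.Cw (Sh.sym col fun _ => a) =>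
        if (Sh.sym col fun _ => a).dg p.1.2 = l then k p.1.1 else 0) p *
        g p.1.1 p.1.2 = ∑ F, zc k F * g F w := fun g => by
    rw [← sum_filter_of_ne (p := fun p : T.Cw (Sh.sym col fun _ => a) => p.1.2 = w ∧ k p.1.1 ≠ 0),
      ← sum_filter_of_ne (s := univ) (p := fun F => k F ≠ 0)]
    · refine sum_bij (fun p _ => p.1.1) (fun p hp => mem_filter.2 ⟨mem_univ _,
        (mem_filter.1 hp).2.2⟩) (fun p hp q hq e => Subtype.ext (Prod.ext e
          ((mem_filter.1 hp).2.1.trans (mem_filter.1 hq).2.1.symm))) (fun G hG =>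
        ⟨⟨(G, w), cd G (mem_filter.1 hG).2⟩, mem_filter.2 ⟨mem_univ _, rfl,
          (mem_filter.1 hG).2⟩, rfl⟩) fun p hp => ?_
      simp only [zc, (mem_filter.1 hp).2.1, w2, if_true]
    · exact fun G _ z e => z (by simp [zc, e])
    · intro p _ z
      by_cases e : (Sh.sym col fun _ => a).dg p.1.2 = l
      · exact ⟨w3 _ e, fun e' => z (by simp [zc, e'])⟩
      · exact absurd (by simp [zc, e]) z
  have kw' : (Sh.sym col fun _ => a).K w w = a := by
    change dk (fun _ => a) w.1 w.1 = _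
    rw [dk, if_pos rfl]
  refine (sum_congr rfl fun p _ => congrArg _ ((sum_congr rfl fun q _ => mul_comm _ _).trans
    (key fun G v => D p.1.1 G * (Sh.sym col fun _ => a).K p.1.2 v))).trans
    ((key fun F u => ∑ G, zc k G * (D F G * (Sh.sym col fun _ => a).K u w)).trans ?_)
  simp only [qf, dotProduct, mulVec, kw', mul_sum]
  exact sum_congr rfl fun F _ => sum_congr rfl fun G _ => by ring

end Crest.Agent.N49.Tw

end
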