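import Crest.Agent.N49.Tn.St2
import Crest.Agent.N49.Tw.Mast0
import Crest.Agent.N49.Tw.Exp

/-!
# Row 49 (helper64): from the truncated law to the full law
-/

set_option autoImplicit false

open Matrix MvPolynomial Finset

noncomputable section

namespace Crest.Agent.N49.Tw

open Po

namespace Ttl

variable {ι : Type} [Fintype ι] [DecidableEq ι] {lev : ι → ℕ} {M : Matrix ι ι ℝ}
  {Θ : (ι → ℤ) → ι → ℝ}

theorem sm (hT : Rw.Tri lev Θ) (hB : Rw.Blk lev M) (hM : M.PosDef) (l : ℕ)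
    {G : (Rw.Lo lev l → ℤ) → ℝ} (hG : ∀ y, 0 ≤ G y ∧ G y ≤ 1) :
    Summable fun y => Rw.wl lev M Θ l y * G y :=
  (Rw.summable_wl hT hB hM l).of_nonneg_of_le (fun y => mul_nonneg (Rw.wl_pos l y).le (hG y).1)
    fun y => mul_le_of_le_one_right (Rw.wl_pos l y).le (hG y).2

theorem le (hT : Rw.Tri lev Θ) (hB : Rw.Blk lev M) (hM : M.PosDef) {t : ℕ}
    {g : (Rw.Lo lev t → ℤ) → ℝ} (hg : ∀ y, 0 ≤ g y ∧ g y ≤ 1) {l : ℕ} (h : t ≤ l) :
    ∑' y, Rw.wl lev M Θ l y * g (Rw.res lev t (Rw.ext lev l y)) ≤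
      (∏ j ∈ Ico t l, Po.th (Rw.blk lev M j) 0) * ∑' y, Rw.wl lev M Θ t y * g y := by
  induction l, h using Nat.le_induction with
  | base => simp [Rw.res_ext]
  | succ l h ih =>
    have s := sm hT hB hM l (G := fun y => g (Rw.res lev t (Rw.ext lev l y))) fun _ => hg _
    have p := fun y => mul_nonneg (Rw.wl_pos (lev := lev) (M := M) (Θ := Θ) l y).le
      (hg (Rw.res lev t (Rw.ext lev l y))).1
    have k := fun y => mul_le_mul_of_nonneg_left (th_le (Rw.blk_pd (lev := lev) hM l)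
      (Rw.cen lev Θ l y)) (p y)
    rw [prod_Ico_succ_top h, mul_right_comm, Rw.tsum_succ hT hB l fun w y =>
      w * g (Rw.res lev t (Rw.ext lev (l + 1) y))]
    refine Eq.trans_le (Eq.trans (tsum_congr fun x => ?_)
      (tsum_ext_real (Rw.blk_pd hM l) p s (Rw.cen lev Θ l))) ?_
    · rw [mul_right_comm]
      exact congrArg (fun z => _ * g z * _) (funext fun i => Rw.ext_sp x (i.2.trans_le h))
    · refine le_trans ?_ (mul_le_mul_of_nonneg_right ih (th_nonneg _ _))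
      rw [← tsum_mul_right]
      exact (Summable.of_nonneg_of_le (fun y => mul_nonneg (p y) (th_nonneg _ _)) k
        (s.mul_right _)).tsum_le_tsum k (s.mul_right _)

end Ttl

theorem ttl : TTl := fun σ T t s g h hs ht m hg => by
  have hs' : ∀ c, T.lev c < s + 1 := fun c => Nat.lt_succ_of_le (hs c)
  have a := Ttl.le (l := s + 1) h.rw_tri h.blk_Di h.pd_Di hg (ht.trans (Nat.le_succ s))
  have b : T.S (fun y => g fun c : {c // T.lev c < t} => y c.1) = _ :=
    (tsum_congr fun y => congrArg (· * _) (h.wt_eq y)).trans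
      (Rw.tsum_wt (M := T.D⁻¹) (Θ := fun y => T.th (zc y)) hs' fun w y => w * g (Rw.res T.lev t y))
  have c : (T.lt t).S g = _ := tsum_congr fun y => congrArg (· * g y) (TS.wt_lt h t y)
  replace a := (b.trans_le a).trans_eq (congrArg₂ (· * ·) ((prod_congr rfl fun j _ =>
    (TS.th_blk h j).trans (TS.pt0_eq h j)).trans prod_mul_distrib) c.symm)
  have z : T.Zc = (T.lt t).Zc * ∏ j ∈ Ico t (s + 1), T.dl j := by
    rw [h.Zc_lt, TS.Zc_eq_prod h hs', prod_range_mul_prod_Ico _ (ht.trans (Nat.le_succ s))]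
  have z0 := (h.lt t).Zc_pos
  have z1 : 0 < ∏ j ∈ Ico t (s + 1), T.dl j := prod_pos fun j _ => TS.dl_pos h j
  have z2 := (abs_le.1 m).1
  have z3 : 0 ≤ (∏ j ∈ Icc t s, T.ct j) * (T.lt t).S g := mul_nonneg
    (prod_nonneg fun j _ => zero_le_one.trans (TS.one_le_ct h j)) (TS.S_nonneg fun y => (hg y).1)
  refine (div_le_iff₀ h.Z_pos).2 ?_
  rw [mul_assoc 2, ← mul_div_assoc, ← mul_div_assoc, div_mul_eq_mul_div,
    le_div_iff₀ z0]
  rw [Ico_add_one_right_eq_Icc] at a z z1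
  rw [z] at z2
  nlinarith [mul_le_mul_of_nonneg_right a z0.le, mul_le_mul_of_nonneg_left z2 z3]

end Crest.Agent.N49.Tw

end
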