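import Crest.Agent.N49.Tn.Pk1
import Crest.Agent.N49.Tn.Fub
import Crest.Agent.N49.Tn.Sy
import Crest.Agent.N49.Tn.Tl

/-!
# Row 49 (helper18): the bias of a tangent frequency at most backgrounds
-/

set_option autoImplicit false
set_option linter.unusedSectionVars false

open Matrix MvPolynomial Finset

noncomputable section

namespace Crest.Agent.N49.Tw

open Po TS

namespace Pk2

theorem fib_eq {σ C0 C2 : Type} {X : TS σ} {p : X.C → Prop} [DecidablePred p] (E : C0 ⊕ C2 ≃ X.C)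
    (eL : C0 ≃ {c // p c}) (hL : ∀ c, (eL c).1 = E (.inl c)) (hR : ∀ c, ¬ p (E (.inr c)))
    (b : C0 → ℤ) (w : (C2 → ℤ) → ℝ)
    (hw : ∀ y, X.wt (smg E b y) = (X.cut p 0).wt (fun c => b (eL.symm c)) * w y)
    (g : (X.C → ℤ) → ℂ) : X.fib p g (fun c => b (eL.symm c)) = ∑' y, (w y : ℂ) * g (smg E b y) ∧
      X.fsum p (fun c => b (eL.symm c)) = ∑' y, w y := by
  let eR : C2 ≃ {c // ¬ p c} := Equiv.ofBijective (fun c => ⟨E (.inr c), hR c⟩)
    ⟨fun _ _ e => Sum.inr_injective (E.injective (congrArg Subtype.val e)), fun x => by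
      obtain ⟨x, hx⟩ := x
      obtain ⟨c | c, rfl⟩ := E.surjective x
      exacts [absurd (hL c ▸ (eL c).2) hx, ⟨c, rfl⟩]⟩
  have e : ∀ y : C2 → ℤ, Db.mg p (fun c => b (eL.symm c)) (ren eR y) = smg E b y := fun y =>
    funext fun x => by
      obtain ⟨c | c, rfl⟩ := E.surjective x
      · rw [smg_inl, ← hL, Db.mg_pos, eL.symm_apply_apply]
      · exact (dif_neg (hR c)).trans ((congrArg y (eR.symm_apply_apply c)).trans
          (smg_inr E b y c).symm)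
  have k : ∀ y, X.ker p (fun c => b (eL.symm c)) (ren eR y) = w y := fun y => by
    rw [ker, e, hw]
    exact mul_div_cancel_left₀ _ (wt_pos _ _).ne'
  rw [fsum_eq, fib, ← (ren eR).tsum_eq, ← (ren eR).tsum_eq]
  simp only [k, e, and_self]

theorem Ecp_congr {σ : Type} (X : TS σ) {p p' : X.C → Prop} [DecidablePred p] [DecidablePred p']
    (h : ∀ c, p c ↔ p' c) (g : (X.C → ℤ) → ℂ) : X.Ecp p 0 g = X.Ecp p' 0 g := by
  obtain rfl : p = p' := funext fun c => propext (h c)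
  congr

theorem sh_As {σ τ : Type} [DecidableEq σ] {T : TS σ} {S : Sh σ τ} {st : T.C → ℕ} {M : ℕ}
    (hs : T.Stg st M) (o : S.Ok) :
    ((T.sh S).stg fun p => st p.1.1).A = T.kw S (T.stg st).A 1 := by
  refine Matrix.ext fun (p : T.Cw S) (p' : T.Cw S) => (stg_A (T := T.sh S) p p').trans
    (Eq.trans ?_ ((stg_A (T := T.tw S (T.tw0 S)) p p').symm.trans
      (congrFun₂ (lw_A hs (hs.adm o) o) p p')))
  exact if_congr Iff.rfl (congrArg (coeff (Finsupp.single p' 1))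
    (congrArg (S.cf _ p.1.2) (eval₂_tw0 _ _).symm)) rfl

theorem glue_self {C R : Type} (p : C → Prop) [DecidablePred p] (b : C → R) :
    glue p (fun c => b c.1) b = b := funext fun c => by
  unfold glue; split_ifs <;> rfl

theorem fb_cut {σ0 σ1 σ2 : Type} {T1 : TS σ1} {T0 : TS σ0} {T2 : TS σ2} {e : T0.C ⊕ T2.C ≃ T1.C}
    {b : T0.C → ℤ} (h : T1.Fb T0 T2 e b) {p1 : T1.C → Prop} {p0 : T0.C → Prop} {p2 : T2.C → Prop}
    [DecidablePred p1] [DecidablePred p0] [DecidablePred p2]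
    (k : ∀ s, Sum.elim p0 p2 s ↔ p1 (e s)) (z2 : T2.C → ℤ) :
    (T1.cut p1 (smg e b z2)).Fb (T0.cut p0 b) (T2.cut p2 z2) (subE e p1 p0 p2 k) fun c => b c.1 :=
  Fb.cut k ((glue_self p0 b).symm ▸ h) z2

theorem gen {T1 T0 T2 X : TS Unit} {e : T0.C ⊕ T2.C ≃ T1.C} {b : T0.C → ℤ} (F : T1.Fb T0 T2 e b)
    (t1 : T1.Tri) (t0 : T0.Tri) (pd : T2.K.PosDef) (dt : T2.A.det ≠ 0)
    (hA : ∀ s s', T1.A (e s) (e s') = fromBlocks T0.A 0 0 T2.A s s') {t : ℕ} (p2 : T2.C → Prop)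
    [DecidablePred p2] (K : ∀ s, Sum.elim (T0.lev · < t) p2 s ↔ T1.lev (e s) < t) (k : T2.C → ℤ)
    (hk : ∀ q, k q ≠ 0 → T1.lev (e (.inr q)) = t) (le : X.C ≃ (T1.lt t).C)
    (hX : ∀ y, X.wt (y ∘ le) = (T1.lt t).wt y) (p : X.C → Prop) [DecidablePred p]
    (eL : (T0.lt t).C ≃ {x // p x}) (hL : ∀ c, (le (eL c).1).1 = e (.inl c.1))
    (hR : ∀ x q, (le x).1 = e (.inr q) → ¬ p x)
    (h0 : ∀ y, (T0.lt t).wt (y ∘ eL) = (X.cut p 0).wt y) (g : (X.C → ℤ) → ℂ)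
    (hg : ∀ y, g (y ∘ le) = T1.ph (smg e 0 k) (glue (T1.lev · < t) y 0)) :
    ‖T2.Ecp p2 0 (T2.ph k)‖ = ‖X.fib p g fun c => b (eL.symm c).1‖ /
      X.fsum p fun c => b (eL.symm c).1 := by
  have W := (fb_cut F (p1 := (T1.lev · < t)) K 0).wt (t0.pd.submatrix Subtype.val_injective)
    (pd.submatrix Subtype.val_injective)
  have W2 : ∀ y, X.wt (smg ((subE e (T1.lev · < t) _ _ K).trans le.symm) (fun c => b c.1) y) =
      (X.cut p 0).wt (fun c => b (eL.symm c).1) * (T2.cut p2 0).wt y := fun y => by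
    refine (hX (smg (subE e (T1.lev · < t) _ _ K) (fun c => b c.1) y)).trans
      ((congrFun ((t1.low_lev t).wt_cut 0 (smg e b 0)) _).trans ((W y).trans (congrArg (· * _) ?_)))
    refine (congrFun ((t0.low_lev t).wt_cut b 0) _).trans (Eq.trans ?_ (h0 _))
    exact congrArg (T0.lt t).wt (funext fun c => congrArg (fun c : (T0.lt t).C => b c.1)
      (eL.symm_apply_apply c).symm)
  obtain ⟨e1, e2⟩ := fib_eq (p := p) ((subE e (T1.lev · < t) _ _ K).trans le.symm) eL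
    (fun c => le.injective (Subtype.ext ((hL c).trans (congrArg Subtype.val
      (le.apply_symm_apply (subE e (T1.lev · < t) _ _ K (.inl c)))).symm)))
    (fun q => hR _ q.1 (congrArg Subtype.val
      (le.apply_symm_apply (subE e (T1.lev · < t) _ _ K (.inr q)))))
    (fun c => b c.1) (T2.cut p2 0).wt W2 g
  refine Eq.trans ?_ (congrArg₂ (‖·‖ / ·) e1 e2).symm
  refine (norm_div _ _).trans (congrArg₂ (‖·‖ / ·) (tsum_congr fun y => congrArg _ ?_)
    (Complex.norm_of_nonneg (Z_nonneg _)))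
  refine (F.ph hA t0.det dt k _).symm.trans (Eq.trans (t1.ph_low (l := t) (fun x hx => ?_)
    fun x hx => ?_) (hg (smg (subE e (T1.lev · < t) _ _ K) (fun c => b c.1) y)).symm)
  · obtain ⟨c | q, rfl⟩ := e.surjective x
    · exact smg_inl ..
    · exact (smg_inr ..).trans (by_contra fun z => hx.ne' (hk q z))
  · exact (congrFun ((glue_smg (p1 := (T1.lev · < t)) K (fun c => b c.1) y b 0).trans (congrArg (smg e · _)
      (glue_self _ b))) x).symm.trans ((glue_pos (p := (T1.lev · < t)) _ _ hx).trans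
        (glue_pos (p := (T1.lev · < t)) _ 0 hx).symm)

variable {τ0 τ : Type} {T : TS Unit} {S0 : Sh Unit τ0} {S : Sh Unit τ}
  {v : Matrix (Option S0.W) (Option S0.W) ℝ} {st : T.C → ℕ} {M : ℕ} {Ψ0 : T.Twd S0} {a : ℝ}

variable (T S v st Ψ0) in
/-- the earlier stages on the product -/
abbrev XX (t : ℕ) : TS Unit := (T.cut (fun F => st F < t) 0).lw (S0.ten S v) (fun F => st F.1)
  (T.rt (S0.ten S v) _ (T.tin S0 S v Ψ0))

variable (T S v st) in
/-- the background coordinates -/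
abbrev pp (t : ℕ) (x : (T.cut (fun F => st F < t) 0).Cw (S0.ten S v)) : Prop :=
  (x.1.2 : Sh.TW S0 S).1.2 = none

variable (v Ψ0) in
/-- the background coordinates of the earlier stages -/
def eL (h : S.Ok) (t : ℕ) : ((T.lw S0 st Ψ0).lt t).C ≃ {x // pp T S v st t x} :=
  Equiv.ofBijective (fun c => ⟨⟨(⟨c.1.1.1, (lt_iff t c.1).1 c.2⟩, Sh.i0 S c.1.1.2),
      (T.tQ v h (.inl c.1)).2⟩, rfl⟩)
    ⟨fun _ _ e => Subtype.ext (Subtype.ext (Prod.ext (congrArg (·.1.1.1.1) e)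
      (Option.some.inj (congrArg (·.1.1.2.1.1) e)))), fun x => by
      obtain ⟨c | c, e⟩ := (T.tQ v h).surjective ⟨(x.1.1.1.1, x.1.1.2), x.1.2⟩
      · have a : c.1.1 = x.1.1.1.1 := congrArg (·.1.1) e
        exact ⟨⟨c, (lt_iff t c).2 (a ▸ x.1.1.1.2)⟩, Subtype.ext (Subtype.ext
          (Prod.ext (Subtype.ext a) (congrArg (·.1.2) e)))⟩
      · cases (congrArg (·.1.2.1.2) e).trans x.2⟩

variable (hs : T.Stg st M) (h0 : S0.Ok) (h : S.Ok) (hv : S0.Tk v a) (hΨ : T.Adm S0 st Ψ0)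
include hs h0 h hv hΨ

theorem xx_tri (t : ℕ) : (XX T S v st Ψ0 t).Tri :=
  lw_tri (hs.cut_lt t) (hΨ.tin.rt _) (Tz.ten_ok h0 h hv)

theorem cut_iso (t : ℕ) : ∃ V B V', ((XX T S v st Ψ0 t).cut (pp T S v st t) 0).Iso
    ((T.lw S0 st Ψ0).lt t) (· ∘ eL v Ψ0 h t) V B V' := by
  refine ⟨_, _, _, Iso.of_equiv ((xx_tri hs h0 h hv hΨ t).cut_low (lw_low cn_ten.idl) 0)
    ((lw_tri hs hΨ h0).lt t) (eL v Ψ0 h t) (fun _ => rfl) (fun y c => ?_) fun _ _ => rfl⟩
  let z := ex T (S0.ten S v) st t (glue (pp T S v st t) y 0)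
  refine (u_cut _ _ _ _ _).trans (Eq.trans ?_ (Eq.symm ((u_cut _ _ _ _ _).trans
    ((congrArg (fun z => (XX T S v st Ψ0 t).u z _) (zc_glue y 0).symm).trans ((u_ex _ _).trans
      ((ten_fb0 (fun c => z (T.tQ v h (.inl c))) h h0 hΨ).u0 (zc z) (fun _ => rfl) c.1))))))
  refine congrArg (fun z => (T.tw S0 Ψ0).u z c.1) ((zc_glue _ _).symm.trans (congrArg zc
    (funext fun x => dite_congr (propext (lt_iff t x)) (fun _ => ?_) fun _ => rfl)))
  exact (glue_val (p := pp T S v st t) y 0 (eL v Ψ0 h t ⟨x, _⟩)).symm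

theorem sb_eq {t t' : ℕ} (k : T.Tq S0 S → ℤ) (hk : ∀ q, k q ≠ 0 → st q.1.1.1.1 = t)
    (ht : ∀ q : T.Tq S0 S, T.ts S0 st M q.1.1 < t' ↔ st q.1.1.1.1 < t) (b : T.Cw S0 → ℤ) :
    (((T.tan S0 Ψ0 v b).sh S).stg fun p => T.ts S0 st M p.1.1).bias t' k =
      ‖(XX T S v st Ψ0 t).fib (pp T S v st t) (fun y => (T.lw (S0.ten S v) st
        (T.tin S0 S v Ψ0)).ph (smg (T.tQ v h) 0 k) (ex T (S0.ten S v) st t y))
          fun c => b ((eL v Ψ0 h t).symm c).1‖ /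
      (XX T S v st Ψ0 t).fsum (pp T S v st t) fun c => b ((eL v Ψ0 h t).symm c).1 := by
  have o := Tz.ten_ok h0 h hv
  have tV := tan_stg (b := b) hs h0 hΨ hv
  have aV := (sh_As tV h).trans (congrArg (fun B => T.kq S0 S B 1) (tan_As (b := b) hs h0 hΨ))
  obtain ⟨V, B, V', i⟩ := cut_iso hs h0 h hv hΨ t
  refine (congrArg norm (Ecp_congr _ (p' := fun q : T.Tq S0 S => st q.1.1.1.1 < t)
    (fun q => (iff_of_eq (congrArg (· < t') (stg_lev _))).trans (ht q)) _)).trans ?_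
  refine gen (T1 := T.lw (S0.ten S v) st (T.tin S0 S v Ψ0)) (T0 := T.lw S0 st Ψ0)
    (T2 := ((T.tan S0 Ψ0 v b).sh S).stg fun p => T.ts S0 st M p.1.1) (X := XX T S v st Ψ0 t)
    ((ten_fb0 (v := v) b h h0 hΨ).stg _ _ _) (lw_tri hs hΨ.tin o) (lw_tri hs hΨ h0)
    (kw_posDef tV.cl.1.pd h.pd)
    ((congrArg det (sh_As tV h)).trans_ne (kw_inv tV.bl one_cd tV.tri.det (by simp)).2)
    (fun s s' => (congrFun₂ (lw_A hs hΨ.tin o) _ _).trans ((kw1_tQ h _ s s').trans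
      (congrArg₂ (fun A B => fromBlocks A 0 0 B s s') (lw_A hs hΨ h0) aV).symm)) _ ?_ k
    (fun q z => (lw_lev _).trans (hk q z)) (T.le st (S0.ten S v) (T.tin S0 S v Ψ0) t)
    (lt_iso hs o hΨ.tin t).wt _ (eL v Ψ0 h t) (fun _ => rfl)
    (fun x q e z => by cases (congrArg (·.1.2.1.2) e).symm.trans z) i.wt _ fun y => ?_
  · rintro (c | q)
    exacts [Iff.rfl, (lt_iff (Ψ := T.tin S0 S v Ψ0) t (T.tQ v h (.inr q))).symm]
  · exact congrArg _ (funext fun x => dite_congr (propext (lt_iff t x).symm) (fun _ => rfl)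
      fun _ => rfl)

end Pk2

end Crest.Agent.N49.Tw

end
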